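import Vale.Agent.P022K.L3.RelA

/-!
# P022K, block L3: the involution, the letters, row REL
-/

set_option linter.all false

noncomputable section

namespace Vale.Agent.P022K.L3

open Filter Topology

namespace RelP

variable {G : Type} [Group G] [TopologicalSpace G] {H : Subgroup G}

theorem cluster [CompactSpace G] (x : ℕ → G) : ∃ y, ∀ S : Set G, IsClosed S →
    (∀ᶠ n in atTop, x n ∈ S) → y ∈ S := by
  obtain ⟨y, hy⟩ := exists_clusterPt_of_compactSpace (map x atTop)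
  exact ⟨y, fun S hS h => hS.closure_subset (mem_closure_iff_clusterPt.2 (hy.mono (by
    rwa [le_principal_iff])))⟩

theorem ch_one {f : G → ZMod 3} (h : Ch H f) : f 1 = 0 := by
  have := h.2 1 H.one_mem 1 H.one_mem
  rw [one_mul] at this
  exact left_eq_add.1 this

theorem ch_inv {f : G → ZMod 3} (h : Ch H f) {x : G} (hx : x ∈ H) : f x⁻¹ = -f x := by
  have := h.2 x hx x⁻¹ (H.inv_mem hx)
  rw [mul_inv_cancel, ch_one h] at this
  linear_combination -this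

theorem ch_pow {f : G → ZMod 3} (h : Ch H f) {x : G} (hx : x ∈ H) (n : ℕ) :
    f (x ^ n) = n * f x := by
  induction n with
  | zero => simp [ch_one h]
  | succ n ih => rw [pow_succ, h.2 _ (H.pow_mem hx n) _ hx, ih]; push_cast; ring

theorem ch_hm {f : G → ZMod 3} (h : Ch H f) : Hm fun x : H => f x :=
  ⟨h.1.comp_continuous continuous_subtype_val, fun x y => h.2 x x.2 y y.2⟩

variable [IsTopologicalGroup G]

theorem ext_lc (ho : IsOpen (H : Set G)) {f : H → ZMod 3} (hf : IsLocallyConstant f) :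
    ∃ F : G → ZMod 3, IsLocallyConstant F ∧ ∀ x : H, F x = f x := by
  classical
  refine ⟨fun x => if h : x ∈ H then f ⟨x, h⟩ else 0,
    (IsLocallyConstant.iff_exists_open _).2 fun x => ?_, fun x => dif_pos x.2⟩
  by_cases h : x ∈ H
  · refine ⟨Subtype.val '' {y : H | f y = f ⟨x, h⟩},
      ho.isOpenMap_subtype_val _ (hf.isOpen_fiber _), ⟨⟨x, h⟩, rfl, rfl⟩, ?_⟩
    rintro _ ⟨y, hy, rfl⟩
    rw [dif_pos y.2, dif_pos h]
    exact hy
  · exact ⟨(H : Set G)ᶜ, (H.isClosed_of_isOpen ho).isOpen_compl, h, fun y hy => by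
      rw [dif_neg (show y ∉ H from hy), dif_neg h]⟩

theorem cb_iff (ho : IsOpen (H : Set G)) (a b : G → ZMod 3) :
    Cb (fun x : H => a x) (fun x : H => b x) ↔ Cup0 H a b := by
  constructor
  · rintro ⟨z, z1, z2⟩
    obtain ⟨F, f1, f2⟩ := ext_lc ho z1
    refine ⟨F, f1, fun x hx y hy => ?_⟩
    have := z2 ⟨x, hx⟩ ⟨y, hy⟩
    rwa [← f2, ← f2, ← f2] at this
  · rintro ⟨z, z1, z2⟩
    exact ⟨fun x => z x, z1.comp_continuous continuous_subtype_val, fun x y => z2 x x.2 y y.2⟩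

/-- open normal subgroups modulo which `H` is a 3-group -/
structure Nk (H N : Subgroup G) : Prop where
  nm : N.Normal
  op : IsOpen (N : Set G)
  pw : ∀ x ∈ H, ∃ k : ℕ, x ^ 3 ^ k ∈ N

theorem Nk.ev {N : Subgroup G} (h : Nk H N) {x : G} (hx : x ∈ H) :
    ∀ᶠ n in atTop, x ^ 3 ^ n ∈ N := by
  obtain ⟨k, hk⟩ := h.pw x hx
  refine (eventually_ge_atTop k).mono fun n hn => ?_
  rw [← Nat.add_sub_cancel' hn, pow_add, pow_mul]
  exact N.pow_mem hk _

variable [CompactSpace G]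

theorem ex_inv (ho : IsOpen (H : Set G)) (hi : H.index = 2) :
    ∃ δ ∉ H, ∀ N, Nk H N → δ * δ ∈ N := by
  obtain ⟨s, hs⟩ : ∃ s, s ∉ H := by
    by_contra c
    push Not at c
    rw [(Subgroup.eq_top_iff' H).2 c, Subgroup.index_top] at hi
    omega
  obtain ⟨δ, hδ⟩ := cluster fun n => s ^ 3 ^ n
  refine ⟨δ, hδ (H : Set G)ᶜ ho.isClosed_compl (Eventually.of_forall fun n => ?_), fun N h =>
    hδ {x | x * x ∈ N} ((N.isClosed_of_isOpen h.op).preimage (continuous_id.mul continuous_id))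
      ((h.ev (Subgroup.mul_self_mem_of_index_two hi s)).mono fun n hn => ?_)⟩
  · obtain ⟨m, hm⟩ : Odd (3 ^ n) := Odd.pow (by decide)
    intro k
    rw [hm, pow_succ, pow_mul, pow_two] at k
    exact hs ((H.mul_mem_cancel_left (H.pow_mem (Subgroup.mul_self_mem_of_index_two hi s) m)).1 k)
  · show s ^ 3 ^ n * s ^ 3 ^ n ∈ N
    rwa [← (Commute.refl s).mul_pow]

theorem ex_fix (ho : IsOpen (H : Set G)) [H.Normal] {δ : G} (hδ : ∀ N, Nk H N → δ * δ ∈ N) {x : G}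
    (hx : x ∈ H) : ∃ y ∈ H, (∀ N, Nk H N → (δ * y)⁻¹ * (y * δ) ∈ N) ∧
      ∀ f, Ch H f → (f (δ * x * δ⁻¹) = f x → f y = f x) ∧ (f (δ * x * δ⁻¹) = -f x → f y = 0) := by
  have hs : δ * x * δ⁻¹ ∈ H := Subgroup.Normal.conj_mem inferInstance x hx δ
  have hz : x⁻¹ * (δ * x * δ⁻¹) ∈ H := H.mul_mem (H.inv_mem hx) hs
  set z := x⁻¹ * (δ * x * δ⁻¹) with ez
  obtain ⟨w, hw⟩ := cluster fun n => z ^ ((3 ^ n + 1) / 2)
  have hc := H.isClosed_of_isOpen ho
  have wH : w ∈ H := hw H hc (Eventually.of_forall fun n => H.pow_mem hz _)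
  have h2 : ∀ n : ℕ, (3 ^ n + 1) / 2 + (3 ^ n + 1) / 2 = 3 ^ n + 1 := fun n => by
    obtain ⟨m, hm⟩ : Odd (3 ^ n) := Odd.pow (by decide)
    omega
  refine ⟨x * w, H.mul_mem hx wH, fun N h => ?_, fun f hf => ?_⟩
  · haveI := h.nm
    refine hw {t | (δ * (x * t))⁻¹ * (x * t * δ) ∈ N}
      ((N.isClosed_of_isOpen h.op).preimage (by fun_prop)) ((h.ev hz).mono fun n hn => ?_)
    show (δ * (x * z ^ ((3 ^ n + 1) / 2)))⁻¹ * (x * z ^ ((3 ^ n + 1) / 2) * δ) ∈ N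
    rw [← QuotientGroup.eq]
    have d2 := (QuotientGroup.eq_one_iff _).2 (hδ N h)
    have z3 := (QuotientGroup.eq_one_iff _).2 hn
    have ez' : (z : G ⧸ N) = (x : G ⧸ N)⁻¹ * (δ * x * (δ : G ⧸ N)⁻¹) := rfl
    simp only [QuotientGroup.mk_mul, QuotientGroup.mk_pow] at d2 z3 ⊢
    generalize (z : G ⧸ N) = Z at *
    generalize (x : G ⧸ N) = X at *
    generalize (δ : G ⧸ N) = D at *
    have e1 : D * Z * D⁻¹ = Z⁻¹ := by
      have : D * Z * D⁻¹ = (D * X * D⁻¹)⁻¹ * ((D * D) * X * (D * D)⁻¹) := by rw [ez']; group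
      rw [this, d2, ez']
      group
    have e2 : Z ^ ((3 ^ n + 1) / 2) * Z ^ ((3 ^ n + 1) / 2) = Z := by
      rw [← pow_add, h2, pow_succ, z3, one_mul]
    have e3 : D * Z ^ ((3 ^ n + 1) / 2) * D⁻¹ = (Z ^ ((3 ^ n + 1) / 2))⁻¹ := by
      rw [← conj_pow, e1, inv_pow]
    generalize Z ^ ((3 ^ n + 1) / 2) = W at e2 e3
    calc D * (X * W) = X * (X⁻¹ * (D * X * D⁻¹)) * (D * W * D⁻¹) * D := by group
      _ = X * W * D := by rw [← ez', e3, ← e2]; group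
  · have fw : f w = -f z := hw {t | f t = -f z} (hf.1.isClosed_fiber _)
      ((eventually_ge_atTop 1).mono fun n hn => by
        have e := congrArg (Nat.cast : ℕ → ZMod 3) (h2 n)
        obtain ⟨m, rfl⟩ := Nat.exists_eq_add_of_le' hn
        have e3 : (3 : ZMod 3) = 0 := rfl
        rw [Nat.cast_add, Nat.cast_add, Nat.cast_pow, Nat.cast_ofNat, e3, zero_pow (by omega)] at e
        show f (z ^ _) = _
        rw [ch_pow hf hz]
        linear_combination (-f z) * e + (((3 ^ (m + 1) + 1) / 2 : ℕ) * f z) * e3)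
    have fz : f z = -f x + f (δ * x * δ⁻¹) := by rw [hf.2 _ (H.inv_mem hx) _ hs, ch_inv hf hx]
    have e3 : (3 : ZMod 3) = 0 := rfl
    rw [hf.2 _ hx _ wH, fw, fz]
    exact ⟨fun e => by rw [e]; ring, fun e => by rw [e]; linear_combination f x * e3⟩

omit [TopologicalSpace G] [IsTopologicalGroup G] [CompactSpace G] in
theorem ex_det {a a' : G → ZMod 3} (h : ¬ ∀ x ∈ H, a x = 0)
    (h' : ∀ c : ZMod 3, ¬ ∀ x ∈ H, a' x = c * a x) :
    ∃ x ∈ H, ∃ y ∈ H, a x * a' y - a y * a' x ≠ 0 := by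
  haveI : Fact (Nat.Prime 3) := ⟨Nat.prime_three⟩
  push Not at h h'
  obtain ⟨x, hx, e⟩ := h
  obtain ⟨y, hy, e'⟩ := h' (a' x / a x)
  exact ⟨x, hx, y, hy, fun k => e' (by field_simp; linear_combination k)⟩

end RelP

open RelP in
theorem relS : RelS := by
  intro G _ _ _ _ H a b L
  have e3 : (3 : ZMod 3) = 0 := rfl
  haveI hn : H.Normal := Subgroup.normal_of_index_eq_two L.idx
  haveI : CompactSpace H := isCompact_iff_compactSpace.1 (H.isClosed_of_isOpen L.opn).isCompact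
  obtain ⟨δ, δH, hδ⟩ := ex_inv L.opn L.idx
  obtain ⟨z, z1, z2⟩ := L.c10
  obtain ⟨p, hp, p', hp', da⟩ := ex_det (H := H) (a := a 1) (a' := a 0)
    (fun h => L.c11 ⟨0, IsLocallyConstant.const 0, fun x hx y _ => by simp [h x hx]⟩)
    fun c h => L.c00 ⟨fun x => c * z x, z1.comp (c * ·), fun x hx y hy => by
      beta_reduce
      rw [z2 x hx y hy, h x hx]; ring⟩
  obtain ⟨q, hq, q', hq', db⟩ := ex_det (H := H) (a := b 0) (a' := b 1)
    (fun h => L.c00 ⟨0, IsLocallyConstant.const 0, fun x _ y hy => by simp [h y hy]⟩)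
    fun c h => L.c11 ⟨fun x => c * z x, z1.comp (c * ·), fun x hx y hy => by
      beta_reduce
      rw [z2 x hx y hy, h y hy]; ring⟩
  obtain ⟨x, hx, fx, vx⟩ := ex_fix L.opn hδ hp
  obtain ⟨x', hx', fx', vx'⟩ := ex_fix L.opn hδ hp'
  have hy : ∀ t ∈ H, t * (δ * t * δ⁻¹)⁻¹ ∈ H := fun t ht =>
    H.mul_mem ht (H.inv_mem (hn.conj_mem t ht δ))
  have sq : ∀ f, Ch H f → ∀ t ∈ H, f (t * t) = -f t := fun f hf t ht => by
    rw [hf.2 t ht t ht]
    linear_combination f t * e3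
  have ya : ∀ i, ∀ t ∈ H, a i (t * (δ * t * δ⁻¹)⁻¹) = 0 := fun i t ht => by
    rw [(L.ha i).2 _ ht _ (H.inv_mem (hn.conj_mem t ht δ)), ch_inv (L.ha i) (hn.conj_mem t ht δ),
      L.ea i δ δH t ht, add_neg_cancel]
  have yb : ∀ i, ∀ t ∈ H, b i (t * (δ * t * δ⁻¹)⁻¹) = -b i t := fun i t ht => by
    rw [(L.hb i).2 _ ht _ (H.inv_mem (hn.conj_mem t ht δ)), ch_inv (L.hb i) (hn.conj_mem t ht δ),
      L.eb i δ δH t ht]
    linear_combination b i t * e3
  let h : Fin 4 → H := ![⟨x, hx⟩, ⟨x', hx'⟩, ⟨_, hy q hq⟩, ⟨_, hy q' hq'⟩]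
  let g : Fin 4 → H := fun i => h i * h i
  have a0 : ∀ i, a i (g 0) = -a i p := fun i => by
    rw [← (vx _ (L.ha i)).1 (L.ea i δ δH p hp)]; exact sq _ (L.ha i) _ hx
  have a1 : ∀ i, a i (g 1) = -a i p' := fun i => by
    rw [← (vx' _ (L.ha i)).1 (L.ea i δ δH p' hp')]; exact sq _ (L.ha i) _ hx'
  have a2 : ∀ i, a i (g 2) = 0 := fun i => (sq _ (L.ha i) _ (hy q hq)).trans (by
    rw [ya i q hq, neg_zero])
  have a3 : ∀ i, a i (g 3) = 0 := fun i => (sq _ (L.ha i) _ (hy q' hq')).trans (by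
    rw [ya i q' hq', neg_zero])
  have b0 : ∀ i, b i (g 0) = 0 := fun i => (sq _ (L.hb i) _ hx).trans (by
    rw [(vx _ (L.hb i)).2 (L.eb i δ δH p hp), neg_zero])
  have b1 : ∀ i, b i (g 1) = 0 := fun i => (sq _ (L.hb i) _ hx').trans (by
    rw [(vx' _ (L.hb i)).2 (L.eb i δ δH p' hp'), neg_zero])
  have b2 : ∀ i, b i (g 2) = b i q := fun i => (sq _ (L.hb i) _ (hy q hq)).trans (by
    rw [yb i q hq, neg_neg])
  have b3 : ∀ i, b i (g 3) = b i q' := fun i => (sq _ (L.hb i) _ (hy q' hq')).trans (by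
    rw [yb i q' hq', neg_neg])
  have G0 : ∀ f : H → ZMod 3, Hm f → (∀ j, f (g j) = 0) → ∀ t, f t = 0 := fun f hf h0 t => by
    obtain ⟨F, f1, f2⟩ := ext_lc L.opn hf.1
    obtain ⟨α, β, e⟩ := L.gen F ⟨f1, fun s hs t ht => by
      have := hf.2 ⟨s, hs⟩ ⟨t, ht⟩
      rwa [← f2, ← f2, ← f2] at this⟩
    have e' := fun j => e (g j) (g j).2
    simp only [f2, h0] at e'
    have e0 := e' 0
    have e1 := e' 1
    have e2 := e' 2
    have e3 := e' 3
    simp only [a0, a1, a2, a3, b0, b1, b2, b3] at e0 e1 e2 e3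
    have k := cramer (p := a 1 p) (q := a 0 p) (r := a 1 p') (s := a 0 p') (x := α 1) (y := α 0)
      (fun c => da (by linear_combination c)) (by linear_combination e0) (by linear_combination e1)
    have k' := cramer (p := b 0 q) (q := b 1 q) (r := b 0 q') (s := b 1 q') (x := β 0) (y := β 1)
      (fun c => db (by linear_combination c)) (by linear_combination -e2)
      (by linear_combination -e3)
    rw [← f2, e t t.2, k.1, k.2, k'.1, k'.2]
    ring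
  obtain ⟨u, u0, u1, u2⟩ := L.kum
  obtain ⟨U, hU, hN⟩ := rel (g := g) G0 (a := fun i t => a i t) (b := fun i t => b i t)
    (fun i => ch_hm (L.ha i)) (fun i => ch_hm (L.hb i)) (fun i => ⟨a2 i, a3 i⟩)
    (fun i => ⟨b0 i, b1 i⟩) (fun c => da (by simp only [a0, a1] at c; linear_combination -c))
    (fun c => db (by simpa only [b2, b3] using c)) (fun c => L.c00 ((cb_iff L.opn _ _).1 c))
    ((cb_iff L.opn _ _).2 ⟨z, z1, z2⟩) (fun c => L.c11 ((cb_iff L.opn _ _).1 c))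
    (u := fun t => u t) (u0.comp_continuous continuous_subtype_val) (fun s t => u1 s s.2 t t.2)
    fun t => u2 t t.2
  refine ⟨δ, fun i => g i, U, δH, fun i => (g i).2, fun i => ⟨h i, rfl⟩, hU, fun M _ ρ hρ => ?_⟩
  have nk : Nk H ρ.ker := ⟨inferInstance, hρ.1, fun t ht => (hρ.2 t ht).imp fun k hk => by
    rw [MonoidHom.mem_ker, map_pow, hk]⟩
  have ok : Ok (ρ.comp H.subtype).ker := ok_ker (hρ.1.preimage continuous_subtype_val)
    fun t => hρ.2 t t.2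
  have eq : ∀ s t, s⁻¹ * t ∈ ρ.ker → ρ s = ρ t := fun s t e => by
    rw [← mul_inv_cancel_left s t, map_mul, MonoidHom.mem_ker.1 e, mul_one]
  have d2 : ρ (δ * δ) = 1 := hδ _ nk
  have gn : ∀ t ∈ H, ∃ w : Wd, ρ t = ev (fun i => ρ (g i)) w := fun t ht => by
    obtain ⟨w, hw⟩ := gen G0 ok ⟨t, ht⟩
    exact ⟨w, ((ev_map (ρ.comp H.subtype) g w).trans (eq _ _ hw)).symm⟩
  have fx2 : ∀ t, ρ (δ * t) = ρ (t * δ) → ρ δ * ρ (t * t) = ρ (t * t) * ρ δ := fun t e => by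
    rw [map_mul, map_mul] at e
    rw [map_mul, ← mul_assoc, e, mul_assoc, e, mul_assoc]
  have iv : ∀ t, ρ δ * ρ (t * (δ * t * δ⁻¹)⁻¹ * (t * (δ * t * δ⁻¹)⁻¹)) * ρ δ *
      ρ (t * (δ * t * δ⁻¹)⁻¹ * (t * (δ * t * δ⁻¹)⁻¹)) = 1 := fun t => by
    have k : ρ _ = 1 := (inferInstance : ρ.ker.Normal).conj_mem _ d2 (δ * t)
    rw [show δ * t * (δ * δ) * (δ * t)⁻¹ = δ * (t * (δ * t * δ⁻¹)⁻¹) * δ * (t * (δ * t * δ⁻¹)⁻¹) by
      group, map_mul, map_mul, map_mul ρ δ] at k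
    rw [map_mul] at d2
    rw [map_mul ρ (t * _)]
    generalize ρ (t * (δ * t * δ⁻¹)⁻¹) = Y at k
    calc ρ δ * (Y * Y) * ρ δ * (Y * Y)
        = ρ δ * Y * (ρ δ * ρ δ) * Y * ρ δ * (Y * Y) := by rw [d2]; simp only [mul_assoc, mul_one]
      _ = ρ δ * Y * ρ δ * (ρ δ * Y * ρ δ * Y) * Y := by simp only [mul_assoc]
      _ = 1 := by rw [k, mul_one, k]
  refine ⟨by rw [← map_mul, d2], fun i => ?_, fun j => ?_,
    (hN _ ok).mono fun w hw => (ev_map (ρ.comp H.subtype) g w).trans hw, gn, fun t ht => ?_⟩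
  · fin_cases i
    exacts [fx2 x (eq _ _ (fx _ nk)), fx2 x' (eq _ _ (fx' _ nk))]
  · fin_cases j
    exacts [iv q, iv q']
  · obtain ⟨w, hw⟩ := gn (δ⁻¹ * t) ((Subgroup.mul_mem_iff_of_index_two L.idx).2
      (iff_of_false (fun c => δH (H.inv_mem_iff.1 c)) ht))
    exact ⟨w, by rw [← hw, ← map_mul, mul_inv_cancel_left]⟩

end Vale.Agent.P022K.L3
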