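import Vale.Agent.P022K.L3.ArC
import Vale.Agent.P022K.L3.Rel

/-!
# P022K, block L3, row AR
-/

set_option linter.all false

noncomputable section

namespace Vale.Agent.P022K.L3

namespace Ar

variable {L : Type} [Field L] {G : Type} [Group G] [TopologicalSpace G] {ι : G →* (L →+* L)}
  {w : AbsoluteValue L ℝ} {H : Subgroup G} {ζ : L}

namespace Cx

variable (c : Cx ι w H ζ) [CharZero L] [IsAlgClosed L]
include c

/-- the square root of `-3` is a norm from the ninth cyclotomic field -/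
theorem c10 {η θ : L} {a b : G → ZMod 3} (ha : Ch H a) (hb : Ch H b) (ka : Ku ι H ζ η a)
    (kb : Ku ι H ζ θ b) (e : η ^ 3 = ζ) (e' : θ ^ 3 = sq3 ζ) : Cup0 H a b := by
  choose t ht using fun j : ZMod 3 => rt (ζ ^ j.val * η * (1 - ζ ^ j.val * η))
  have sum3 : ∀ f : ZMod 3 → ZMod 3, ∑ j, f j = f 0 + f 1 + f 2 := Fin.sum_univ_three
  have prod3 : ∀ f : ZMod 3 → L, ∏ j, f j = f 0 * f 1 * f 2 := Fin.prod_univ_three
  have pr : (∏ j, t j) ^ 3 = θ ^ 3 := by
    rw [prod3, mul_pow, mul_pow, ht, ht, ht, e', sq3, ZMod.val_zero, v1, v2]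
    have := c.zs
    clear ht sum3 prod3 ka kb e' ha hb c
    grind
  have kt := c.kcube kb pr
  have t0 : ∀ j, t j ≠ 0 := fun j k => kt.1 (Finset.prod_eq_zero (Finset.mem_univ j) k)
  let f : ZMod 3 → G → ZMod 3 := fun j g => lg 3 ζ (t (j + a g)) (ι g (t j))
  have hf : ∀ j, ∀ g ∈ H, ι g (t j) = ζ ^ (f j g).val * t (j + a g) := fun j g hg =>
    lg_spec c.prim (t0 _) (by
      rw [← map_pow, ht, ht, pw_add c.z3]
      simp only [map_mul, map_sub, map_pow, map_one, c.zf g hg, ka.2 g hg, mul_assoc])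
  have fm : ∀ j, ∀ x ∈ H, ∀ y ∈ H, f j (x * y) = f j y + f (j + a y) x := fun j x hx y hy =>
    pw_inj c.prim (t0 (j + a (x * y))) (by
      rw [← hf j _ (H.mul_mem hx hy), mul_ap, hf j y hy, map_mul, map_pow, c.zf x hx, hf _ x hx,
        pw_add c.z3, ha.2 x hx y hy, mul_assoc, add_assoc, add_comm (a y)])
  have fs : ∀ g ∈ H, f 0 g + f 1 g + f 2 g = b g := fun g hg => pw_inj c.prim kt.1 (by
    rw [← kt.2 g hg, map_prod, Finset.prod_congr rfl fun j _ => hf j g hg, Finset.prod_mul_distrib,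
      prod3 fun j => ζ ^ (f j g).val, pw_add c.z3, pw_add c.z3]
    congr 1
    exact (Fintype.prod_equiv (Equiv.addRight (a g)) _ _ fun _ => rfl).symm)
  have fl : ∀ j, IsLocallyConstant (f j) := fun j =>
    (ha.1.prodMk (c.lc (t j))).comp fun z => lg 3 ζ (t (j + z.1)) z.2
  refine swap hb ha ⟨fun g => f 1 g - f 2 g |> Neg.neg, ((fl 1).sub (fl 2)).neg,
    fun x hx y hy => ?_⟩
  beta_reduce
  rw [fm 1 x hx y hy, fm 2 x hx y hy, ← fs x hx]
  have h3 : (3 : ZMod 3) = 0 := rfl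
  rcases Ar.z3 (a y) with k | k | k <;> rw [k]
  · simp only [add_zero]; ring
  · rw [show (1 + 1 : ZMod 3) = 2 from rfl, show (2 + 1 : ZMod 3) = 0 from rfl]
    linear_combination -f 2 x * h3
  · rw [show (1 + 2 : ZMod 3) = 0 from rfl, show (2 + 2 : ZMod 3) = 1 from rfl]
    linear_combination -f 0 x * h3 - f 2 x * h3

theorem kum {η θ : L} {a b : G → ZMod 3} (ka : Ku ι H ζ η a) (kb : Ku ι H ζ θ b) (e : η ^ 3 = ζ) :
    ∃ u : G → ZMod 9, IsLocallyConstant u ∧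
      (∀ x ∈ H, ∀ y ∈ H, u (x * y) = u x + (1 + 3 * ((a x).val : ZMod 9)) * u y) ∧
      ∀ x ∈ H, ZMod.castHom (show 3 ∣ 9 by norm_num) (ZMod 3) (u x) = b x := by
  obtain ⟨ρ, rfl⟩ := rt θ
  have r0 : ρ ≠ 0 := fun k => kb.1 (by rw [k]; norm_num)
  have : Fact (Nat.Prime 3) := ⟨Nat.prime_three⟩
  have pr : IsPrimitiveRoot η 9 := by
    have := orderOf_eq_prime_pow (x := η) (p := 3) (n := 1)
      (by rw [pow_one, e]; exact c.prim.ne_one (by norm_num))
      (by rw [show 3 ^ (1 + 1) = 3 * 3 from rfl, pow_mul, e, c.z3])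
    exact (show orderOf η = 9 from this) ▸ IsPrimitiveRoot.orderOf η
  have n9 := pr.pow_eq_one
  let u : G → ZMod 9 := fun g => lg 9 η ρ (ι g ρ)
  have hu : ∀ g ∈ H, ι g ρ = η ^ (u g).val * ρ := fun g hg => lg_spec pr r0 (by
    have := c.kfx kb g hg
    rwa [← pow_mul, map_pow] at this)
  refine ⟨u, (c.lc ρ).comp (lg 9 η ρ), fun x hx y hy => pw_inj pr r0 ?_, fun x hx => ?_⟩
  · have : (1 + 3 * ((a x).val : ZMod 9)) = ((1 + 3 * (a x).val : ℕ) : ZMod 9) := by push_cast; rfl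
    rw [← hu _ (H.mul_mem hx hy), mul_ap, hu y hy, map_mul, map_pow, hu x hx, ka.2 x hx,
      pw_add n9, pw_mul n9, this, pw_nat n9, ← e]
    ring
  · refine pw_inj c.prim kb.1 ?_
    rw [← kb.2 x hx, map_pow, hu x hx, ZMod.castHom_apply, ZMod.cast_eq_val, pw_nat c.z3, ← e]
    ring

theorem idx : H.index = 2 := by
  obtain ⟨σ, hσ⟩ := c.exσ
  refine Subgroup.index_eq_two_iff.2 ⟨σ, fun g => ?_⟩
  by_cases hg : g ∈ H
  · exact .inr ⟨hg, fun k => hσ ((H.mul_mem_cancel_left hg).1 k)⟩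
  · exact .inl ⟨c.mul_out hg hσ, hg⟩

/-- **row AR**, abstract form -/
theorem loc3 : ∃ a b : Fin 2 → G → ZMod 3, Loc3 H a b := by
  obtain ⟨θ0, e0⟩ := rt (1 + 3 * sq3 ζ)
  obtain ⟨η, e1⟩ := rt ζ
  obtain ⟨θ, e2⟩ := rt (sq3 ζ)
  obtain ⟨τ, e3⟩ := rt (2 : L)
  have ne : ∀ {x y : L}, x ^ 3 = y → y ≠ 0 → x ≠ 0 := fun h k k' => k (by rw [← h, k']; norm_num)
  have s2 := c.s2
  have h28 : (1 + 3 * sq3 ζ) * (1 - 3 * sq3 ζ) = 28 := by linear_combination -9 * s2
  have n0 := ne e0 (left_ne_zero_of_mul (h28.trans_ne (by norm_num)))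
  have n1 := ne e1 c.z0
  have n2 := ne e2 c.s0
  have n3 := ne e3 two_ne_zero
  have f0 : θ0 ^ 3 ∈ Fx ι H := e0 ▸ add_mem (one_mem _) (mul_mem (ofNat_mem _ 3) c.sf)
  have f1 : η ^ 3 ∈ Fx ι H := e1 ▸ c.zf
  have f2 : θ ^ 3 ∈ Fx ι H := e2 ▸ c.sf
  have f3 : τ ^ 3 ∈ Fx ι H := e3 ▸ ofNat_mem _ 2
  have k0 := c.ku n0 f0
  have k1 := c.ku n1 f1
  have k2 := c.ku n2 f2
  have k3 := c.ku n3 f3
  have km : Ku ι H ζ (-1) fun _ => 0 := kfix (by norm_num) (neg_mem (one_mem _))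
  have h3 : (3 : ZMod 3) = 0 := rfl
  have iv : ∀ s ∉ H, s⁻¹ ∉ H := fun s hs k => hs (H.inv_mem_iff.1 k)
  refine ⟨![chi ι ζ θ0, chi ι ζ η], ![chi ι ζ θ, chi ι ζ τ], c.clo.2, c.idx,
    Fin.forall_fin_two.2 ⟨c.ch n0 f0, c.ch n1 f1⟩, Fin.forall_fin_two.2 ⟨c.ch n2 f2, c.ch n3 f3⟩,
    Fin.forall_fin_two.2 ⟨fun s hs x hx => ?_, fun s hs x hx => ?_⟩,
    Fin.forall_fin_two.2 ⟨fun s hs x hx => ?_, fun s hs x hx => ?_⟩, fun f hf => ?_,
    c.c00 (c.ch n0 f0) k0 k2 e0 e2, c.c10 (c.ch n1 f1) (c.ch n2 f2) k1 k2 e1 e2,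
    c.c11 (c.ch n1 f1) (c.ch n3 f3) k1 k3 e3 e1, c.kum k1 k3 e1⟩
  · obtain ⟨κ, κf, hκ⟩ := c.kras (x := 28) (ofNat_mem _ 28) (by
      rw [show (28 : L) - 1 = 3 ^ 3 by norm_num, map_pow, c.w3, ← c.p2]
      have := c.p0
      have := c.p1
      gcongr
      nlinarith)
    have := c.kzero (c.kmul k0 (c.kconj k0 hs)) κf (by
      rw [mul_pow, ← map_pow, e0, hκ, ← h28, map_add, map_mul, map_one, map_ofNat,
        c.sout (iv s hs)]
      ring) hx
    show chi ι ζ θ0 _ = chi ι ζ θ0 _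
    linear_combination -this + chi ι ζ θ0 (s * x * s⁻¹) * h3
  · have := c.uniq (c.kconj k1 hs) (c.kcube (c.kpow k1 2) (by
      rw [← map_pow, e1, c.out (iv s hs), ← e1]; ring)) hx
    show chi ι ζ η _ = chi ι ζ η _
    push_cast at this
    linear_combination -this + (chi ι ζ η (s * x * s⁻¹) - chi ι ζ η x) * h3
  · have := c.uniq (c.kconj k2 hs) (c.kcube (c.kmul km k2) (by
      rw [← map_pow, e2, c.sout (iv s hs), ← e2]; ring)) hx
    show chi ι ζ θ _ = -chi ι ζ θ _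
    linear_combination -this + chi ι ζ θ (s * x * s⁻¹) * h3
  · have := c.uniq (c.kconj k3 hs) (c.kcube k3 (by rw [← map_pow, e3, map_ofNat])) hx
    show chi ι ζ τ _ = -chi ι ζ τ _
    linear_combination -this + chi ι ζ τ (s * x * s⁻¹) * h3
  · obtain ⟨β, hβ⟩ := c.surj le_rfl c.clo.1 hf.1 hf.2
    obtain ⟨i, j, k, l, κ, κf, e⟩ := c.cubes (c.kfx hβ) (pow_ne_zero 3 hβ.1)
    refine ⟨![-i, -j], ![-k, -l], fun x hx => ?_⟩
    have := c.kzero (c.kmul (c.kmul (c.kmul (c.kmul hβ (c.kpow k0 i)) (c.kpow k1 j))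
      (c.kpow k2 k)) (c.kpow (c.kmul km k3) l)) κf (by
        rw [← e, ← e0, ← e2, ← e3]
        conv_rhs => rw [← e1]
        rw [show -τ ^ 3 = (-1 * τ) ^ 3 by ring]
        simp only [mul_pow, ← pow_mul, mul_comm]) hx
    show f x = -i * chi ι ζ θ0 x + -j * chi ι ζ η x + (-k * chi ι ζ θ x + -l * chi ι ζ τ x)
    linear_combination this

end Cx

/-- the setting for a closed subgroup of an absolute Galois group -/
theorem gal {k L : Type} [Field k] [Field L] [Algebra k L] [IsGalois k L] [IsAlgClosed L]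
    [CharZero L] {G : Type} [Group G] [TopologicalSpace G] [CompactSpace G] [IsTopologicalGroup G]
    (j : G →* Gal(L / k)) (hj : Continuous j) (ji : Function.Injective j) (w : AbsoluteValue L ℝ)
    (inv : ∀ g x, w (j g x) = w x)
    (den : ∀ x, (∀ g, j g x = x) → ∀ ε > 0, ∃ q : ℚ, w (x - q) < ε)
    (pad : ∀ q : ℚ, w q = padicNorm 3 q) (H : Subgroup G)
    (hH : ∀ g, g ∈ H ↔ ∀ x : L, x ^ 3 = 1 → j g x = x) :
    ∃ a b : Fin 2 → G → ZMod 3, Loc3 H a b := by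
  obtain ⟨ζ, hζ⟩ := HasEnoughRootsOfUnity.exists_primitiveRoot L 3
  let ι : G →* (L →+* L) :=
    { toFun := fun g => (j g : L →+* L)
      map_one' := by rw [map_one]; rfl
      map_mul' := fun g h => by rw [map_mul]; rfl }
  refine Cx.loc3 (ι := ι) (w := w) (ζ := ζ) ⟨fun s => ?_, fun N hN g hg => ?_, ?_, inv, den, pad,
    hζ, fun g => (hH g).trans ⟨fun h => h ζ hζ.pow_eq_one, fun h x hx => ?_⟩⟩
  · refine IsLocallyConstant.comp_continuous (g := fun x : Gal(L / k) => x s) ?_ hj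
    refine (IsLocallyConstant.iff_exists_open _).2 fun x => ⟨(fun y => x⁻¹ * y) ⁻¹'
      MulAction.stabilizer Gal(L / k) s, (stabilizer_isOpen_of_isIntegral s).preimage (by fun_prop),
      by simp, fun y hy => ?_⟩
    have : (x⁻¹ * y) s = s := hy
    rw [← congrArg x this, ← AlgEquiv.mul_apply, mul_inv_cancel_left]
  · have h : (IntermediateField.fixedField (N.map j)).fixingSubgroup = N.map j :=
      InfiniteGalois.fixingSubgroup_fixedField ⟨N.map j, (hN.isCompact.image hj).isClosed⟩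
    by_contra k
    push Not at k
    refine hg ((Subgroup.mem_map_iff_mem ji).1 ?_)
    rw [← h, IntermediateField.mem_fixingSubgroup_iff]
    exact fun x hx => k x fun n hn =>
      (IntermediateField.mem_fixedField_iff _ _).1 hx _ (Subgroup.mem_map_of_mem j hn)
  · letI := w.toNormedField
    have : IsUltrametricDist L := isUltrametricDist_iff_forall_norm_natCast_le_one.2 fun n => by
      have : Fact (Nat.Prime 3) := ⟨Nat.prime_three⟩
      have := pad n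
      rw [Rat.cast_natCast] at this
      exact this.trans_le (by exact_mod_cast padicNorm.of_nat n)
    exact IsUltrametricDist.isNonarchimedean_norm
  · obtain ⟨i, -, rfl⟩ := hζ.eq_pow_of_pow_eq_one hx
    rw [map_pow, show j g ζ = ζ from h]

end Ar

/-- **row AR** -/
theorem arS : ArS := by
  have : Fact (Nat.Prime 3) := ⟨Nat.prime_three⟩
  refine Ar.gal (k := ℚ_[3]) (L := PadicAlgCl 3) (MonoidHom.id _) continuous_id
    Function.injective_id (NormedField.toAbsoluteValue (PadicAlgCl 3))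
    (fun σ x => (spectralNorm_eq_of_equiv σ x).symm) (fun x hx ε hε => ?_) (fun q => ?_) H3
    fun g => Iff.rfl
  · obtain ⟨a, rfl⟩ := (InfiniteGalois.mem_range_algebraMap_iff_fixed (k := ℚ_[3]) x).2 hx
    obtain ⟨q, hq⟩ := Padic.rat_dense 3 a hε
    refine ⟨q, ?_⟩
    rw [← map_ratCast (algebraMap ℚ_[3] (PadicAlgCl 3)), ← map_sub]
    exact (PadicAlgCl.norm_extends 3 _).trans_lt hq
  · rw [← map_ratCast (algebraMap ℚ_[3] (PadicAlgCl 3))]
    exact (PadicAlgCl.norm_extends 3 _).trans (Padic.eq_padicNorm q)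

/-- **rows AR and REL** -/
theorem pres3 : Pres H3 := by
  obtain ⟨a, b, h⟩ := arS
  exact relS G3 H3 a b h

end Vale.Agent.P022K.L3
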