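import Vale.Agent.P022K.L3.Defs

/-!
# P022K, block L3, row AR: Kummer theory and the absolute value
-/

set_option linter.all false

noncomputable section

namespace Vale.Agent.P022K.L3

namespace Ar

variable {L : Type} [Field L]

section pw

variable {n : ℕ} [NeZero n] {ε : L}

theorem pw_add (h : ε ^ n = 1) (a b : ZMod n) : ε ^ (a + b).val = ε ^ a.val * ε ^ b.val := by
  rw [ZMod.val_add, ← pow_add]
  exact (pow_eq_pow_mod _ h).symm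

theorem pw_mul (h : ε ^ n = 1) (a b : ZMod n) : ε ^ (a * b).val = (ε ^ a.val) ^ b.val := by
  rw [ZMod.val_mul, ← pow_mul]
  exact (pow_eq_pow_mod _ h).symm

theorem pw_nat (h : ε ^ n = 1) (k : ℕ) : ε ^ (k : ZMod n).val = ε ^ k := by
  rw [ZMod.val_natCast]
  exact (pow_eq_pow_mod _ h).symm

theorem pw_inj (h : IsPrimitiveRoot ε n) {θ : L} (h0 : θ ≠ 0) {a b : ZMod n}
    (e : ε ^ a.val * θ = ε ^ b.val * θ) : a = b :=
  ZMod.val_injective n (h.pow_inj (ZMod.val_lt a) (ZMod.val_lt b) (mul_right_cancel₀ h0 e))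

theorem ex_log (h : IsPrimitiveRoot ε n) {β γ : L} (h0 : β ≠ 0) (e : γ ^ n = β ^ n) :
    ∃ a : ZMod n, γ = ε ^ a.val * β := by
  obtain ⟨i, -, hi⟩ := h.eq_pow_of_pow_eq_one (ξ := γ / β)
    (by rw [div_pow, e, div_self (pow_ne_zero _ h0)])
  exact ⟨i, by rw [pw_nat h.pow_eq_one, hi, div_mul_cancel₀ _ h0]⟩

open Classical in
/-- the logarithm -/
def lg (n : ℕ) (ε θ y : L) : ZMod n :=
  if h : ∃ a : ZMod n, y = ε ^ a.val * θ then h.choose else 0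

theorem lg_spec (h : IsPrimitiveRoot ε n) {β γ : L} (h0 : β ≠ 0) (e : γ ^ n = β ^ n) :
    γ = ε ^ (lg n ε β γ).val * β := by
  have k := ex_log h h0 e
  rw [lg, dif_pos k]
  exact k.choose_spec

end pw

theorem z3 (a : ZMod 3) : a = 0 ∨ a = 1 ∨ a = 2 := by revert a; decide

theorem v1 : (1 : ZMod 3).val = 1 := rfl

theorem v2 : (2 : ZMod 3).val = 2 := rfl

variable {G : Type} [Group G] (ι : G →* (L →+* L))

theorem mul_ap (g h : G) (x : L) : ι (g * h) x = ι g (ι h x) := by rw [map_mul]; rfl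

theorem one_ap (x : L) : ι 1 x = x := by rw [map_one]; rfl

/-- fixed elements -/
def Fx (H : Subgroup G) : Subfield L where
  carrier := {x | ∀ h ∈ H, ι h x = x}
  mul_mem' hx hy h hh := by rw [map_mul, hx h hh, hy h hh]
  one_mem' h _ := map_one _
  add_mem' hx hy h hh := by rw [map_add, hx h hh, hy h hh]
  zero_mem' h _ := map_zero _
  neg_mem' hx h hh := by rw [map_neg, hx h hh]
  inv_mem' x hx h hh := by rw [map_inv₀, hx h hh]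

section cyc

variable {Δ : Subgroup G} {φ : G → ZMod 3}

theorem ch_one (ha : ∀ g ∈ Δ, ∀ h ∈ Δ, φ (g * h) = φ g + φ h) : φ 1 = 0 := by
  have := ha 1 Δ.one_mem 1 Δ.one_mem
  rw [one_mul] at this
  exact left_eq_add.1 this

theorem ch_inv (ha : ∀ g ∈ Δ, ∀ h ∈ Δ, φ (g * h) = φ g + φ h) {g : G} (hg : g ∈ Δ) :
    φ g⁻¹ = -φ g := by
  have := ha g hg g⁻¹ (Δ.inv_mem hg)
  rw [mul_inv_cancel, ch_one ha] at this
  exact (neg_eq_of_add_eq_zero_right this.symm).symm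

/-- the kernel -/
def kr (ha : ∀ g ∈ Δ, ∀ h ∈ Δ, φ (g * h) = φ g + φ h) : Subgroup G where
  carrier := {g | g ∈ Δ ∧ φ g = 0}
  mul_mem' {a b} x y := ⟨Δ.mul_mem x.1 y.1, by rw [ha a x.1 b y.1, x.2, y.2, add_zero]⟩
  one_mem' := ⟨Δ.one_mem, ch_one ha⟩
  inv_mem' {a} x := ⟨Δ.inv_mem x.1, by rw [ch_inv ha x.1, x.2, neg_zero]⟩

variable {ι} {ha : ∀ g ∈ Δ, ∀ h ∈ Δ, φ (g * h) = φ g + φ h}

theorem cyc {y : L} (hy : y ∈ Fx ι (kr ha)) {g g' : G} (hg : g ∈ Δ) (hg' : g' ∈ Δ)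
    (e : φ g = φ g') : ι g y = ι g' y := by
  have := congrArg (ι g') (hy (g'⁻¹ * g) ⟨Δ.mul_mem (Δ.inv_mem hg') hg, by
    rw [ha _ (Δ.inv_mem hg') _ hg, ch_inv ha hg', e, neg_add_cancel]⟩)
  rwa [← mul_ap, mul_inv_cancel_left] at this

theorem nrm {y : L} (hy : y ∈ Fx ι (kr ha)) {t : G} (ht : t ∈ Δ) : ι t y ∈ Fx ι (kr ha) :=
  fun n hn => by
    rw [← mul_ap]
    exact cyc hy (Δ.mul_mem hn.1 ht) ht (by rw [ha _ hn.1 _ ht, hn.2, zero_add])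

theorem rot {y : L} (hy : y ∈ Fx ι (kr ha)) {t : G} (ht : t ∈ Δ) (t1 : φ t = 1) :
    ι t (ι t (ι t y)) = y := by
  rw [← mul_ap, ← mul_ap, cyc hy (Δ.mul_mem (Δ.mul_mem ht ht) ht) Δ.one_mem, one_ap]
  rw [ha _ (Δ.mul_mem ht ht) _ ht, ha _ ht _ ht, t1, ch_one ha]
  rfl

theorem cas {y : L} (hy : y ∈ Fx ι (kr ha)) {t : G} (ht : t ∈ Δ) (t1 : φ t = 1) {g : G}
    (hg : g ∈ Δ) : φ g = 0 ∧ ι g y = y ∨ φ g = 1 ∧ ι g y = ι t y ∨
      φ g = 2 ∧ ι g y = ι t (ι t y) := by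
  rcases z3 (φ g) with h | h | h
  · exact .inl ⟨h, hy g ⟨hg, h⟩⟩
  · exact .inr (.inl ⟨h, cyc hy hg ht (h.trans t1.symm)⟩)
  · refine .inr (.inr ⟨h, ?_⟩)
    rw [← mul_ap]
    exact cyc hy hg (Δ.mul_mem ht ht) (by rw [ha _ ht _ ht, t1, h]; rfl)

theorem fx_of {y : L} (hy : y ∈ Fx ι (kr ha)) {t : G} (ht : t ∈ Δ) (t1 : φ t = 1)
    (e : ι t y = y) : y ∈ Fx ι Δ := fun g hg => by
  rcases cas hy ht t1 hg with h | h | h <;> rw [h.2]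
  · exact e
  · rw [e, e]

/-- traces are fixed -/
theorem tr {y : L} (hy : y ∈ Fx ι (kr ha)) {t : G} (ht : t ∈ Δ) (t1 : φ t = 1) :
    y + ι t y + ι t (ι t y) ∈ Fx ι Δ :=
  fx_of (add_mem (add_mem hy (nrm hy ht)) (nrm (nrm hy ht) ht)) ht t1 (by
    rw [map_add, map_add, rot hy ht t1]; ring)

theorem ex_one (ha : ∀ g ∈ Δ, ∀ h ∈ Δ, φ (g * h) = φ g + φ h) (h : ¬∀ g ∈ Δ, φ g = 0) :
    ∃ t ∈ Δ, φ t = 1 := by
  push Not at h
  obtain ⟨s, hs, e⟩ := h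
  rcases z3 (φ s) with h | h | h
  · exact absurd h e
  · exact ⟨s, hs, h⟩
  · exact ⟨s * s, Δ.mul_mem hs hs, by rw [ha _ hs _ hs, h]; rfl⟩

end cyc

/-- `f` is the Kummer character of `θ` on `H` -/
def Ku (H : Subgroup G) (ζ θ : L) (f : G → ZMod 3) : Prop :=
  θ ≠ 0 ∧ ∀ h ∈ H, ι h θ = ζ ^ (f h).val * θ

/-- the Kummer character -/
def chi (ζ θ : L) (g : G) : ZMod 3 := lg 3 ζ θ (ι g θ)

variable [TopologicalSpace G]

/-- the setting -/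
structure Cx (w : AbsoluteValue L ℝ) (H : Subgroup G) (ζ : L) : Prop where
  lc : ∀ x, IsLocallyConstant fun g => ι g x
  sep : ∀ N : Subgroup G, IsClosed (N : Set G) → ∀ g ∉ N, ∃ θ ∈ Fx ι N, ι g θ ≠ θ
  na : IsNonarchimedean w
  inv : ∀ g x, w (ι g x) = w x
  den : ∀ x, (∀ g, ι g x = x) → ∀ ε > 0, ∃ q : ℚ, w (x - q) < ε
  pad : ∀ q : ℚ, w q = padicNorm 3 q
  prim : IsPrimitiveRoot ζ 3
  mem : ∀ g, g ∈ H ↔ ι g ζ = ζ

variable {ι} {w : AbsoluteValue L ℝ} {H : Subgroup G} {ζ : L}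

namespace Cx

variable (c : Cx ι w H ζ)
include c

theorem z3 : ζ ^ 3 = 1 := c.prim.pow_eq_one

theorem z0 : ζ ≠ 0 := c.prim.ne_zero three_ne_zero

theorem z1 : ζ - 1 ≠ 0 := sub_ne_zero.2 (c.prim.ne_one (by norm_num))

theorem zs : ζ ^ 2 + ζ + 1 = 0 :=
  mul_left_cancel₀ c.z1 (by linear_combination c.z3)

theorem zf : ζ ∈ Fx ι H := fun h hh => (c.mem h).1 hh

theorem clo : IsClopen (H : Set G) := by
  rw [show (H : Set G) = {g | ι g ζ = ζ} from Set.ext c.mem]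
  exact (c.lc ζ).isClopen_fiber ζ

theorem out {g : G} (hg : g ∉ H) : ι g ζ = ζ ^ 2 := by
  obtain ⟨a, ha⟩ := ex_log c.prim one_ne_zero (γ := ι g ζ) (by rw [← map_pow, c.z3, map_one, one_pow])
  rcases Ar.z3 a with rfl | rfl | rfl
  · refine absurd ((ι g).injective ?_) (c.prim.ne_one (by norm_num))
    rw [ha, map_one]; simp
  · exact absurd ((c.mem g).2 (by rw [ha, v1]; ring)) hg
  · rw [ha, v2, mul_one]

theorem mul_out {g h : G} (hg : g ∉ H) (hh : h ∉ H) : g * h ∈ H := (c.mem _).2 (by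
  rw [mul_ap, c.out hh, map_pow, c.out hg]
  linear_combination ζ * c.z3)

theorem conj {g h : G} (hg : g ∉ H) (hh : h ∈ H) : g * h * g⁻¹ ∈ H :=
  c.mul_out (fun k => hg ((H.mul_mem_cancel_right hh).1 k)) fun k => hg (H.inv_mem_iff.1 k)

/-! ### Kummer characters -/

theorem ku {θ : L} (h0 : θ ≠ 0) (h : θ ^ 3 ∈ Fx ι H) : Ku ι H ζ θ (chi ι ζ θ) :=
  ⟨h0, fun g hg => lg_spec c.prim h0 (by rw [← map_pow, h g hg])⟩

theorem uniq {θ : L} {f f' : G → ZMod 3} (h : Ku ι H ζ θ f) (h' : Ku ι H ζ θ f') {g : G}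
    (hg : g ∈ H) : f g = f' g := pw_inj c.prim h.1 ((h.2 g hg).symm.trans (h'.2 g hg))

theorem add {θ : L} {f : G → ZMod 3} (h : Ku ι H ζ θ f) :
    ∀ x ∈ H, ∀ y ∈ H, f (x * y) = f x + f y := fun x hx y hy => pw_inj c.prim h.1 (by
  rw [← h.2 _ (H.mul_mem hx hy), mul_ap, h.2 y hy, map_mul, map_pow, c.zf x hx, h.2 x hx,
    pw_add c.z3]
  ring)

theorem ch {θ : L} (h0 : θ ≠ 0) (h : θ ^ 3 ∈ Fx ι H) : Ch H (chi ι ζ θ) :=
  ⟨(c.lc θ).comp (lg 3 ζ θ), c.add (c.ku h0 h)⟩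

theorem kmul {θ θ' : L} {f f' : G → ZMod 3} (h : Ku ι H ζ θ f) (h' : Ku ι H ζ θ' f') :
    Ku ι H ζ (θ * θ') fun g => f g + f' g := ⟨mul_ne_zero h.1 h'.1, fun g hg => by
  rw [map_mul, h.2 g hg, h'.2 g hg, pw_add c.z3]; ring⟩

omit c in
theorem kfix {θ : L} (h0 : θ ≠ 0) (h : θ ∈ Fx ι H) : Ku ι H ζ θ fun _ => 0 :=
  ⟨h0, fun g hg => by rw [h g hg]; simp⟩

theorem kpow {θ : L} {f : G → ZMod 3} (h : Ku ι H ζ θ f) (n : ℕ) :
    Ku ι H ζ (θ ^ n) fun g => n * f g := ⟨pow_ne_zero _ h.1, fun g hg => by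
  beta_reduce
  rw [map_pow, h.2 g hg, mul_pow, mul_comm (n : ZMod 3), pw_mul c.z3, pw_nat]
  rw [← pow_mul, mul_comm, pow_mul, c.z3, one_pow]⟩

theorem kcube {θ θ' : L} {f : G → ZMod 3} (h : Ku ι H ζ θ f) (e : θ' ^ 3 = θ ^ 3) :
    Ku ι H ζ θ' f := by
  obtain ⟨a, rfl⟩ := ex_log c.prim h.1 e
  refine ⟨mul_ne_zero (pow_ne_zero _ c.z0) h.1, fun g hg => ?_⟩
  rw [map_mul, map_pow, c.zf g hg, h.2 g hg]; ring

theorem kfx {θ : L} {f : G → ZMod 3} (h : Ku ι H ζ θ f) : θ ^ 3 ∈ Fx ι H := fun g hg => by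
  rw [map_pow, h.2 g hg, mul_pow, ← pow_mul, mul_comm _ 3, pow_mul, c.z3, one_pow, one_mul]

/-- a relation between roots gives a relation between characters -/
theorem kzero {θ κ : L} {f : G → ZMod 3} (h : Ku ι H ζ θ f) (hκ : κ ∈ Fx ι H)
    (e : θ ^ 3 = κ ^ 3) {g : G} (hg : g ∈ H) : f g = 0 :=
  c.uniq h (c.kcube (kfix (fun k => pow_ne_zero 3 h.1 (by rw [e, k]; norm_num)) hκ) e) hg

theorem kconj {θ : L} {f : G → ZMod 3} (h : Ku ι H ζ θ f) {s : G} (hs : s ∉ H) :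
    Ku ι H ζ (ι s⁻¹ θ) fun g => 2 * f (s * g * s⁻¹) := ⟨(map_ne_zero _).2 h.1, fun g hg => by
  have := congrArg (ι s⁻¹) (h.2 _ (c.conj hs hg))
  rw [← mul_ap, ← mul_assoc, inv_mul_cancel_left, mul_ap, map_mul, map_pow,
    c.out fun k => hs (H.inv_mem_iff.1 k)] at this
  rw [this, pw_mul c.z3, v2]⟩

/-- **Kummer theory** -/
theorem surj [CharZero L] {Δ : Subgroup G} {φ : G → ZMod 3} (hΔ : Δ ≤ H)
    (hc : IsClosed (Δ : Set G)) (hφ : IsLocallyConstant φ)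
    (ha : ∀ g ∈ Δ, ∀ h ∈ Δ, φ (g * h) = φ g + φ h) : ∃ β, Ku ι Δ ζ β φ := by
  by_cases h : ∀ s ∈ Δ, φ s = 0
  · exact ⟨1, one_ne_zero, fun g hg => by rw [h g hg]; simp⟩
  obtain ⟨t, ht, t1⟩ := ex_one ha h
  obtain ⟨θ, hθ, ne⟩ := c.sep (kr ha) (hc.inter (hφ.isClosed_fiber 0)) t fun k =>
    one_ne_zero (t1.symm.trans k.2)
  have zf : ζ ∈ Fx ι (kr ha) := fun g hg => c.zf g (hΔ hg.1)
  have zt := c.zf t (hΔ ht)
  have r := rot hθ ht t1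
  have h1 := nrm hθ ht
  have h2 := nrm h1 ht
  obtain ⟨β, b0, b1, b2⟩ : ∃ β, β ≠ 0 ∧ β ∈ Fx ι (kr ha) ∧ ι t β = ζ * β := by
    by_cases k : θ + ζ ^ 2 * ι t θ + ζ * ι t (ι t θ) = 0
    · refine ⟨(θ + ζ * ι t θ + ζ ^ 2 * ι t (ι t θ)) ^ 2, pow_ne_zero _ fun k' => ne ?_,
        pow_mem (add_mem (add_mem hθ (mul_mem zf h1)) (mul_mem (pow_mem zf _) h2)) _, ?_⟩
      · refine (ι t).injective (mul_left_cancel₀ (mul_ne_zero c.z0 c.z1) ?_)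
        linear_combination k' - k
      · simp only [map_pow, map_add, map_mul, zt, r]
        have : ι t θ + ζ * ι t (ι t θ) + ζ ^ 2 * θ =
            ζ ^ 2 * (θ + ζ * ι t θ + ζ ^ 2 * ι t (ι t θ)) := by
          linear_combination (-ι t θ - ζ * ι t (ι t θ)) * c.z3
        rw [this]
        linear_combination ζ * (θ + ζ * ι t θ + ζ ^ 2 * ι t (ι t θ)) ^ 2 * c.z3
    · refine ⟨_, k, add_mem (add_mem hθ (mul_mem (pow_mem zf _) h1)) (mul_mem zf h2), ?_⟩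
      simp only [map_pow, map_add, map_mul, zt, r]
      linear_combination (-ι t θ) * c.z3
  refine ⟨β, b0, fun g hg => ?_⟩
  rcases cas b1 ht t1 hg with h | h | h <;> rw [h.1, h.2]
  · simp
  · rw [b2, v1, pow_one]
  · rw [b2, map_mul, zt, b2, v2]; ring

/-- **the norm equation** attached to a vanishing cup product -/
theorem norm [CharZero L] {ξ f : G → ZMod 3} (hξ : Ch H ξ) {θ : L} (hf : Ku ι H ζ θ f)
    (h : Cup0 H ξ f) {τ : G} (hτ : τ ∈ H) (t1 : ξ τ = 1) :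
    ∃ δ ∈ Fx ι (kr hξ.2), δ * ι τ δ * ι τ (ι τ δ) = θ ^ 3 := by
  obtain ⟨z, hz, ad⟩ := h
  have fa := c.add hf
  obtain ⟨β, b0, hβ⟩ := c.surj (Δ := kr hξ.2) (fun g hg => hg.1)
    (c.clo.1.inter (hξ.1.isClosed_fiber 0)) hz fun x hx y hy => by
      rw [ad x hx.1 y hy.1, hx.2, zero_mul, add_zero]
  have zt := c.zf τ hτ
  have b1 : ι τ β ≠ 0 := (map_ne_zero _).2 b0
  have b2 : ι τ (ι τ β) ≠ 0 := (map_ne_zero _).2 b1
  have b3 : ι τ (ι τ (ι τ β)) = β := by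
    have m := H.mul_mem hτ hτ
    rw [← mul_ap, ← mul_ap, mul_assoc, hβ _ ⟨H.mul_mem hτ m, by
      rw [hξ.2 _ hτ _ m, hξ.2 _ hτ _ hτ, t1]; rfl⟩, ad _ hτ _ m, ad _ hτ _ hτ, fa _ hτ _ hτ, t1,
      show z τ + (z τ + z τ + 1 * f τ) + 1 * (f τ + f τ) = 0 by
        generalize z τ = u; generalize f τ = v; revert u v; decide]
    simp
  refine ⟨θ * ι τ β / β, fun n hn => ?_, ?_⟩
  · have m : τ⁻¹ * (n * τ) ∈ H := H.mul_mem (H.inv_mem hτ) (H.mul_mem hn.1 hτ)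
    have e := ad τ hτ _ m
    rw [mul_inv_cancel_left, ad n hn.1 τ hτ, hn.2, t1, fa _ (H.inv_mem hτ) _ (H.mul_mem hn.1 hτ),
      fa _ hn.1 _ hτ, ch_inv fa hτ] at e
    have e1 : z n = f n + z (τ⁻¹ * (n * τ)) := by linear_combination e
    have e2 := congrArg (ι τ) (hβ (τ⁻¹ * (n * τ)) ⟨m, by
      rw [hξ.2 _ (H.inv_mem hτ) _ (H.mul_mem hn.1 hτ), hξ.2 _ hn.1 _ hτ, ch_inv hξ.2 hτ, hn.2]
      ring⟩)
    rw [← mul_ap, mul_inv_cancel_left, mul_ap, map_mul, map_pow, zt] at e2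
    rw [map_div₀, map_mul, e2, hβ n hn, hf.2 n hn.1, e1, pw_add c.z3]
    have := c.z0
    field_simp
  · simp only [map_div₀, map_mul, b3, hf.2 τ hτ, map_pow, zt]
    have : (ζ ^ (f τ).val) ^ 3 = 1 := by rw [← pow_mul, mul_comm, pow_mul, c.z3, one_pow]
    field_simp
    linear_combination θ ^ 3 * this

end Cx

theorem swap {a b : G → ZMod 3} (ha : Ch H a) (hb : Ch H b) (h : Cup0 H a b) : Cup0 H b a := by
  obtain ⟨z, hz, ad⟩ := h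
  refine ⟨fun x => a x * b x - z x, (ha.1.mul hb.1).sub hz, fun x hx y hy => ?_⟩
  beta_reduce
  rw [ad x hx y hy, ha.2 x hx y hy, hb.2 x hx y hy]
  ring

end Ar

end Vale.Agent.P022K.L3
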