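import Vale.Agent.P022K.L3.ArA

/-!
# P022K, block L3, row AR: units of the field of cube roots of unity modulo cubes
-/

set_option linter.all false

noncomputable section

namespace Vale.Agent.P022K.L3

namespace Ar

variable {L : Type} [Field L] {G : Type} [Group G] [TopologicalSpace G] {ι : G →* (L →+* L)}
  {w : AbsoluteValue L ℝ} {H : Subgroup G} {ζ : L}

/-- a square root of `-3` -/
def sq3 (ζ : L) : L := ζ - ζ ^ 2

namespace Cx

variable (c : Cx ι w H ζ)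
include c

theorem ale {x y : L} {r : ℝ} (hx : w x ≤ r) (hy : w y ≤ r) : w (x + y) ≤ r :=
  (c.na x y).trans (max_le hx hy)

theorem alt {x y : L} {r : ℝ} (hx : w x < r) (hy : w y < r) : w (x + y) < r :=
  (c.na x y).trans_lt (max_lt hx hy)

theorem sle {x y : L} {r : ℝ} (hx : w x ≤ r) (hy : w y ≤ r) : w (x - y) ≤ r := by
  rw [sub_eq_add_neg]; exact c.ale hx (by rwa [w.map_neg])

theorem slt {x y : L} {r : ℝ} (hx : w x < r) (hy : w y < r) : w (x - y) < r := by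
  rw [sub_eq_add_neg]; exact c.alt hx (by rwa [w.map_neg])

theorem dom {x y : L} (h : w (x - y) < w y) : w x = w y := by
  refine le_antisymm (by simpa using c.ale h.le (le_refl (w y))) (not_lt.1 fun k => ?_)
  simpa using c.slt k h

/-- the valuation ring -/
def O : Subring L where
  carrier := {x | w x ≤ 1}
  mul_mem' {x y} hx hy := by
    show w _ ≤ 1
    rw [map_mul]; exact mul_le_one₀ hx (w.nonneg _) hy
  one_mem' := w.map_one.le
  add_mem' := c.ale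
  zero_mem' := w.map_zero.trans_le zero_le_one
  neg_mem' {x} hx := (w.map_neg x).trans_le hx

theorem mle {x y : L} (hy : y ∈ c.O) : w (x * y) ≤ w x := by
  rw [map_mul]; exact mul_le_of_le_one_right (w.nonneg _) hy

omit c in
theorem cube1 {x : L} (h : w x ^ 3 = 1) : w x = 1 :=
  (pow_eq_one_iff_of_nonneg (w.nonneg x) three_ne_zero).1 h

theorem wz : w ζ = 1 := cube1 (by rw [← map_pow, c.z3, map_one])

theorem s2 : sq3 ζ ^ 2 = -3 := by
  unfold sq3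
  linear_combination c.zs + (ζ - 2) * c.z3

theorem sf : sq3 ζ ∈ Fx ι H := sub_mem c.zf (pow_mem c.zf 2)

theorem sout {g : G} (hg : g ∉ H) : ι g (sq3 ζ) = -sq3 ζ := by
  rw [sq3, map_sub, map_pow, c.out hg]
  linear_combination (-ζ) * c.z3

theorem wz1 : w (ζ - 1) = w (sq3 ζ) := by
  rw [show sq3 ζ = -((ζ - 1) * ζ) by unfold sq3; ring, w.map_neg, map_mul, c.wz, mul_one]

theorem wz2 : w (ζ ^ 2 - 1) = w (sq3 ζ) := by
  rw [show ζ ^ 2 - 1 = -((ζ - 1) * ζ ^ 2) by linear_combination c.z3, w.map_neg, map_mul, map_pow,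
    c.wz, one_pow, mul_one, c.wz1]

theorem gK {x : L} (hx : x ∈ Fx ι H) {σ : G} (hσ : σ ∉ H) : ι σ x ∈ Fx ι H := fun h hh => by
  have := congrArg (ι σ) (hx _ (c.conj (g := σ⁻¹) (fun k => hσ (H.inv_mem_iff.1 k)) hh))
  rwa [← mul_ap, inv_inv, mul_assoc, mul_inv_cancel_left, mul_ap] at this

theorem gG {x : L} (hx : x ∈ Fx ι H) {σ : G} (hσ : σ ∉ H) (e : ι σ x = x) (g : G) : ι g x = x := by
  by_cases hg : g ∈ H
  · exact hx g hg
  · have := hx _ (c.mul_out hg (h := σ⁻¹) fun k => hσ (H.inv_mem_iff.1 k))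
    rwa [← e, ← mul_ap, inv_mul_cancel_right, e] at this

theorem gg {x : L} (hx : x ∈ Fx ι H) {σ : G} (hσ : σ ∉ H) : ι σ (ι σ x) = x := by
  rw [← mul_ap]; exact hx _ (c.mul_out hσ hσ)

variable [CharZero L]

theorem w3 : w 3 = 3⁻¹ := by
  have := c.pad ((3 : ℕ) : ℚ)
  rw [padicNorm.padicNorm_p_of_prime] at this
  simpa using this

theorem w2 : w 2 = 1 := by
  have := c.pad ((2 : ℕ) : ℚ)
  rw [(padicNorm.nat_eq_one_iff (p := 3) 2).2 (by norm_num)] at this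
  simpa using this

theorem p2 : w (sq3 ζ) ^ 2 = 3⁻¹ := by rw [← map_pow, c.s2, w.map_neg, c.w3]

theorem s0 : sq3 ζ ≠ 0 := fun h => by
  have := c.s2
  rw [h] at this
  norm_num at this

theorem p0 : 0 < w (sq3 ζ) := w.pos c.s0

theorem p1 : w (sq3 ζ) < 1 := by
  have := c.p2
  have := c.p0
  nlinarith

theorem sO : sq3 ζ ∈ c.O := c.p1.le

theorem valG {x : L} (hx : ∀ g, ι g x = x) (h0 : x ≠ 0) : ∃ n : ℤ, w x = w (sq3 ζ) ^ (2 * n) := by
  obtain ⟨q, hq⟩ := c.den x hx _ (w.pos h0)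
  have e : w q = w x := c.dom (by rwa [w.map_sub])
  have q0 : q ≠ 0 := fun k => (w.pos h0).ne' (by rw [← e, k]; simp)
  refine ⟨padicValRat 3 q, ?_⟩
  rw [← e, c.pad, padicNorm.eq_zpow_of_nonzero q0, zpow_mul, zpow_ofNat, c.p2]
  simp

theorem pinj {m n : ℤ} (h : w (sq3 ζ) ^ m = w (sq3 ζ) ^ n) : m = n :=
  zpow_right_injective₀ c.p0 c.p1.ne h

theorem exσ : ∃ σ, σ ∉ H := by
  by_contra k
  push Not at k
  obtain ⟨n, hn⟩ := c.valG (fun g => c.sf g (k g)) c.s0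
  have := c.pinj ((zpow_one _).trans hn)
  omega

theorem valK {x : L} (hx : x ∈ Fx ι H) (h0 : x ≠ 0) : ∃ n : ℤ, w x = w (sq3 ζ) ^ n := by
  obtain ⟨σ, hσ⟩ := c.exσ
  obtain ⟨n, hn⟩ := c.valG (c.gG (mul_mem hx (c.gK hx hσ)) hσ (by
    rw [map_mul, c.gg hx hσ, mul_comm])) (mul_ne_zero h0 ((map_ne_zero _).2 h0))
  refine ⟨n, (pow_left_inj₀ (w.nonneg _) (zpow_nonneg c.p0.le _) two_ne_zero).1 ?_⟩
  rw [map_mul, c.inv, mul_comm 2, zpow_mul, zpow_ofNat] at hn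
  rw [← hn, sq]

theorem gap0 {x : L} (hx : x ∈ Fx ι H) (h : w x * w (sq3 ζ) < 1) : x ∈ c.O := by
  show w x ≤ 1
  rcases eq_or_ne x 0 with rfl | h0
  · simp
  obtain ⟨n, hn⟩ := c.valK hx h0
  rw [hn, ← zpow_add_one₀ c.p0.ne', zpow_lt_one_iff_right_of_lt_one₀ c.p0 c.p1] at h
  rw [hn, zpow_le_one_iff_right_of_lt_one₀ c.p0 c.p1]
  omega

theorem gap1 {x : L} (hx : x ∈ Fx ι H) (h : w x < 1) : w x ≤ w (sq3 ζ) := by
  have : w _ ≤ 1 := c.gap0 (div_mem hx c.sf) (by rwa [map_div₀, div_mul_cancel₀ _ c.p0.ne'])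
  rwa [map_div₀, div_le_one c.p0] at this

/-- the residue field has three elements -/
theorem res {x : L} (hx : x ∈ Fx ι H) (h : x ∈ c.O) :
    ∃ y ∈ c.O, x = sq3 ζ * y ∨ x = 1 + sq3 ζ * y ∨ x = 2 + sq3 ζ * y := by
  obtain ⟨σ, hσ⟩ := c.exσ
  have h' : w (ι σ x) ≤ 1 := (c.inv σ x).trans_le h
  have f2 : (2 : L) ∈ Fx ι H := ofNat_mem _ 2
  have s0 := c.s0
  have hp := c.gG (div_mem (add_mem hx (c.gK hx hσ)) f2) hσ (by
    rw [map_div₀, map_add, c.gg hx hσ, add_comm, map_ofNat])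
  have hq := c.gG (div_mem (sub_mem hx (c.gK hx hσ)) (mul_mem f2 c.sf)) hσ (by
    rw [map_div₀, map_sub, c.gg hx hσ, map_mul, map_ofNat, c.sout hσ]
    field_simp
    ring)
  have q1 : w ((x - ι σ x) / 2) < 1 := by
    rcases eq_or_ne (x - ι σ x) 0 with k | k
    · rw [k]; simp
    obtain ⟨n, hn⟩ := c.valG hq (div_ne_zero k (mul_ne_zero two_ne_zero s0))
    rw [map_div₀, map_mul, c.w2, one_mul, div_eq_iff c.p0.ne', ← zpow_add_one₀ c.p0.ne'] at hn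
    have := c.sle h h'
    rw [hn, zpow_le_one_iff_right_of_lt_one₀ c.p0 c.p1] at this
    rw [map_div₀, c.w2, div_one, hn, zpow_lt_one_iff_right_of_lt_one₀ c.p0 c.p1]
    omega
  have p1 : w ((x + ι σ x) / 2) ≤ 1 := by
    rw [map_div₀, c.w2, div_one]; exact c.ale h h'
  obtain ⟨r, hr⟩ := c.den _ hp _ one_pos
  have r1 : w r ≤ 1 := by simpa using c.sle p1 hr.le
  have : Fact (Nat.Prime 3) := ⟨Nat.prime_three⟩
  obtain ⟨m, m0, m3, hm⟩ := PadicInt.exists_mem_range_of_norm_rat_le_one (p := 3) r (by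
    rwa [Padic.eq_padicNorm, ← c.pad])
  have r2 : w (r - m) < 1 := by
    rw [← Rat.cast_intCast (α := L), ← Rat.cast_sub, c.pad, ← Padic.eq_padicNorm]
    rw [Rat.cast_sub, Rat.cast_intCast]
    exact hm
  have k := c.alt q1 (c.alt hr r2)
  rw [show (x - ι σ x) / 2 + ((x + ι σ x) / 2 - r + (r - m)) = x - m by ring] at k
  have k := c.gap1 (sub_mem hx (intCast_mem _ m)) k
  refine ⟨(x - m) / sq3 ζ, show w _ ≤ 1 by rwa [map_div₀, div_le_one c.p0], ?_⟩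
  rw [mul_div_cancel₀ _ s0]
  have : m = 0 ∨ m = 1 ∨ m = 2 := by push_cast at m3; omega
  rcases this with rfl | rfl | rfl <;> simp

/-- one step in the filtration of the units -/
theorem step {x t d : L} (hx : x ∈ Fx ι H) (ht : t ∈ Fx ι H) (t1 : w (t - 1) = w d)
    (hd : w d ≤ w (sq3 ζ)) (d0 : d ≠ 0) (h : w (x - 1) ≤ w d) :
    ∃ i : ℕ, w (x * t ^ i - 1) ≤ w (d * sq3 ζ) := by
  have t0 : t - 1 ≠ 0 := fun k => (w.pos d0).ne' (by rw [← t1, k, map_zero])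
  obtain ⟨y, hy, e⟩ := c.res (div_mem (sub_mem hx (one_mem _)) (sub_mem ht (one_mem _)))
    (show w _ ≤ 1 by rwa [map_div₀, div_le_one (w.pos t0), t1])
  obtain ⟨a, ha, rfl⟩ : ∃ a ∈ c.O, t = 1 + sq3 ζ * a := ⟨(t - 1) / sq3 ζ,
    show w _ ≤ 1 by rwa [map_div₀, div_le_one c.p0, t1], by rw [mul_div_cancel₀ _ c.s0]; ring⟩
  have sO := c.sO
  have s2 := c.s2
  rw [map_mul, ← t1, ← map_mul]
  simp only [div_eq_iff t0] at e
  generalize sq3 ζ = s at *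
  rcases e with e | e | e
  · refine ⟨0, le_of_eq_of_le (congrArg w ?_) (c.mle hy)⟩
    linear_combination e
  · refine ⟨2, le_of_eq_of_le (congrArg w ?_) (c.mle (y := y * (1 + s * a) ^ 2 - s + 3 * a +
      s * a ^ 2) (by aesop))⟩
    linear_combination (1 + s * a) ^ 2 * e + s * a * s2
  · refine ⟨1, le_of_eq_of_le (congrArg w ?_) (c.mle (y := y * (1 + s * a) - s + 2 * a)
      (by aesop))⟩
    linear_combination (1 + s * a) * e + s * a * s2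

variable [IsAlgClosed L]

omit c [CharZero L] in
theorem rt (x : L) : ∃ θ, θ ^ 3 = x := IsAlgClosed.exists_pow_nat_eq x three_pos

/-- units close to one are cubes -/
theorem kras {x : L} (hx : x ∈ Fx ι H) (h : w (x - 1) < w (sq3 ζ) ^ 3) :
    ∃ κ ∈ Fx ι H, κ ^ 3 = x := by
  obtain ⟨θ, rfl, h1⟩ : ∃ θ, θ ^ 3 = x ∧ w (θ - 1) < w (sq3 ζ) := by
    obtain ⟨θ, rfl⟩ := rt x
    by_contra k
    push Not at k
    have k0 := k θ rfl
    have k1 := k (ζ * θ) (by rw [mul_pow, c.z3, one_mul])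
    have k2 := k (ζ ^ 2 * θ) (by linear_combination θ ^ 3 * (ζ ^ 3 + 1) * c.z3)
    rw [show θ ^ 3 - 1 = (θ - 1) * (ζ * θ - 1) * (ζ ^ 2 * θ - 1) by
      linear_combination (θ ^ 2 - θ ^ 3) * c.z3 + (θ ^ 2 - θ) * c.zs, map_mul, map_mul] at h
    refine h.not_ge ?_
    rw [pow_succ, sq]
    have := c.p0.le
    gcongr
  have w1 : w θ = 1 := (c.dom (by rw [map_one]; exact h1.trans c.p1)).trans w.map_one
  have t0 : θ ≠ 0 := fun k => by simp [k] at w1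
  refine ⟨θ, fun g hg => ?_, rfl⟩
  have e := (c.ku t0 hx).2 g hg
  have h2 : w (ι g θ - 1) < w (sq3 ζ) := by rwa [← c.inv g, map_sub, map_one] at h1
  have h3 := c.slt h2 h1
  rcases Ar.z3 (chi ι ζ θ g) with k | k | k <;> rw [k] at e
  · simpa using e
  · rw [e, v1, show ζ ^ 1 * θ - 1 - (θ - 1) = (ζ - 1) * θ by ring, map_mul, w1, mul_one,
      c.wz1] at h3
    exact absurd h3 (lt_irrefl _)
  · rw [e, v2, show ζ ^ 2 * θ - 1 - (θ - 1) = (ζ ^ 2 - 1) * θ by ring, map_mul, w1, mul_one,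
      c.wz2] at h3
    exact absurd h3 (lt_irrefl _)

/-- generators of the multiplicative group modulo cubes -/
theorem cubes {u : L} (hu : u ∈ Fx ι H) (u0 : u ≠ 0) : ∃ (i j k l : ℕ), ∃ κ ∈ Fx ι H,
    u * (1 + 3 * sq3 ζ) ^ i * ζ ^ j * sq3 ζ ^ k * (-2) ^ l = κ ^ 3 := by
  obtain ⟨n, hn⟩ := c.valK hu u0
  obtain ⟨k, m, e⟩ : ∃ (k : ℕ) (m : ℤ), n + k = 3 * m :=
    ⟨(-n % 3).toNat, (n + -n % 3) / 3, by omega⟩
  have s0 := c.s0
  have sm : sq3 ζ ^ m ≠ 0 := zpow_ne_zero _ s0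
  have fm : sq3 ζ ^ m ∈ Fx ι H := zpow_mem c.sf m
  obtain ⟨v, hv⟩ : ∃ v, v = u * sq3 ζ ^ k / (sq3 ζ ^ m) ^ 3 := ⟨_, rfl⟩
  have vf : v ∈ Fx ι H := hv ▸ div_mem (mul_mem hu (pow_mem c.sf k)) (pow_mem fm 3)
  have v1 : w v = 1 := by
    rw [hv, map_div₀, map_mul, map_pow, map_pow, map_zpow₀, hn, ← zpow_natCast, ← zpow_add₀ c.p0.ne',
      e, mul_comm, zpow_mul, zpow_ofNat, div_self (pow_ne_zero _ (zpow_ne_zero _ c.p0.ne'))]
  obtain ⟨ε, εf, ε3, h1⟩ : ∃ ε ∈ Fx ι H, ε ^ 3 * ε ^ 3 = 1 ∧ w (ε ^ 3 * v - 1) ≤ w (sq3 ζ) := by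
    obtain ⟨y, hy, h | h | h⟩ := c.res vf v1.le
    · exact absurd ((v1.symm.trans (congrArg w h)).trans_le (c.mle hy)) c.p1.not_ge
    · exact ⟨1, one_mem _, by ring, le_of_eq_of_le (congrArg w (by linear_combination h)) (c.mle hy)⟩
    · refine ⟨-1, neg_mem (one_mem _), by ring, le_of_eq_of_le (congrArg w ?_)
        (c.mle (sub_mem c.sO hy))⟩
      linear_combination -h - c.s2
  have f1 := mul_mem (pow_mem εf 3) vf
  obtain ⟨j, h2⟩ := c.step f1 c.zf c.wz1 le_rfl s0 h1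
  have f2 := mul_mem f1 (pow_mem c.zf j)
  have g2 : (-2 : L) ∈ Fx ι H := neg_mem (ofNat_mem _ 2)
  obtain ⟨l, h3⟩ := c.step f2 g2 (congrArg w (by linear_combination -c.s2)) (c.mle c.sO)
    (mul_ne_zero s0 s0) h2
  have f3 := mul_mem f2 (pow_mem g2 l)
  have g3 : 1 + 3 * sq3 ζ ∈ Fx ι H := add_mem (one_mem _) (mul_mem (ofNat_mem _ 3) c.sf)
  obtain ⟨i, h4⟩ := c.step f3 g3 (by
    rw [← w.map_neg]; exact congrArg w (by linear_combination -sq3 ζ * c.s2))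
    ((c.mle c.sO).trans (c.mle c.sO)) (mul_ne_zero (mul_ne_zero s0 s0) s0) h3
  obtain ⟨κ, κf, hκ⟩ := c.kras (mul_mem f3 (pow_mem g3 i)) (h4.trans_lt (by
    rw [map_mul, map_mul, map_mul, pow_succ, sq]
    exact mul_lt_of_lt_one_right (by have := c.p0; positivity) c.p1))
  refine ⟨i, j, k, l, ε * κ * sq3 ζ ^ m, mul_mem (mul_mem εf κf) fm, ?_⟩
  rw [eq_div_iff (pow_ne_zero 3 sm)] at hv
  rw [mul_pow, mul_pow, hκ]
  linear_combination (-(1 + 3 * sq3 ζ) ^ i * ζ ^ j * (-2) ^ l) * hv -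
    v * (sq3 ζ ^ m) ^ 3 * (1 + 3 * sq3 ζ) ^ i * ζ ^ j * (-2) ^ l * ε3

end Cx

end Ar

end Vale.Agent.P022K.L3
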