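import Vale.Agent.P022K.L3.ArB

/-!
# P022K, block L3, row AR: the cup products
-/

set_option linter.all false

noncomputable section

namespace Vale.Agent.P022K.L3

namespace Ar

variable {L : Type} [Field L] {G : Type} [Group G] [TopologicalSpace G] {ι : G →* (L →+* L)}
  {w : AbsoluteValue L ℝ} {H : Subgroup G} {ζ : L}

theorem alg1 {F : Type} [Field F] [CharZero F] {ζ θ δ δ1 δ2 y0 y1 y2 : F} (zs : ζ ^ 2 + ζ + 1 = 0)
    (e : θ ^ 3 = 2) (e0 : 3 * y0 = δ + δ1 + δ2)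
    (e1 : 6 * y1 = δ * θ * θ + δ1 * (ζ * θ) * (ζ * θ) + δ2 * (ζ * (ζ * θ)) * (ζ * (ζ * θ)))
    (e2 : 6 * y2 = δ * θ + δ1 * (ζ * θ) + δ2 * (ζ * (ζ * θ))) : δ = y0 + y1 * θ + y2 * θ ^ 2 ∧
    δ * δ1 * δ2 = y0 ^ 3 + 2 * y1 ^ 3 + 4 * y2 ^ 3 - 6 * y0 * y1 * y2 := by
  have z3 : ζ ^ 3 = 1 := by linear_combination (ζ - 1) * zs
  have g0 : δ = y0 + y1 * θ + y2 * θ ^ 2 := by
    linear_combination (-2 * e0 - θ * e1 - θ ^ 2 * e2 - (2 * δ + (ζ ^ 2 + ζ) * δ1 +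
      (ζ ^ 4 + ζ ^ 2) * δ2) * e - (2 * δ1 + 2 * (ζ ^ 2 - ζ + 1) * δ2) * zs) / 6
  have g1 : δ1 = y0 + ζ * (y1 * θ) + ζ ^ 2 * (y2 * θ ^ 2) := by
    linear_combination (-2 * e0 - ζ * θ * e1 - ζ ^ 2 * θ ^ 2 * e2 - ((ζ + ζ ^ 2) * δ +
      2 * ζ ^ 3 * δ1 + (ζ ^ 5 + ζ ^ 4) * δ2) * e - 2 * (δ + δ2) * zs -
      (4 * δ1 + 2 * (ζ + ζ ^ 2) * δ2) * z3) / 6
  have g2 : δ2 = y0 + ζ ^ 2 * (y1 * θ) + ζ * (y2 * θ ^ 2) := by
    linear_combination (-2 * e0 - ζ ^ 2 * θ * e1 - ζ * θ ^ 2 * e2 - ((ζ + ζ ^ 2) * δ +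
      (ζ ^ 4 + ζ ^ 2) * δ1 + (ζ ^ 6 + ζ ^ 3) * δ2) * e - 2 * (δ + δ1) * zs -
      (2 * ζ * δ1 + 2 * (ζ ^ 3 + 2) * δ2) * z3) / 6
  have k : ∀ x a b : F, (x + a + b) * (x + ζ * a + ζ ^ 2 * b) * (x + ζ ^ 2 * a + ζ * b) =
      x ^ 3 + a ^ 3 + b ^ 3 - 3 * x * a * b := fun x a b => by
    clear e e0 e1 e2 g0 g1 g2
    grind
  refine ⟨g0, ?_⟩
  rw [g0, g1, g2, k]
  linear_combination (y1 ^ 3 + y2 ^ 3 * (θ ^ 3 + 2) - 3 * y0 * y1 * y2) * e

theorem alg2 {F : Type} [Field F] [CharZero F] {s A B v : F} (s2 : s ^ 2 = -3) :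
    (A + B - v) ^ 3 + 2 * (B + v) ^ 3 + 4 * (-v) ^ 3 - 6 * (A + B - v) * (B + v) * (-v) =
      A ^ 3 + s * (v * s) * (A ^ 2 - (v * s) ^ 2) + 3 * (A ^ 2 * B + A * B ^ 2 + B ^ 3 -
      A * (v * s) ^ 2 - s * B ^ 2 * (v * s) - B * (v * s) ^ 2) := by
  grind

namespace Cx

variable (c : Cx ι w H ζ)
include c

theorem kker {θ : L} {f : G → ZMod 3} (h : Ku ι H ζ θ f)
    (ha : ∀ g ∈ H, ∀ h ∈ H, f (g * h) = f g + f h) : θ ∈ Fx ι (kr ha) := fun g hg => by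
  rw [h.2 g hg.1, hg.2]; simp

theorem ktau {θ : L} {f : G → ZMod 3} (h : Ku ι H ζ θ f) (hθ : θ ∉ Fx ι H) :
    ∃ τ ∈ H, f τ = 1 ∧ ι τ θ = ζ * θ := by
  obtain ⟨τ, hτ, t1⟩ := ex_one (c.add h) fun k => hθ fun g hg => by rw [h.2 g hg, k g hg]; simp
  exact ⟨τ, hτ, t1, by rw [h.2 τ hτ, t1, v1, pow_one]⟩

theorem tri {p q r : L} (hpq : w p = w q → p = 0) (hpr : w p = w r → p = 0)
    (hqr : w q = w r → q = 0) (h : w (p + q + r) ≤ 1) : w p ≤ 1 ∧ w q ≤ 1 ∧ w r ≤ 1 := by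
  have k : ∀ x y z : L, w (x + y + z) ≤ 1 → 1 < w x → w y < w x → w z < w x → False :=
    fun x y z h h0 h1 h2 => by
      have := c.slt (c.slt (h.trans_lt h0) h2) h1
      simp at this
  have k1 := k p q r h
  have k2 := k q p r (by rwa [add_comm q])
  have k3 := k r p q (by rwa [add_assoc, add_comm])
  have n1 : 1 < w p → w p ≠ w q := fun a b => by rw [hpq b] at a; norm_num at a
  have n2 : 1 < w p → w p ≠ w r := fun a b => by rw [hpr b] at a; norm_num at a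
  have n3 : 1 < w q → w q ≠ w r := fun a b => by rw [hqr b] at a; norm_num at a
  generalize w p = a at *
  generalize w q = b at *
  generalize w r = d at *
  grind

variable [CharZero L]

/-- no norm of valuation one from the unramified extension -/
theorem c00 {θ θ' : L} {a b : G → ZMod 3} (ha : Ch H a) (ka : Ku ι H ζ θ a) (kb : Ku ι H ζ θ' b)
    (e : θ ^ 3 = 1 + 3 * sq3 ζ) (e' : θ' ^ 3 = sq3 ζ) : ¬Cup0 H a b := fun h => by
  have s0 := c.s0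
  have p0 := c.p0
  have p1 := c.p1
  obtain ⟨t, rfl⟩ : ∃ t, θ = 1 + sq3 ζ * t := ⟨(θ - 1) / sq3 ζ, by field_simp; ring⟩
  have et : t ^ 3 = t + sq3 ζ * t ^ 2 - 1 := mul_left_cancel₀ (pow_ne_zero 3 s0) (by
    linear_combination e - (sq3 ζ * t + sq3 ζ ^ 2 * t ^ 2 - sq3 ζ) * c.s2)
  have tO : t ∈ c.O := not_lt.1 fun k : 1 < w t => by
    have k0 := zero_lt_one.trans k
    have k1 : w t < w t ^ 2 := by nlinarith
    have k2 : w t ^ 2 < w t ^ 3 := by nlinarith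
    refine lt_irrefl (w t ^ 3) ?_
    conv_lhs => rw [← map_pow, et]
    refine c.slt (c.alt (k1.trans k2) ?_) (by rw [map_one]; linarith)
    rw [map_mul, map_pow]
    nlinarith
  have sO := c.sO
  have w1 : w (1 + sq3 ζ * t) = 1 :=
    (c.dom (by rw [add_sub_cancel_left, map_one]; exact (c.mle tO).trans_lt p1)).trans w.map_one
  obtain ⟨τ, hτ, t1, hθ⟩ := c.ktau ka fun k => by
    obtain ⟨y, hy, k⟩ := c.res (x := t) (by
      simpa [s0] using div_mem (sub_mem k (one_mem _)) c.sf) tO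
    have s2 := c.s2
    have kk : ∀ z ∈ c.O, sq3 ζ * z ≠ 1 := fun z hz e => by
      have := c.mle (x := sq3 ζ) hz
      rw [e, map_one] at this
      linarith
    generalize sq3 ζ = s at *
    rcases k with rfl | rfl | rfl
    · exact kk (y + (s * y) ^ 2 - s ^ 2 * y ^ 3) (by apply_rules (maxDepth := 99) (transparency := .reducible) [sub_mem, add_mem, mul_mem, pow_mem, neg_mem, one_mem, ofNat_mem]) (by linear_combination -et)
    · exact kk ((1 + s * y) ^ 2 - 2 * y - 3 * s * y ^ 2 - s ^ 2 * y ^ 3) (by apply_rules (maxDepth := 99) (transparency := .reducible) [sub_mem, add_mem, mul_mem, pow_mem, neg_mem, one_mem, ofNat_mem])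
        (by linear_combination -et)
    · exact kk ((2 + s * y) ^ 2 - 11 * y - 6 * s * y ^ 2 - s ^ 2 * y ^ 3 + 2 * s) (by apply_rules (maxDepth := 99) (transparency := .reducible) [sub_mem, add_mem, mul_mem, pow_mem, neg_mem, one_mem, ofNat_mem])
        (by linear_combination -et + 2 * s2)
  obtain ⟨δ, hδ, n⟩ := c.norm ha kb h hτ t1
  have sf : sq3 ζ ∈ Fx ι (kr ha.2) := fun g hg => c.sf g hg.1
  have tf : t ∈ Fx ι (kr ha.2) := by
    simpa [s0] using div_mem (sub_mem (c.kker ka ha.2) (one_mem _)) sf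
  have y0 := tr hδ hτ t1
  have y1 := tr (mul_mem hδ tf) hτ t1
  have y2 := tr (mul_mem (mul_mem hδ tf) tf) hτ t1
  have h2 := congrArg (ι τ) hθ
  simp only [map_mul, map_add, map_one, c.sf τ hτ, c.zf τ hτ] at y1 y2 hθ h2
  have r3 := congrArg w n
  rw [map_mul, map_mul, c.inv, c.inv, c.inv, e'] at r3
  have r1 : w δ < 1 := not_le.1 fun k => by nlinarith [mul_le_mul k k zero_le_one (w.nonneg δ)]
  have d1 : w (ι τ δ) < 1 := by rwa [c.inv]
  have d2 : w (ι τ (ι τ δ)) < 1 := by rwa [c.inv]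
  have u1 : ι τ t ∈ c.O := (c.inv τ t).trans_le tO
  have u2 : ι τ (ι τ t) ∈ c.O := (c.inv τ _).trans_le u1
  have v1 : w (t - ι τ t) = 1 := mul_left_cancel₀ p0.ne' (by
    rw [← map_mul, show sq3 ζ * (t - ι τ t) = -((ζ - 1) * (1 + sq3 ζ * t)) by
      linear_combination -hθ, w.map_neg, map_mul, w1, c.wz1])
  have v2 : w (t - ι τ (ι τ t)) = 1 := mul_left_cancel₀ p0.ne' (by
    rw [← map_mul, show sq3 ζ * (t - ι τ (ι τ t)) = -((ζ ^ 2 - 1) * (1 + sq3 ζ * t)) by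
      linear_combination -h2 - ζ * hθ, w.map_neg, map_mul, w1, c.wz2])
  generalize ι τ (ι τ δ) = δ2 at *
  generalize ι τ δ = δ1 at *
  generalize ι τ (ι τ t) = t2 at *
  generalize ι τ t = t1 at *
  have z0 := c.gap1 y0 (c.alt (c.alt r1 d1) d2)
  have z1 := c.gap1 y1 (c.alt (c.alt ((c.mle tO).trans_lt r1) ((c.mle u1).trans_lt d1))
    ((c.mle u2).trans_lt d2))
  have z2 := c.gap1 y2 (c.alt (c.alt (((c.mle tO).trans (c.mle tO)).trans_lt r1)
    (((c.mle u1).trans (c.mle u1)).trans_lt d1)) (((c.mle u2).trans (c.mle u2)).trans_lt d2))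
  have z := c.ale (c.sle z2 ((c.mle (add_mem u1 u2)).trans z1)) ((c.mle (mul_mem u1 u2)).trans z0)
  rw [show δ * t * t + δ1 * t1 * t1 + δ2 * t2 * t2 - (δ * t + δ1 * t1 + δ2 * t2) * (t1 + t2) +
    (δ + δ1 + δ2) * (t1 * t2) = δ * (t - t1) * (t - t2) by ring, map_mul, map_mul, v1, v2, mul_one,
    mul_one] at z
  have := w.nonneg δ
  nlinarith [mul_le_mul r1.le r1.le this zero_le_one, mul_pos p0 p0]

theorem notn {A B X : L} (fA : A ∈ Fx ι H) (AO : A ∈ c.O) (BO : B ∈ c.O) (fX : X ∈ Fx ι H)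
    (XO : X ∈ c.O) (N : ζ = A ^ 3 + sq3 ζ * X * (A ^ 2 - X ^ 2) + 3 * (A ^ 2 * B + A * B ^ 2 +
      B ^ 3 - A * X ^ 2 - sq3 ζ * B ^ 2 * X - B * X ^ 2)) : False := by
  have p0 := c.p0
  have p1 := c.p1
  have s2 := c.s2
  have sO := c.sO
  obtain ⟨R, RO, hR⟩ : ∃ R ∈ c.O, R = A ^ 2 * B + A * B ^ 2 + B ^ 3 - A * X ^ 2 -
    sq3 ζ * B ^ 2 * X - B * X ^ 2 := ⟨_, by apply_rules (maxDepth := 99) (transparency := .reducible) [sub_mem, add_mem, mul_mem, pow_mem, neg_mem, one_mem, ofNat_mem], rfl⟩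
  rw [← hR] at N
  obtain ⟨x, xO, hx⟩ : ∃ x ∈ c.O, X ^ 3 - X = sq3 ζ * x := by
    obtain ⟨x, xO, k | k | k⟩ := c.res fX XO
    · exact ⟨x * (X ^ 2 - 1), by apply_rules (maxDepth := 99) (transparency := .reducible) [sub_mem, add_mem, mul_mem, pow_mem, neg_mem, one_mem, ofNat_mem], by linear_combination (X ^ 2 - 1) * k⟩
    · exact ⟨x * X * (X + 1), by apply_rules (maxDepth := 99) (transparency := .reducible) [sub_mem, add_mem, mul_mem, pow_mem, neg_mem, one_mem, ofNat_mem], by linear_combination X * (X + 1) * k⟩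
    · exact ⟨(x - sq3 ζ) * X * (X - 1), by apply_rules (maxDepth := 99) (transparency := .reducible) [sub_mem, add_mem, mul_mem, pow_mem, neg_mem, one_mem, ofNat_mem], by linear_combination X * (X - 1) * (k + s2)⟩
  have z1 := c.wz1
  have z2 : w (ζ + 1) = 1 := by
    rw [show ζ + 1 = -ζ ^ 2 by linear_combination c.zs, w.map_neg, map_pow, c.wz, one_pow]
  have z0 := c.wz
  obtain ⟨y, yO, k⟩ := c.res fA AO
  have kk : ∀ u, ∀ z ∈ c.O, w (sq3 ζ) ≤ w u → u ≠ sq3 ζ * sq3 ζ * z := fun u z hz h e => by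
    have := c.mle (x := sq3 ζ * sq3 ζ) hz
    rw [← e, map_mul] at this
    nlinarith
  clear hR fA AO
  generalize sq3 ζ = s at *
  rcases k with rfl | rfl | rfl
  · have := c.mle (x := s) (y := s ^ 2 * y ^ 3 + X * ((s * y) ^ 2 - X ^ 2) - s * R) (by apply_rules (maxDepth := 99) (transparency := .reducible) [sub_mem, add_mem, mul_mem, pow_mem, neg_mem, one_mem, ofNat_mem])
    rw [show s * (s ^ 2 * y ^ 3 + X * ((s * y) ^ 2 - X ^ 2) - s * R) = ζ by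
      linear_combination -N - R * s2] at this
    linarith
  · exact kk (ζ - 1) (-s * y + 3 * y ^ 2 + s * y ^ 3 + X * y * (2 + s * y) - x - R) (by apply_rules (maxDepth := 99) (transparency := .reducible) [sub_mem, add_mem, mul_mem, pow_mem, neg_mem, one_mem, ofNat_mem]) z1.ge
      (by linear_combination N - s * hx + (s * y + R) * s2)
  · exact kk (ζ + 1) (-s * (y - s) - 3 * (y - s) ^ 2 + s * (y - s) ^ 3 +
      X * (y - s) * (s * (y - s) - 2) - x - R) (by apply_rules (maxDepth := 99) (transparency := .reducible) [sub_mem, add_mem, mul_mem, pow_mem, neg_mem, one_mem, ofNat_mem]) (z2 ▸ p1.le) (by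
        have : 2 + s * y = -1 + s * (y - s) := by linear_combination s2
        rw [this] at N
        linear_combination N - s * hx + (s * (y - s) + R) * s2)

/-- a cube root of unity is not a norm from the field of the cube root of two -/
theorem c11 {θ η : L} {a b : G → ZMod 3} (ha : Ch H a) (hb : Ch H b) (ka : Ku ι H ζ η a)
    (kb : Ku ι H ζ θ b) (e : θ ^ 3 = 2) (e' : η ^ 3 = ζ) : ¬Cup0 H a b := fun h => by
  have s0 := c.s0
  have p0 := c.p0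
  have p1 := c.p1
  have wθ : w θ = 1 := cube1 (by rw [← map_pow, e, c.w2])
  obtain ⟨μ, rfl⟩ : ∃ μ, θ = μ - 1 := ⟨θ + 1, by ring⟩
  have μO : μ ∈ c.O := by simpa using add_mem (show μ - 1 ∈ c.O from wθ.le) (one_mem _)
  have eμ : μ ^ 3 = 3 * (1 - μ + μ ^ 2) := by linear_combination e
  have m1 : w μ < 1 := by
    refine lt_of_pow_lt_pow_left₀ 3 zero_le_one ?_
    rw [← map_pow, eμ, one_pow]
    exact (c.mle (by apply_rules (maxDepth := 99) (transparency := .reducible) [sub_mem, add_mem, mul_mem, pow_mem, neg_mem, one_mem, ofNat_mem])).trans_lt (by rw [c.w3]; norm_num)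
  have m3 : w μ ^ 3 = w (sq3 ζ) ^ 2 := by
    rw [← map_pow, eμ, map_mul, c.w3, c.p2, c.dom (x := 1 - μ + μ ^ 2) (y := 1), map_one, mul_one]
    rw [show 1 - μ + μ ^ 2 - 1 = μ * (μ - 1) by ring, map_one, map_mul, wθ, mul_one]
    exact m1
  have μ0 : μ ≠ 0 := fun k => by
    rw [k, map_zero] at m3
    nlinarith
  have mp := w.pos μ0
  have m2 : w (sq3 ζ) < w μ := lt_of_pow_lt_pow_left₀ 3 mp.le (by
    rw [m3]; exact pow_lt_pow_right_of_lt_one₀ p0 p1 (by norm_num))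
  have val : ∀ x ∈ Fx ι H, x ≠ 0 → ∃ n : ℤ, w x ^ 3 = w (sq3 ζ) ^ (3 * n) := fun x hx x0 => by
    obtain ⟨n, hn⟩ := c.valK hx x0
    exact ⟨n, by rw [hn, mul_comm, zpow_mul, zpow_ofNat]⟩
  obtain ⟨τ, hτ, t1, hθ⟩ := c.ktau kb fun k => by
    obtain ⟨n, hn⟩ := val μ (by simpa using add_mem k (one_mem _)) μ0
    have : (2 : ℤ) = 3 * n := c.pinj ((zpow_ofNat _ 2).trans (m3.symm.trans hn))
    omega
  obtain ⟨δ, hδ, n⟩ := c.norm hb ka (swap ha hb h) hτ t1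
  have θf := c.kker kb hb.2
  have y0 := tr hδ hτ t1
  have y1 := tr (mul_mem (mul_mem hδ θf) θf) hτ t1
  have y2 := tr (mul_mem hδ θf) hτ t1
  simp only [map_mul, hθ, c.zf τ hτ] at y1 y2
  have r3 := congrArg w n
  rw [map_mul, map_mul, c.inv, c.inv, c.inv, e', c.wz] at r3
  have r1 : w δ = 1 := cube1 (by rw [← r3]; ring)
  rw [e'] at n
  generalize ι τ (ι τ δ) = δ2 at *
  generalize ι τ δ = δ1 at *
  have f6 : (6 : L) ∈ Fx ι H := ofNat_mem _ 6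
  obtain ⟨y0, f0, e0⟩ : ∃ y ∈ Fx ι H, 3 * y = _ :=
    ⟨_, div_mem y0 (ofNat_mem _ 3), mul_div_cancel₀ _ three_ne_zero⟩
  obtain ⟨y1, f1, e1⟩ : ∃ y ∈ Fx ι H, 6 * y = _ :=
    ⟨_, div_mem y1 f6, mul_div_cancel₀ _ (by norm_num)⟩
  obtain ⟨y2, f2, e2⟩ : ∃ y ∈ Fx ι H, 6 * y = _ :=
    ⟨_, div_mem y2 f6, mul_div_cancel₀ _ (by norm_num)⟩
  have s2 := c.s2
  obtain ⟨g0, N⟩ := alg1 c.zs e e0 e1 e2
  obtain ⟨A, fA, B, fB, v, fv, rfl, rfl, rfl⟩ : ∃ A ∈ Fx ι H, ∃ B ∈ Fx ι H, ∃ v ∈ Fx ι H,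
      y0 = A + B - v ∧ y1 = B + v ∧ y2 = -v :=
    ⟨y0 - y1 - 2 * y2, sub_mem (sub_mem f0 f1) (mul_mem (ofNat_mem _ 2) f2), y1 + y2, add_mem f1 f2,
      -y2, neg_mem f2, by ring, by ring, by ring⟩
  rw [n, alg2 s2] at N
  have fX := mul_mem fv c.sf
  have g1 : δ = A * 1 + v * sq3 ζ * (sq3 ζ / μ) + B * μ := by
    rw [g0]
    field_simp
    linear_combination -v * eμ - v * s2
  generalize v * sq3 ζ = X at *
  have l3 : w (sq3 ζ / μ) ^ 3 = w (sq3 ζ) ^ (1 : ℤ) := by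
    rw [map_div₀, div_pow, m3, zpow_one]
    field_simp
  have dis : ∀ {x y p q : L} {i j : ℤ}, x ∈ Fx ι H → y ∈ Fx ι H → w p ^ 3 = w (sq3 ζ) ^ i →
      w q ^ 3 = w (sq3 ζ) ^ j → i % 3 ≠ j % 3 → w (x * p) = w (y * q) → x * p = 0 :=
    fun {x y p q i j} hx hy hp hq ne e => by
      by_contra k
      have k' : y * q ≠ 0 := fun k' => k (w.eq_zero.1 (by rw [e, k', map_zero]))
      obtain ⟨m, hm⟩ := val x hx (left_ne_zero_of_mul k)
      obtain ⟨n, hn⟩ := val y hy (left_ne_zero_of_mul k')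
      have := congrArg (· ^ 3) e
      simp only [map_mul, mul_pow, hm, hn, hp, hq, ← zpow_add₀ p0.ne'] at this
      have := c.pinj this
      omega
  have o3 : w 1 ^ 3 = w (sq3 ζ) ^ (0 : ℤ) := by simp
  have m3' : w μ ^ 3 = w (sq3 ζ) ^ (2 : ℤ) := m3.trans (zpow_ofNat _ 2).symm
  obtain ⟨hA, hX, hB⟩ := c.tri (dis fA fX o3 l3 (by norm_num)) (dis fA fB o3 m3' (by norm_num))
    (dis fX fB l3 m3' (by norm_num)) (g1 ▸ r1.le)
  have AO : A ∈ c.O := by rwa [mul_one] at hA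
  have XO : X ∈ c.O := c.gap0 fX (by
    rw [map_mul, map_div₀, ← mul_div_assoc, div_le_one mp] at hX
    exact hX.trans_lt m1)
  have BO : B ∈ c.O := c.gap0 fB (by
    rw [map_mul] at hB
    rcases (w.nonneg B).eq_or_lt with k | k
    · rw [← k]; simp
    · exact (mul_lt_mul_of_pos_left m2 k).trans_le hB)
  exact c.notn fA AO BO fX XO N

end Cx

end Ar

end Vale.Agent.P022K.L3
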