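import Vale.Agent.P022K.L3.Ar
import Vale.Agent.P022K.CH.Fld
import Vale.Agent.P022K.GW.Defs

/-!
# P022K, block L3: the presentation for a decomposition group at three
-/

set_option linter.all false

noncomputable section

namespace Vale.Agent.P022K.L3

open NumberField
open Vale.Agent.P022 Vale.Agent.P022.H916
open Vale.Agent.P022D.W (dec)
open Vale.Agent.P022E.GW (Ov)

theorem dec_cpt (P : Ideal (𝓞 Qb)) : CompactSpace (dec P) := by
  have := H443.galQb
  refine isCompact_iff_compactSpace.1 (IsClosed.isCompact ?_)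
  rw [show (dec P : Set GQ) = ⋂ x : 𝓞 Qb, {g : GQ | g • x ∈ P ↔ x ∈ P} from
    Set.ext fun g => by rw [Set.mem_iInter]; rfl]
  refine isClosed_iInter fun x => ⟨isOpen_iff_mem_nhds.2 fun g hg => ?_⟩
  have : (fun y => g⁻¹ * y) ⁻¹' (MulAction.stabilizer GQ (x : Qb) : Set GQ) ∈ nhds g :=
    ((stabilizer_isOpen_of_isIntegral (x : Qb)).preimage (by fun_prop)).mem_nhds (by simp)
  refine Filter.mem_of_superset this fun y hy m => hg ?_
  have e : (g⁻¹ * y) • x = x := RingOfIntegers.ext (MulAction.mem_stabilizer_iff.1 hy)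
  have e' : y • x = g • x := by rw [← congrArg (g • ·) e, ← mul_smul, mul_inv_cancel_left]
  show g • x ∈ P ↔ x ∈ P
  rw [← e']
  exact m

/-- **rows AR and REL for a decomposition group** -/
theorem pres_dec {P : Ideal (𝓞 Qb)} (h : Ov 3 P) {ω : dec P →* (ZMod 3)ˣ}
    (hω : GW.Cy (dec P).subtype 3 ω) : Pres ω.ker := by
  have := H443.galQb
  have := dec_cpt P
  obtain ⟨w, inv, den, pad⟩ := CH.Fld.exists_abs h
  obtain ⟨a, b, hab⟩ := Ar.gal (k := ℚ) (L := Qb) (dec P).subtype continuous_subtype_val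
    Subtype.val_injective w (fun g => inv g g.2) (fun x hx => den x fun g hg => hx ⟨g, hg⟩) pad
    ω.ker fun g => ⟨fun k x hx => by
      rw [hω g x hx, MonoidHom.mem_ker.1 k]; exact pow_one x, fun k => by
      obtain ⟨ζ, hζ⟩ := HasEnoughRootsOfUnity.exists_primitiveRoot Qb 3
      refine Units.ext (Ar.pw_inj hζ one_ne_zero ?_)
      rw [← hω g ζ hζ.pow_eq_one, k ζ hζ.pow_eq_one]
      exact congrArg (· * 1) (pow_one ζ).symm⟩
  exact relS _ _ a b hab

end Vale.Agent.P022K.L3
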