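import Vale.Agent.P022K.L3.Pt
import Vale.Agent.P022D.CA.BlkDefs
import Vale.Agent.P022D.CA.Cpl

/-!
# P022K, block L3: the twenty variables and the fourteen equations
-/

set_option linter.all false

noncomputable section

namespace Vale.Agent.P022K.L3.Al

open Filter IsLocalRing MvPowerSeries
open Vale.Agent.P022D
open Vale.Agent.P022D.L2 (Lim Uni)
open Vale.Agent.P022D.L2.Pt (lcongr lmap)
open Sg

/-- the twenty variables -/
abbrev T5 : Type := Lt × Fin 2 × Fin 2

section ring

variable {R S : Type} [CommRing R] [CommRing S]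

/-- the universal matrices around `B i` -/
def uni (B : Lt → M2 R) (i : Lt) : M2 (MvPowerSeries T5 R) :=
  Matrix.of fun p q => C (B i p q) + X (i, p, q)

/-- the conjugated universal matrices -/
def cu (P Q : M2 R) (B : Lt → M2 R) (i : Lt) : M2 (MvPowerSeries T5 R) :=
  Q.map C * uni B i * P.map C

/-- `Z` is the value of the relation -/
def IsZ [IsLocalRing R] (U : Ultrafilter Wd) (P Q : M2 R) (B : Lt → M2 R)
    (Z : M2 (MvPowerSeries T5 R)) : Prop :=
  LM U (ev fun i => cu P Q B (some i)) Z

theorem exists_isZ {O : Type} [CommRing O] [IsLocalRing O] [IsNoetherianRing O]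
    [hO : IsAdicComplete (maximalIdeal O) O] [Finite (ResidueField O)] (U : Ultrafilter Wd)
    (P Q : M2 O) (B : Lt → M2 O) : ∃ Z, IsZ U P Q B Z := by
  have h1 := CA.Cpl.isAdicCompleteV (σ := T5) hO
  have h2 := CA.Cpl.finite_residue (σ := T5) (V := O)
  have h3 := cpt (MvPowerSeries T5 O)
  choose Z hZ using fun p q : Fin 2 => h3 U (fun w => ev (fun i => cu P Q B (some i)) w p q)
  exact ⟨Matrix.of Z, hZ⟩

variable (ψ : R →+* S)

theorem map_uni (B : Lt → M2 R) (i : Lt) :
    (uni B i).map (MvPowerSeries.map ψ) = uni (fun i => (B i).map ψ) i := by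
  ext p q : 2
  simp [uni]

theorem map_cst (P : M2 R) : (P.map (C (σ := T5))).map (MvPowerSeries.map ψ) = (P.map ψ).map C := by
  ext p q : 2
  simp

theorem map_cu (P Q : M2 R) (B : Lt → M2 R) (i : Lt) : (cu P Q B i).map (MvPowerSeries.map ψ) =
    cu (P.map ψ) (Q.map ψ) (fun i => (B i).map ψ) i := by
  rw [cu, cu, Matrix.map_mul, Matrix.map_mul, map_uni, map_cst, map_cst]

theorem IsZ.map [IsLocalRing R] [IsLocalRing S]
    (hψ : ∀ x ∈ maximalIdeal R, ψ x ∈ maximalIdeal S) {U : Ultrafilter Wd}
    {P Q : M2 R} {B : Lt → M2 R} {Z : M2 (MvPowerSeries T5 R)} (h : IsZ U P Q B Z) :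
    IsZ U (P.map ψ) (Q.map ψ) (fun i => (B i).map ψ) (Z.map (MvPowerSeries.map ψ)) := by
  intro p q
  have h1 := lmap (φ := MvPowerSeries.map (σ := T5) ψ)
    (n := maximalIdeal (MvPowerSeries T5 S)) (fun x hx => by
      rw [CA.Cpl.mem_max_iff] at hx ⊢
      rw [constantCoeff_map]
      exact hψ _ hx) (h p q)
  refine lcongr h1 (fun w => ?_) rfl
  have h2 := ev_map (MvPowerSeries.map (σ := T5) ψ) (fun i => cu P Q B (some i)) w
  simp only [map_cu] at h2
  rw [← h2]
  rfl

theorem cu_apply (P Q : M2 R) (B : Lt → M2 R) (i : Lt) (p q : Fin 2) :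
    cu P Q B i p q = C ((Q * B i * P) p q) + ∑ a, ∑ b, C (Q p a * P b q) * X (i, a, b) := by
  simp only [cu, uni, Matrix.mul_apply, Fin.sum_univ_two, Matrix.map_apply, Matrix.of_apply,
    map_add, map_mul]
  ring

theorem X_eq {P Q : M2 R} (hPQ : P * Q = 1) (B : Lt → M2 R) (i : Lt) (a b : Fin 2) :
    (X (i, a, b) : MvPowerSeries T5 R) =
      ∑ p, ∑ q, C (P a p * Q q b) * cu P Q B i p q - C (B i a b) := by
  have h1 : P.map C * cu P Q B i * Q.map C = uni B i := by
    have h2 : P.map (C (σ := T5)) * Q.map C = 1 := by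
      rw [← Matrix.map_mul, hPQ, Matrix.map_one _ (map_zero _) (map_one _)]
    calc _ = (P.map C * Q.map C) * uni B i * (P.map C * Q.map C) := by
          simp only [cu, Matrix.mul_assoc]
      _ = _ := by rw [h2, one_mul, mul_one]
  have h3 := congrFun (congrFun h1 a) b
  simp only [uni, Matrix.mul_apply, Fin.sum_univ_two, Matrix.map_apply, Matrix.of_apply] at h3
  simp only [Fin.sum_univ_two, map_mul]
  linear_combination -h3

end ring

variable {F : Type} [Field F] {U : Ultrafilter Wd} {P Q : M2 F} {B : Lt → M2 F}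
  {Z : M2 (MvPowerSeries T5 F)}

/-- the derivations dual to the conjugated coordinates -/
def dd (P Q : M2 F) (i : Lt) (p q : Fin 2) : MvPowerSeries T5 F →+ MvPowerSeries T5 F where
  toFun x := ∑ a, ∑ b, C (P a p * Q q b) * pderiv F (i, a, b) x
  map_zero' := by simp
  map_add' x y := by simp only [map_add, mul_add, Finset.sum_add_distrib]

theorem dd_apply (i : Lt) (p q : Fin 2) (x : MvPowerSeries T5 F) :
    dd P Q i p q x = ∑ a, ∑ b, C (P a p * Q q b) * pderiv F (i, a, b) x := rfl

theorem dd_cu (hQP : Q * P = 1) (i : Lt) (p q : Fin 2) (i' : Lt) (p' q' : Fin 2) :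
    dd P Q i p q (cu P Q B i' p' q') = if i = i' ∧ p = p' ∧ q = q' then 1 else 0 := by
  classical
  have h1 : ∀ a b, pderiv F (i, a, b) (cu P Q B i' p' q') =
      if i = i' then C (Q p' a * P b q') else 0 := by
    intro a b
    rw [cu_apply, map_add, pderiv_C, zero_add]
    simp only [map_sum, Derivation.leibniz, pderiv_C, mul_zero, add_zero, smul_eq_mul]
    split_ifs with hi
    · subst hi
      rw [Finset.sum_eq_single a, Finset.sum_eq_single b, pderiv_X_self, mul_one]
      · intro b' _ hb
        rw [pderiv_X_of_ne (by simp [hb]), mul_zero]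
      · simp
      · intro a' _ ha
        refine Finset.sum_eq_zero fun b' _ => ?_
        rw [pderiv_X_of_ne (by simp [ha]), mul_zero]
      · simp
    · refine Finset.sum_eq_zero fun a' _ => Finset.sum_eq_zero fun b' _ => ?_
      rw [pderiv_X_of_ne (by simp [Ne.symm hi]), mul_zero]
  rw [dd_apply]
  simp only [h1]
  by_cases hi : i = i'
  · have h2 : ∑ a, ∑ b, (C (P a p * Q q b) : MvPowerSeries T5 F) * C (Q p' a * P b q') =
        C ((Q * P) p' p * (Q * P) q q') := by
      simp only [Matrix.mul_apply, Fin.sum_univ_two, map_add, map_mul]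
      ring
    simp only [hi, if_true, true_and]
    rw [h2, hQP, Matrix.one_apply, Matrix.one_apply]
    by_cases hp : p = p' <;> by_cases hq : q = q' <;> simp [hp, hq, Ne.symm]
  · simp [hi]

theorem blk [CharP F 3] [Finite F] (hU : Rel U) (hPQ : P * Q = 1) {δ : Lt → F} (h0 : δ none = -1)
    (h1 : ∀ i, δ (some i) = 1) (hS : (Q * B none * P) 0 0 ≠ (Q * B none * P) 1 1)
    (hB : ∀ i, ∃ n, Q * B (some i) * P = !![1, n; 0, 1]) (h : IsZ U P Q B Z) :
    CA.BlkPt (eqs (cu P Q B) (fun o => C (δ o)) Z) := by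
  classical
  intro A _ _ _ _ _ φ hres hX hloc hf K _ _ _
  have hA : CharP A 3 := (RingHom.charP_iff_charP (φ.comp C) 3).1 inferInstance
  have hK : CharP K 3 := charP_of_injective_algebraMap (IsFractionRing.injective A K) 3
  have hfin : Finite (ResidueField A) := by
    refine Finite.of_surjective (fun a : F => residue A (φ (C a))) fun y => ?_
    obtain ⟨b, rfl⟩ := residue_surjective y
    obtain ⟨a, ha⟩ := hres b
    exact ⟨a, (Ideal.Quotient.eq.2 ha).symm⟩
  have hm : ∀ i p q, φ (cu P Q B i p q) - φ (C ((Q * B i * P) p q)) ∈ maximalIdeal A := by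
    intro i p q
    rw [cu_apply, map_add, add_sub_cancel_left, map_sum]
    refine sum_mem fun a _ => ?_
    rw [map_sum]
    refine sum_mem fun b _ => ?_
    rw [map_mul]
    exact Ideal.mul_mem_left _ _ (hX _)
  have hpt := pt hU h (dd P Q)
    (fun i p q x y => by
      simp only [dd_apply, Derivation.leibniz, smul_eq_mul, Fin.sum_univ_two]
      ring)
    (dd_cu (mul_eq_one_comm.1 hPQ)) (d := fun o => C (δ o))
    (fun i p q o => by simp [dd_apply]) (cpt A) φ hloc hf
    (by rw [h0, map_neg, map_neg, map_one, map_one]) (fun i => by rw [h1, map_one, map_one])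
    (by
      by_contra c
      have c1 := sub_mem ((mem_maximalIdeal _).2 c) (sub_mem (hm none 0 0) (hm none 1 1))
      refine (mem_maximalIdeal _).1 c1 ?_
      convert ((sub_ne_zero.2 hS).isUnit.map (C (σ := T5))).map φ using 1
      rw [map_sub, map_sub]
      ring)
    (fun i => by
      obtain ⟨n, hn⟩ := hB i
      have e := hm (some i)
      rw [hn] at e
      exact ⟨by simpa using e 0 0, by simpa using e 1 0, by simpa using e 1 1⟩) K
  rcases hpt with hJ | ⟨u, hu⟩
  · left
    intro l hl
    refine congrFun (hJ l fun i p q => ?_)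
    have e : ∑ a, ∑ b, algebraMap A K (φ (C (P a p * Q q b))) * ∑ k, l k *
        algebraMap A K (φ (pderiv F (i, a, b) (eqs (cu P Q B) (fun o => C (δ o)) Z k))) = 0 := by
      simp only [hl, mul_zero, Finset.sum_const_zero]
    rw [← e]
    simp only [dd_apply, Fin.sum_univ_two, map_add, RingHom.map_mul φ,
      RingHom.map_mul (algebraMap A K), Finset.mul_sum, ← Finset.sum_add_distrib]
    exact Finset.sum_congr rfl fun k _ => by ring
  · right
    refine ⟨Finset.univ.image u, ?_, fun D hD t => ?_⟩
    · have h1 : (Finset.univ.image u).card ≤ 4 := Finset.card_image_le.trans (by simp)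
      have h2 : Fintype.card Eq3 = 14 := by simp
      have h3 : Fintype.card T5 = 20 := by simp
      omega
    · obtain ⟨i, a, b⟩ := t
      have h1 := hu D (fun j => hD _ (Finset.mem_image_of_mem u (Finset.mem_univ j))) i
      have h2 : ∀ y : F, D (algebraMap A K (φ (C y))) = 0 := by
        intro y
        have _ : Fact (Nat.Prime 3) := ⟨Nat.prime_three⟩
        obtain ⟨z, rfl⟩ := (frobeniusEquiv F 3).surjective y
        rw [frobeniusEquiv_apply, frobenius_def, map_pow, map_pow, map_pow,
          Derivation.leibniz_pow, nsmul_eq_mul, Nat.cast_ofNat, three, zero_mul]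
      rw [X_eq hPQ B i a b]
      simp only [Fin.sum_univ_two, map_add, map_sub, RingHom.map_mul φ,
        RingHom.map_mul (algebraMap A K), Derivation.leibniz, h1, h2, smul_zero, add_zero,
        sub_zero]

end Vale.Agent.P022K.L3.Al
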