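import Mathlib

/-!
# P022K, block L3 (local ring at three): definitions and the rows AR, REL

`H` is a subgroup of index two of `G`; the letters `0, 1` are fixed and the letters `2, 3` are
inverted by an involution `δ` outside `H`.
-/

set_option linter.all false

noncomputable section

namespace Vale.Agent.P022K.L3

open Filter

/-- positive words in four letters -/
abbrev Wd : Type := List (Fin 4)

/-- value of a word -/
def ev {M : Type*} [Monoid M] (X : Fin 4 → M) (w : Wd) : M := (w.map X).prod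

/-- Fox derivative of a word, evaluated at the character `x_i ↦ e i` -/
def fx {R : Type*} [CommRing R] (e : Fin 4 → R) (j : Fin 4) : Wd → R
  | [] => 0
  | i :: w => (if i = j then 1 else 0) + e i * fx e j w

/-- Magnus coefficient of degree one, mod 3 -/
def mA (j : Fin 4) (w : Wd) : ZMod 3 := fx (fun _ => 1) j w

/-- Magnus coefficient of degree two, mod 3 -/
def mC (i j : Fin 4) : Wd → ZMod 3
  | [] => 0
  | k :: w => mC i j w + (if k = i then mA j w else 0)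

/-- the fixed letters -/
def lx : Fin 2 → Fin 4 := ![0, 1]

/-- the inverted letters -/
def ly : Fin 2 → Fin 4 := ![2, 3]

/-- **a relation of Demushkin type**: an ultrafilter of words -/
structure Rel (U : Ultrafilter Wd) : Prop where
  mag : ∀ᶠ w in (U : Filter Wd), ∀ j, mA j w = 0
  cup : ∃ c : Matrix (Fin 2) (Fin 2) (ZMod 3), c.det ≠ 0 ∧
    ∀ᶠ w in (U : Filter Wd), ∀ i j, mC (lx i) (ly j) w = c i j
  cub : ∃ e : Fin 2 → ZMod 3, e ≠ 0 ∧
    ∀ᶠ w in (U : Filter Wd), ∀ j, ((w.count (ly j) : ℕ) : ZMod 9) = 3 * ((e j).val : ZMod 9)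

section

variable {G : Type} [Group G] [TopologicalSpace G]

/-- a homomorphism with open kernel which maps `H` to a 3-group -/
def Thr (H : Subgroup G) {M : Type} [Monoid M] (ρ : G →* M) : Prop :=
  IsOpen {x | ρ x = 1} ∧ ∀ x ∈ H, ∃ k : ℕ, ρ x ^ 3 ^ k = 1

/-- the relations hold in, and `δ`, `g` generate, every finite quotient in which `H` is a
3-group -/
def Holds (H : Subgroup G) (δ : G) (g : Fin 4 → G) (U : Ultrafilter Wd) : Prop :=
  ∀ (M : Type) [Monoid M] (ρ : G →* M), Thr H ρ → ρ δ * ρ δ = 1 ∧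
    (∀ i, ρ δ * ρ (g (lx i)) = ρ (g (lx i)) * ρ δ) ∧
    (∀ j, ρ δ * ρ (g (ly j)) * ρ δ * ρ (g (ly j)) = 1) ∧
    (∀ᶠ w in (U : Filter Wd), ev (fun i => ρ (g i)) w = 1) ∧
    (∀ x ∈ H, ∃ w : Wd, ρ x = ev (fun i => ρ (g i)) w) ∧
    ∀ x ∉ H, ∃ w : Wd, ρ x = ρ δ * ev (fun i => ρ (g i)) w

/-- **the output of the rows AR and REL**; the letters are squares -/
def Pres (H : Subgroup G) : Prop :=
  ∃ (δ : G) (g : Fin 4 → G) (U : Ultrafilter Wd), δ ∉ H ∧ (∀ i, g i ∈ H) ∧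
    (∀ i, ∃ h, g i = h * h) ∧ Rel U ∧ Holds H δ g U

/-- locally constant functions which are additive on `H` -/
def Ch (H : Subgroup G) (f : G → ZMod 3) : Prop :=
  IsLocallyConstant f ∧ ∀ x ∈ H, ∀ y ∈ H, f (x * y) = f x + f y

/-- `a ∪ b` is a coboundary on `H` -/
def Cup0 (H : Subgroup G) (a b : G → ZMod 3) : Prop :=
  ∃ z : G → ZMod 3, IsLocallyConstant z ∧ ∀ x ∈ H, ∀ y ∈ H, z (x * y) = z x + z y + a x * b y

/-- what is used of the absolute Galois groups of `ℚ₃` and of `ℚ₃(ζ₃)` -/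
structure Loc3 (H : Subgroup G) (a b : Fin 2 → G → ZMod 3) : Prop where
  opn : IsOpen (H : Set G)
  idx : H.index = 2
  ha : ∀ i, Ch H (a i)
  hb : ∀ i, Ch H (b i)
  ea : ∀ i, ∀ s ∉ H, ∀ x ∈ H, a i (s * x * s⁻¹) = a i x
  eb : ∀ i, ∀ s ∉ H, ∀ x ∈ H, b i (s * x * s⁻¹) = -b i x
  gen : ∀ f, Ch H f → ∃ α β : Fin 2 → ZMod 3, ∀ x ∈ H,
    f x = α 0 * a 0 x + α 1 * a 1 x + (β 0 * b 0 x + β 1 * b 1 x)
  c00 : ¬ Cup0 H (a 0) (b 0)
  c10 : Cup0 H (a 1) (b 0)
  c11 : ¬ Cup0 H (a 1) (b 1)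
  kum : ∃ u : G → ZMod 9, IsLocallyConstant u ∧
    (∀ x ∈ H, ∀ y ∈ H, u (x * y) = u x + (1 + 3 * ((a 1 x).val : ZMod 9)) * u y) ∧
    ∀ x ∈ H, ZMod.castHom (show 3 ∣ 9 by norm_num) (ZMod 3) (u x) = b 1 x

end

/-- the absolute Galois group of `ℚ₃` -/
abbrev G3 : Type := Gal(AlgebraicClosure ℚ_[3] / ℚ_[3])

/-- the elements which fix the cube roots of unity -/
def H3 : Subgroup G3 where
  carrier := {g | ∀ x : AlgebraicClosure ℚ_[3], x ^ 3 = 1 → g x = x}
  mul_mem' {g h} hg hh x hx := by rw [AlgEquiv.mul_apply, hh x hx, hg x hx]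
  one_mem' _ _ := rfl
  inv_mem' {g} hg x hx := g.injective (by rw [hg x hx]; exact g.apply_symm_apply x |>.trans (hg x hx).symm |>.trans (hg x hx))

/-- row AR -/
def ArS : Prop := ∃ a b : Fin 2 → G3 → ZMod 3, Loc3 H3 a b

/-- row REL -/
def RelS : Prop :=
  ∀ (G : Type) [Group G] [TopologicalSpace G] [IsTopologicalGroup G] [CompactSpace G]
    (H : Subgroup G) (a b : Fin 2 → G → ZMod 3), Loc3 H a b → Pres H

end Vale.Agent.P022K.L3
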