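import Vale.Agent.P022K.L3.Wd

/-!
# P022K, block L3: Fox derivatives of the relation, with an involution
-/

set_option linter.all false

noncomputable section

namespace Vale.Agent.P022K.L3.Al

open Filter IsLocalRing Matrix
open Vale.Agent.P022D.L2 (Lim Uni)
open Vale.Agent.P022D.L2.Fox (sg th sg_apply th_apply sg_eq mem_smul_top closed uni_eq)

namespace Fx

variable {B : Type} [CommRing B]

/-- the dual Fox operators -/
def T (X : Fin 4 → M2 B) (j : Fin 4) : Wd → M2 B → M2 B
  | [], _ => 0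
  | i :: w, N => (if i = j then N else 0) + T X j w (sg (X i) N)

theorem tr_dw (X Y : Fin 4 → M2 B) (w : Wd) : ∀ N : M2 B,
    (N * dw X Y w).trace = ∑ j, (T X j w N * Y j).trace := by
  induction w with
  | nil => intro N; simp [dw, T]
  | cons i w ih =>
    intro N
    have h : (N * (X i * dw X Y w * (X i).adjugate)).trace =
        (sg (X i) N * dw X Y w).trace := by
      rw [← mul_assoc, trace_mul_comm, sg_apply]
      simp only [mul_assoc]
    rw [dw, mul_add, trace_add, h, ih]
    simp only [T, add_mul, trace_add, Finset.sum_add_distrib]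
    congr 1
    rw [Finset.sum_eq_single i]
    · simp
    · intro j _ hj
      simp [Ne.symm hj]
    · simp

theorem tr_T {X : Fin 4 → M2 B} (h : ∀ i, (X i).det = 1) (j : Fin 4) (w : Wd) :
    ∀ N : M2 B, N.trace = 0 → (T X j w N).trace = 0 := by
  induction w with
  | nil => intro N _; simp [T]
  | cons i w ih =>
    intro N hN
    rw [T, trace_add, ih]
    · split_ifs <;> simp [hN]
    · rw [sg_apply, trace_mul_comm, mul_assoc, mul_adjugate, h, one_smul, mul_one, hN]

/-- the augmentation ideal applied to a submodule -/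
def I (𝒜 : Set (M2 B)) (W : Submodule B (M2 B)) : Submodule B (M2 B) := ⨆ A ∈ 𝒜, W.map (th A)

variable {𝒜 : Set (M2 B)}

theorem mem_I {W : Submodule B (M2 B)} {N A : M2 B} (h : N ∈ W) (hA : A ∈ 𝒜) : th A N ∈ I 𝒜 W :=
  Submodule.mem_iSup_of_mem A (Submodule.mem_iSup_of_mem hA (Submodule.mem_map_of_mem h))

theorem I_le {W W' : Submodule B (M2 B)} (h : ∀ A ∈ 𝒜, ∀ N ∈ W, th A N ∈ W') : I 𝒜 W ≤ W' :=
  iSup₂_le fun A hA => Submodule.map_le_iff_le_comap.2 fun N hN => h A hA N hN

theorem I_mono {W W' : Submodule B (M2 B)} (h : W ≤ W') : I 𝒜 W ≤ I 𝒜 W' :=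
  I_le fun _ hA _ hN => mem_I (h hN) hA

theorem I_sup (W W' : Submodule B (M2 B)) : I 𝒜 (W ⊔ W') ≤ I 𝒜 W ⊔ I 𝒜 W' :=
  I_le fun A hA N hN => by
    obtain ⟨a, ha, b, hb, rfl⟩ := Submodule.mem_sup.1 hN
    rw [map_add]
    exact Submodule.add_mem_sup (mem_I ha hA) (mem_I hb hA)

theorem I_smul (J : Ideal B) (W : Submodule B (M2 B)) : I 𝒜 (J • W) ≤ J • I 𝒜 W :=
  iSup₂_le fun A hA => by
    rw [Submodule.map_smul'']
    exact Submodule.smul_mono le_rfl (Submodule.map_le_iff_le_comap.2 fun N hN => mem_I hN hA)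

theorem magnus [CharP B 3] (X : Fin 4 → M2 B) (hX : ∀ i, X i ∈ 𝒜) (W : Submodule B (M2 B))
    (hW : I 𝒜 W ≤ W) (j : Fin 4) (w : Wd) :
    ∀ N ∈ W, T X j w N - (ZMod.castHom (dvd_refl 3) B (mA j w) • N +
      ∑ i, ZMod.castHom (dvd_refl 3) B (mC i j w) • th (X i) N) ∈ I 𝒜 (I 𝒜 W) := by
  induction w with
  | nil => intro N _; simp [T, mA, mC]
  | cons k w ih =>
    intro N hN
    have h1 : sg (X k) N ∈ W := by
      rw [sg_eq]; exact W.add_mem hN (hW (mem_I hN (hX k)))
    have h2 := ih _ h1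
    have h3 : ∑ i, ZMod.castHom (dvd_refl 3) B (mC i j w) • th (X i) (th (X k) N) ∈
        I 𝒜 (I 𝒜 W) :=
      Submodule.sum_mem _ fun i _ => Submodule.smul_mem _ _ (mem_I (mem_I hN (hX k)) (hX i))
    have h4 : ∑ i, ZMod.castHom (dvd_refl 3) B (if k = i then mA j w else 0) • th (X i) N =
        ZMod.castHom (dvd_refl 3) B (mA j w) • th (X k) N := by
      rw [Finset.sum_eq_single k]
      · rw [if_pos rfl]
      · intro i _ hi
        rw [if_neg (Ne.symm hi), map_zero, zero_smul]
      · simp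
    have h5 : ZMod.castHom (dvd_refl 3) B (mA j (k :: w)) • N =
        (if k = j then N else 0) + ZMod.castHom (dvd_refl 3) B (mA j w) • N := by
      rw [mA_cons, map_add, add_smul]
      split_ifs
      · rw [map_one, one_smul]
      · rw [map_zero, zero_smul]
    have h6 := Submodule.add_mem _ h2 h3
    have e : T X j (k :: w) N - (ZMod.castHom (dvd_refl 3) B (mA j (k :: w)) • N +
        ∑ i, ZMod.castHom (dvd_refl 3) B (mC i j (k :: w)) • th (X i) N) =
        T X j w (sg (X k) N) - (ZMod.castHom (dvd_refl 3) B (mA j w) • sg (X k) N +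
          ∑ i, ZMod.castHom (dvd_refl 3) B (mC i j w) • th (X i) (sg (X k) N)) +
        ∑ i, ZMod.castHom (dvd_refl 3) B (mC i j w) • th (X i) (th (X k) N) := by
      rw [h5, T]
      simp only [mC, map_add, add_smul, Finset.sum_add_distrib, h4]
      simp only [sg_eq (X k) N, map_add, smul_add, Finset.sum_add_distrib]
      abel
    rw [e]
    exact h6

/-- conjugation by the involution -/
def cs (S : M2 B) : M2 B →ₗ[B] M2 B := (LinearMap.mulLeft B S).comp (LinearMap.mulRight B S)

theorem cs_apply (S N : M2 B) : cs S N = S * (N * S) := rfl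

theorem adj_eq {A A' : M2 B} (h : A.det = 1) (e : A * A' = 1) : A.adjugate = A' := by
  rw [← mul_one A.adjugate, ← e, ← mul_assoc, adjugate_mul, h, one_smul, one_mul]

theorem cs_th {S A : M2 B} (hS : S * S = 1) (hA : A.det = 1) (Z : M2 B) :
    cs S (th A Z) = th (S * A * S) (cs S Z) := by
  have hd : (S * A * S).det = 1 := by
    rw [det_mul, det_mul, hA, mul_one, ← det_mul, hS, det_one]
  have h1 : (S * A * S).adjugate = S * A.adjugate * S := adj_eq hd (by
    calc S * A * S * (S * A.adjugate * S) = S * (A * (S * S) * A.adjugate) * S := by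
          simp only [mul_assoc]
      _ = 1 := by rw [hS, mul_one, mul_adjugate, hA, one_smul, mul_one, hS])
  rw [th_apply, th_apply, h1, map_sub, cs_apply, cs_apply]
  congr 1
  calc S * (A.adjugate * (Z * A) * S) = S * A.adjugate * (S * S) * Z * (S * S) * A * S := by
        rw [hS]; simp only [mul_assoc, one_mul, mul_one]
    _ = _ := by simp only [mul_assoc]

theorem cs_cs {S : M2 B} (hS : S * S = 1) (Z : M2 B) : cs S (cs S Z) = Z := by
  rw [cs_apply, cs_apply]
  calc S * (S * (Z * S) * S) = (S * S) * Z * (S * S) := by simp only [mul_assoc]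
    _ = Z := by rw [hS, one_mul, mul_one]

theorem th_adj {A : M2 B} (hA : A.det = 1) (Z : M2 B) :
    th A.adjugate Z = -th A Z - th A.adjugate (th A Z) := by
  have h2 : A.adjugate.adjugate = A :=
    adj_eq (by rw [det_adjugate, hA, one_pow]) (by rw [adjugate_mul, hA, one_smul])
  have h3 : A * (A.adjugate * (Z * A) * A.adjugate) = Z := by
    calc _ = (A * A.adjugate) * Z * (A * A.adjugate) := by simp only [mul_assoc]
      _ = Z := by rw [mul_adjugate, hA, one_smul, one_mul, mul_one]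
  simp only [th_apply, h2, sub_mul, mul_sub, h3]
  abel

theorem ent_of_tr {J : Ideal B} {D : M2 B} (h : ∀ E : M2 B, (D * E).trace ∈ J) :
    D ∈ J • (⊤ : Submodule B (M2 B)) :=
  mem_smul_top fun p q => by
    have := h (single q p 1)
    rw [trace_mul_single] at this
    simpa using this

variable [IsLocalRing B]

theorem uni_adj {X : M2 B} (h : Uni X) : Uni X.adjugate := by
  obtain ⟨a, b, c, d⟩ := h
  refine ⟨by rw [det_adjugate, a, one_pow], ?_, ?_, ?_⟩ <;> simp [adjugate_fin_two, b, c, d]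

theorem th3 {X X' X'' : M2 B} (h : Uni X) (h' : Uni X') (h'' : Uni X'') (Z : M2 B) (p q : Fin 2) :
    th X (th X' (th X'' Z)) p q ∈ maximalIdeal B := by
  have ent : ∀ (X Z : M2 B) (p q : Fin 2), th X Z p q =
      X.adjugate p 0 * (Z 0 0 * X 0 q + Z 0 1 * X 1 q) +
      X.adjugate p 1 * (Z 1 0 * X 0 q + Z 1 1 * X 1 q) - Z p q := by
    intro X Z p q
    simp only [th_apply, Matrix.sub_apply, Matrix.mul_apply, Fin.sum_univ_two]
  have st : ∀ {X : M2 B}, Uni X → ∀ Z : M2 B,
      residue B (th X Z 0 0) = -(residue B (X 0 1) * residue B (Z 1 0)) ∧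
      residue B (th X Z 1 0) = 0 ∧
      residue B (th X Z 1 1) = residue B (X 0 1) * residue B (Z 1 0) ∧
      residue B (th X Z 0 1) = residue B (X 0 1) * (residue B (Z 0 0) - residue B (Z 1 1) -
        residue B (X 0 1) * residue B (Z 1 0)) := by
    intro X h Z
    obtain ⟨a, b, c⟩ := uni_eq h
    have e1 : X.adjugate 0 0 = X 1 1 := by simp [adjugate_fin_two]
    have e2 : X.adjugate 0 1 = -X 0 1 := by simp [adjugate_fin_two]
    have e3 : X.adjugate 1 0 = -X 1 0 := by simp [adjugate_fin_two]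
    have e4 : X.adjugate 1 1 = X 0 0 := by simp [adjugate_fin_two]
    simp only [ent, e1, e2, e3, e4, map_add, map_sub, map_mul, map_neg, a, b, c]
    refine ⟨by ring, by ring, by ring, by ring⟩
  obtain ⟨-, a1, -, -⟩ := st h'' Z
  obtain ⟨b0, b1, b2, -⟩ := st h' (th X'' Z)
  obtain ⟨c0, c1, c2, c3⟩ := st h (th X' (th X'' Z))
  rw [a1] at b0 b2
  rw [b0, b2, b1] at c3
  rw [b1] at c0 c2
  rw [← residue_eq_zero_iff]
  have hp : ∀ p : Fin 2, p = 0 ∨ p = 1 := by decide
  rcases hp p with rfl | rfl <;> rcases hp q with rfl | rfl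
  · rw [c0]; ring
  · rw [c3]; ring
  · exact c1
  · rw [c2]; ring

theorem III (h : ∀ A ∈ 𝒜, Uni A) : I 𝒜 (I 𝒜 (I 𝒜 ⊤)) ≤ maximalIdeal B • ⊤ :=
  I_le fun A hA N hN => by
    have : I 𝒜 (I 𝒜 ⊤) ≤ (maximalIdeal B • ⊤ : Submodule B (M2 B)).comap (th A) :=
      I_le fun A' hA' N' hN' => by
        have : I 𝒜 ⊤ ≤ ((maximalIdeal B • ⊤ : Submodule B (M2 B)).comap (th A)).comap (th A') :=
          I_le fun A'' hA'' Z _ => mem_smul_top (th3 (h A hA) (h A' hA') (h A'' hA'') Z)
        exact this hN'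
    exact this hN

theorem nak [IsNoetherianRing B] (h : ∀ A ∈ 𝒜, Uni A) {W : Submodule B (M2 B)}
    (hW : W ≤ I 𝒜 W) : W ≤ ⊥ := by
  have h3 : ∀ k : ℕ, W ≤ maximalIdeal B ^ k • ⊤ := by
    intro k
    induction k with
    | zero => rw [pow_zero, Ideal.one_eq_top, Submodule.top_smul]; exact le_top
    | succ k ih =>
      refine (hW.trans (I_mono (hW.trans (I_mono hW)))).trans ((I_mono (I_mono (I_mono ih))).trans ?_)
      refine (I_mono (I_mono (I_smul _ _))).trans ((I_mono (I_smul _ _)).trans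
        ((I_smul _ _).trans ?_))
      rw [pow_succ, mul_smul]
      exact Submodule.smul_mono le_rfl (III h)
  exact fun x hx => closed fun k => Submodule.mem_sup_right (h3 k hx)

omit [IsLocalRing B] in
theorem solve [CharP B 3] {W : Submodule B (M2 B)} {c : M2 (ZMod 3)} (hc : c.det ≠ 0)
    {v : Fin 2 → M2 B}
    (h : ∀ a, ∑ b, ZMod.castHom (dvd_refl 3) B (c a b) • (v b + v b) ∈ W) (b : Fin 2) :
    v b ∈ W := by
  have h3 : (3 : B) = 0 := by exact_mod_cast CharP.cast_eq_zero B 3
  have hd : ∀ t : ZMod 3, t ≠ 0 → t * t = 1 := by decide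
  have h1 := congrArg (ZMod.castHom (dvd_refl 3) B) (hd _ hc)
  rw [det_fin_two, map_mul, map_sub, map_mul, map_mul, map_one] at h1
  have h0 := h 0
  have h2 := h 1
  rw [Fin.sum_univ_two] at h0 h2
  generalize ZMod.castHom (dvd_refl 3) B (c 0 0) = p at *
  generalize ZMod.castHom (dvd_refl 3) B (c 0 1) = q at *
  generalize ZMod.castHom (dvd_refl 3) B (c 1 0) = r at *
  generalize ZMod.castHom (dvd_refl 3) B (c 1 1) = s at *
  have hb : b = 0 ∨ b = 1 := by revert b; decide
  rcases hb with rfl | rfl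
  · have := W.smul_mem (-(p * s - q * r)) (W.sub_mem (W.smul_mem s h0) (W.smul_mem q h2))
    convert this using 1
    ext i j
    simp only [Matrix.smul_apply, Matrix.sub_apply, Matrix.add_apply, smul_eq_mul]
    linear_combination (2 * v 0 i j) * h1 + v 0 i j * h3
  · have := W.smul_mem (-(p * s - q * r)) (W.sub_mem (W.smul_mem p h2) (W.smul_mem r h0))
    convert this using 1
    ext i j
    simp only [Matrix.smul_apply, Matrix.sub_apply, Matrix.add_apply, smul_eq_mul]
    linear_combination (2 * v 1 i j) * h1 + v 1 i j * h3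

end Fx

open Fx in
/-- **a singular point has a twisted endomorphism** -/
theorem fox {U : Ultrafilter Wd} (hU : Rel U) {B : Type} [CommRing B] [IsLocalRing B]
    [IsNoetherianRing B] [CharP B 3] {S : M2 B} {X : Fin 4 → M2 B} (hX : ∀ i, Uni (X i))
    (hI : Inv S X) {N : M2 B} (hN0 : N.trace = 0) (hSN : S * N = -(N * S))
    (hL : ∀ Y, Dir S X Y → Lim (maximalIdeal B) U (fun w => (N * dw X Y w).trace) 0) (i : Fin 4) :
    X i * N = N * X i := by
  classical
  have hd : ∀ i, (X i).det = 1 := fun i => (hX i).1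
  have hT : ∀ (j : Fin 4) (E : M2 B), Dir S X (Pi.single j E) → ∀ k : ℕ,
      ∀ᶠ w in (U : Filter Wd), (T X j w N * E).trace ∈ maximalIdeal B ^ k := by
    intro j E hE k
    refine (hL _ hE k).mono fun w hw => ?_
    beta_reduce at hw
    rw [tr_dw, Finset.sum_eq_single j, Pi.single_eq_same, sub_zero] at hw
    · exact hw
    · intro i _ hi
      rw [Pi.single_eq_of_ne hi, mul_zero, trace_zero]
    · simp
  have htr : ∀ (j : Fin 4) (E : M2 B), E.trace = 0 → ∀ i,
      ((Pi.single j E : Fin 4 → M2 B) i).trace = 0 := by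
    intro j E hE i
    by_cases h : i = j
    · rw [h, Pi.single_eq_same, hE]
    · rw [Pi.single_eq_of_ne h, trace_zero]
  have all : ∀ {P : Wd → M2 B → Prop}, (∀ p q : Fin 2, ∀ᶠ w in (U : Filter Wd),
      P w (single q p 1)) → ∀ᶠ w in (U : Filter Wd), ∀ p q : Fin 2, P w (single q p 1) :=
    fun h => eventually_all.2 fun p => eventually_all.2 fun q => h p q
  have hx : ∀ (a : Fin 2) (k : ℕ), ∀ᶠ w in (U : Filter Wd),
      T X (lx a) w N + cs S (T X (lx a) w N) ∈
        (maximalIdeal B ^ k • ⊤ : Submodule B (M2 B)) := by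
    intro a k
    have h1 : ∀ E : M2 B, Dir S X (Pi.single (lx a) (E + cs S E - E.trace • 1)) := fun E => by
      refine ⟨htr _ _ ?_, fun i => ?_, fun j => ?_⟩
      · rw [trace_sub, trace_add, cs_apply, trace_mul_comm, mul_assoc, hI.sq, mul_one, trace_smul,
          trace_one]
        simp
        ring
      · by_cases h : i = a
        · rw [h, Pi.single_eq_same, cs_apply, mul_sub, sub_mul, mul_add, add_mul,
            ← mul_assoc S S, hI.sq, one_mul, mul_assoc S, mul_assoc E, hI.sq, mul_one,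
            mul_smul_comm, smul_mul_assoc, one_mul, mul_one, add_comm]
        · rw [Pi.single_eq_of_ne (lx_inj.ne h), mul_zero, zero_mul]
      · rw [Pi.single_eq_of_ne (lx_ne _ _).symm, zero_mul, trace_zero]
    refine (all (P := fun w E => (T X (lx a) w N * (E + cs S E - E.trace • 1)).trace ∈
      maximalIdeal B ^ k) fun p q => hT _ _ (h1 _) k).mono fun w hw => ?_
    refine mem_smul_top fun p q => ?_
    have h2 := hw p q
    have h3 : (T X (lx a) w N * cs S (single q p 1)).trace =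
        (cs S (T X (lx a) w N) * single q p 1).trace := by
      rw [cs_apply, cs_apply, ← mul_assoc, ← mul_assoc, trace_mul_comm]
      simp only [mul_assoc]
    rw [mul_sub, mul_add, trace_sub, trace_add, h3, mul_smul_comm, mul_one, trace_smul,
      tr_T hd _ _ _ hN0, smul_zero, sub_zero, trace_mul_single, trace_mul_single] at h2
    simpa using h2
  have hS' : ∀ b, X (ly b) * S * (X (ly b) * S) = 1 := fun b => by
    calc _ = X (ly b) * (S * X (ly b) * S) := by simp only [mul_assoc]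
      _ = 1 := by rw [hI.y, mul_adjugate, hd, one_smul]
  have hy : ∀ (b : Fin 2) (k : ℕ), ∀ᶠ w in (U : Filter Wd),
      T X (ly b) w N - cs (X (ly b) * S) (T X (ly b) w N) ∈
        (maximalIdeal B ^ k • ⊤ : Submodule B (M2 B)) := by
    intro b k
    have h1 : ∀ E : M2 B, Dir S X (Pi.single (ly b) (E - cs (X (ly b) * S) E)) := fun E => by
      refine ⟨htr _ _ ?_, fun i => ?_, fun j => ?_⟩
      · rw [trace_sub, cs_apply, trace_mul_comm, mul_assoc, hS', mul_one, sub_self]
      · rw [Pi.single_eq_of_ne (lx_ne _ _), mul_zero, zero_mul]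
      · by_cases h : j = b
        · rw [h, Pi.single_eq_same, cs_apply, sub_mul, trace_sub, mul_assoc _ (E * _), mul_assoc E,
            hS', mul_one, trace_mul_comm, sub_self]
        · rw [Pi.single_eq_of_ne (ly_inj.ne h), zero_mul, trace_zero]
    refine (all (P := fun w E => (T X (ly b) w N * (E - cs (X (ly b) * S) E)).trace ∈
      maximalIdeal B ^ k) fun p q => hT _ _ (h1 _) k).mono fun w hw => ?_
    refine mem_smul_top fun p q => ?_
    have h2 := hw p q
    have h3 : (T X (ly b) w N * cs (X (ly b) * S) (single q p 1)).trace =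
        (cs (X (ly b) * S) (T X (ly b) w N) * single q p 1).trace := by
      rw [cs_apply, cs_apply, ← mul_assoc, ← mul_assoc, trace_mul_comm]
      simp only [mul_assoc]
    rw [mul_sub, trace_sub, h3, trace_mul_single, trace_mul_single] at h2
    simpa using h2
  -- the module generated by `N`
  set 𝒜 : Set (M2 B) := Set.range X ∪ Set.range fun i => S * X i * S with h𝒜
  have m1 : ∀ i, X i ∈ 𝒜 := fun i => Or.inl ⟨i, rfl⟩
  have m2 : ∀ i, S * X i * S ∈ 𝒜 := fun i => Or.inr ⟨i, rfl⟩
  have ex : ∀ a, S * X (lx a) * S = X (lx a) := fun a => by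
    rw [hI.x, mul_assoc, hI.sq, mul_one]
  have hu : ∀ A ∈ 𝒜, Uni A := by
    rintro _ (⟨i, rfl⟩ | ⟨i, rfl⟩)
    · exact hX i
    · rcases lxy i with ⟨a, rfl⟩ | ⟨a, rfl⟩
      · beta_reduce
        rw [ex]; exact hX _
      · beta_reduce
        rw [hI.y]; exact uni_adj (hX _)
  have hs : ∀ A ∈ 𝒜, S * A * S ∈ 𝒜 := by
    rintro _ (⟨i, rfl⟩ | ⟨i, rfl⟩)
    · exact m2 i
    · have : S * (S * X i * S) * S = X i := by
        calc _ = (S * S) * X i * (S * S) := by simp only [mul_assoc]
          _ = _ := by rw [hI.sq, one_mul, mul_one]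
      beta_reduce
      rw [this]; exact m1 i
  have cI : ∀ {W : Submodule B (M2 B)}, (∀ Z ∈ W, cs S Z ∈ W) → ∀ Z ∈ I 𝒜 W, cs S Z ∈ I 𝒜 W := by
    intro W hW Z hZ
    have : I 𝒜 W ≤ (I 𝒜 W).comap (cs S) := I_le fun A hA Z hZ => by
      rw [Submodule.mem_comap, cs_th hI.sq (hu A hA).1]
      exact mem_I (hW Z hZ) (hs A hA)
    exact this hZ
  have cN : cs S N = -N := by
    rw [cs_apply, ← mul_assoc, hSN, neg_mul, mul_assoc, hI.sq, mul_one]
  set W0 : Submodule B (M2 B) := sInf {W | N ∈ W ∧ I 𝒜 W ≤ W} with hW0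
  have hN : N ∈ W0 := Submodule.mem_sInf.2 fun W hW => hW.1
  have hI0 : I 𝒜 W0 ≤ W0 := le_sInf fun W hW => (I_mono (sInf_le hW)).trans hW.2
  have hle : W0 ≤ Submodule.span B {N} ⊔ I 𝒜 W0 := by
    refine sInf_le ⟨Submodule.mem_sup_left (Submodule.mem_span_singleton_self N), ?_⟩
    refine (I_mono (sup_le ?_ hI0)).trans le_sup_right
    exact (Submodule.span_singleton_le_iff_mem _ _).2 hN
  have c0 : ∀ Z ∈ W0, cs S Z ∈ W0 := by
    have : W0 ≤ W0.comap (cs S) := sInf_le ⟨by
      rw [Submodule.mem_comap, cN]; exact W0.neg_mem hN, I_le fun A hA Z hZ => by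
      rw [Submodule.mem_comap, cs_th hI.sq (hu A hA).1]
      exact hI0 (mem_I hZ (hs A hA))⟩
    exact fun Z hZ => this hZ
  set W2 := I 𝒜 (I 𝒜 W0) with hW2
  have c2 : ∀ Z ∈ W2, cs S Z ∈ W2 := cI (cI c0)
  have h21 : W2 ≤ I 𝒜 W0 := I_mono hI0
  have sx : ∀ a, cs S (th (X (lx a)) N) = -th (X (lx a)) N := fun a => by
    rw [cs_th hI.sq (hd _), ex, cN, map_neg]
  have sa : ∀ b, th (X (ly b)).adjugate (th (X (ly b)) N) ∈ W2 := fun b =>
    mem_I (mem_I hN (m1 _)) (hI.y b ▸ m2 _)
  have sy : ∀ b, cs S (th (X (ly b)) N) - th (X (ly b)) N ∈ W2 := fun b => by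
    rw [cs_th hI.sq (hd _), hI.y, cN, map_neg, th_adj (hd _)]
    convert sa b using 1
    abel
  obtain ⟨c, hc, hM⟩ := hU.two
  set κ := ZMod.castHom (dvd_refl 3) B with hκ
  have mg : ∀ j w, (∀ j, mA j w = 0) → T X j w N - (∑ a, κ (mC (lx a) j w) • th (X (lx a)) N +
      ∑ b, κ (mC (ly b) j w) • th (X (ly b)) N) ∈ W2 := fun j w hA => by
    have h2 := magnus X m1 W0 hI0 j w N hN
    rwa [hA, map_zero, zero_smul, zero_add, sum4] at h2
  have ky : ∀ b, th (X (ly b)) N ∈ W2 := by
    refine solve hc fun a => closed fun k => ?_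
    obtain ⟨w, ⟨hA, hC⟩, hw⟩ := ((hU.one.and hM).and (hx a k)).exists
    have h2 := mg (lx a) w hA
    have h3 : ∀ b, κ (mC (ly b) (lx a) w) = -κ (c a b) := fun b => by
      have := mC_sym (lx_ne a b) w
      rw [hA, zero_mul, hC] at this
      rw [← map_neg, eq_neg_of_add_eq_zero_right this]
    simp only [h3] at h2
    have h4 := W2.add_mem h2 (c2 _ h2)
    have h5 : ∑ b, κ (c a b) • (cs S (th (X (ly b)) N) - th (X (ly b)) N) ∈ W2 :=
      Submodule.sum_mem _ fun b _ => W2.smul_mem _ (sy b)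
    have h6 := Submodule.add_mem_sup (W2.sub_mem h4 h5) (Submodule.neg_mem _ hw)
    convert h6 using 1
    simp only [map_sub, map_add, map_sum, map_smul, sx, Fin.sum_univ_two, smul_sub, smul_add,
      neg_smul, smul_neg, map_neg]
    abel
  have kx : ∀ a, th (X (lx a)) N ∈ W2 := by
    refine solve (c := cᵀ) (by rwa [det_transpose]) fun b => closed fun k => ?_
    obtain ⟨w, ⟨hA, hC⟩, hw⟩ := ((hU.one.and hM).and (hy b k)).exists
    have h2 := mg (ly b) w hA
    simp only [hC] at h2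
    have h7 : T X (ly b) w N ∈ I 𝒜 W0 := by
      have := (I 𝒜 W0).add_mem (h21 h2) ((I 𝒜 W0).add_mem
        (Submodule.sum_mem _ fun a (_ : a ∈ Finset.univ) =>
          Submodule.smul_mem _ (κ (c a b)) (mem_I hN (m1 (lx a))))
        (Submodule.sum_mem _ fun a (_ : a ∈ Finset.univ) =>
          Submodule.smul_mem _ (κ (mC (ly a) (ly b) w)) (mem_I hN (m1 (ly a)))))
      rwa [sub_add_cancel] at this
    have h8 : cs (X (ly b) * S) (T X (ly b) w N) = cs S (T X (ly b) w N) +
        th (X (ly b)).adjugate (cs S (T X (ly b) w N)) := by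
      have h9 : (X (ly b)).adjugate.adjugate = X (ly b) :=
        adj_eq (by rw [det_adjugate, hd, one_pow]) (by rw [adjugate_mul, hd, one_smul])
      rw [← sg_eq, sg_apply, h9, ← hI.y, cs_apply, cs_apply]
      calc _ = X (ly b) * S * T X (ly b) w N * (S * S) * X (ly b) * S := by
            rw [hI.sq]; simp only [mul_assoc, one_mul, mul_one]
        _ = _ := by simp only [mul_assoc]
    have h9 : th (X (ly b)).adjugate (cs S (T X (ly b) w N)) ∈ W2 :=
      mem_I (cI c0 _ h7) (hI.y b ▸ m2 _)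
    rw [h8] at hw
    have h4 := W2.sub_mem h2 (c2 _ h2)
    have h5 : ∑ a, κ (mC (ly a) (ly b) w) • (cs S (th (X (ly a)) N) - th (X (ly a)) N) ∈ W2 :=
      Submodule.sum_mem _ fun a _ => W2.smul_mem _ (sy a)
    have h6 := Submodule.add_mem_sup (W2.add_mem (W2.sub_mem h5 h4) h9) hw
    convert h6 using 1
    simp only [map_sub, map_add, map_sum, map_smul, sx, Fin.sum_univ_two, smul_sub, smul_add,
      neg_smul, smul_neg, map_neg, transpose_apply]
    abel
  have key : ∀ A ∈ 𝒜, th A N ∈ W2 := by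
    rintro _ (⟨i, rfl⟩ | ⟨i, rfl⟩) <;> rcases lxy i with ⟨a, rfl⟩ | ⟨a, rfl⟩
    · exact kx a
    · exact ky a
    · beta_reduce
      rw [ex]; exact kx a
    · beta_reduce
      rw [hI.y, th_adj (hd _)]
      exact W2.sub_mem (W2.neg_mem (ky a)) (sa a)
  have h1 : I 𝒜 W0 ≤ W2 := by
    refine (I_mono hle).trans ((I_sup _ _).trans (sup_le ?_ le_rfl))
    refine I_le fun A hA Z hZ => ?_
    obtain ⟨c, rfl⟩ := Submodule.mem_span_singleton.1 hZ
    rw [map_smul]
    exact Submodule.smul_mem _ _ (key A hA)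
  have h5 : th (X i) N = 0 := nak hu h1 (mem_I hN (m1 i))
  rw [th_apply, sub_eq_zero] at h5
  calc X i * N = X i * ((X i).adjugate * (N * X i)) := by rw [h5]
    _ = N * X i := by rw [← mul_assoc, mul_adjugate, hd, one_smul, one_mul]

end Vale.Agent.P022K.L3.Al
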