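import Vale.Agent.P022K.L3.Blk
import Vale.Agent.P022K.L3.Defs
import Vale.Agent.P022D.Loc2.Uni

/-!
# P022K, block L3: the output of the block in the obstructed cases
-/

set_option linter.all false

noncomputable section

namespace Vale.Agent.P022K.L3.Al

open Filter IsLocalRing MvPowerSeries
open Vale.Agent.P022D
open Vale.Agent.P022D.L2b (Z1 Lift decomp)
open Vale.Agent.P022D.Loc2 (TnG coG OutG cj cj_one red_zero mem_max_of_red)
open Vale.Agent.P022D.L2.Pt (lmap)
open Sg

theorem mA_eq (j : Fin 4) (w : Wd) : L3.mA j w = mA j w := by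
  induction w with
  | nil => exact (mA_nil j).symm
  | cons i w ih =>
    rw [mA_cons, ← ih]
    simp only [L3.mA, fx, one_mul]

theorem mC_eq (i j : Fin 4) (w : Wd) : L3.mC i j w = mC i j w := by
  induction w with
  | nil => rfl
  | cons k w ih => rw [L3.mC, mC, ih, mA_eq]

variable {G : Type} [Group G] [TopologicalSpace G] {H : Subgroup G}

theorem pre_of (h : Pres H) (b : G →* ℤˣ) : Pre H b := by
  obtain ⟨δ, g, U, h1, h2, h3, ⟨r1, ⟨c, hc, r2⟩, r3⟩, h5⟩ := h
  refine ⟨δ, g, U, h1, h2, fun i => ?_, ⟨r1.mono fun w hw j => mA_eq j w ▸ hw j,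
    ⟨c, hc, r2.mono fun w hw i j => mC_eq _ _ w ▸ hw i j⟩, r3⟩, fun M _ ρ hρ => ?_⟩
  · obtain ⟨x, hx⟩ := h3 i
    rw [hx, map_mul, Int.units_mul_self]
  · obtain ⟨a1, a2, a3, a4, a5, a6⟩ := h5 M ρ hρ
    refine ⟨a1, a2, a3, a4, fun x => ?_⟩
    by_cases hx : x ∈ H
    · exact (a5 x hx).imp fun w hw => Or.inl hw
    · exact (a6 x hx).imp fun w hw => Or.inr hw

/-- twist by a sign -/
def tw (b : G →* ℤˣ) {M : Type} [Ring M] (ρ : G →* M) : G →* M where
  toFun x := b x • ρ x
  map_one' := by rw [map_one, map_one, one_smul]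
  map_mul' x y := by rw [map_mul, map_mul, smul_mul_smul_comm]

theorem tw_open {b : G →* ℤˣ} (hb : IsLocallyConstant b) {M : Type} [Ring M] {ρ : G →* M}
    (hρ : IsLocallyConstant ρ) : IsOpen {x | tw b ρ x = 1} :=
  (hb.prodMk hρ).comp (fun z : ℤˣ × M => z.1 • z.2) {1}

theorem holds_tw {b : G →* ℤˣ} {δ : G} {g : Fin 4 → G} {U : Ultrafilter Wd}
    (hg : ∀ i, b (g i) = 1) (h : Holds H δ g U) {M : Type} [Ring M] {ρ : G →* M}
    (hρ : Thr H (tw b ρ)) :
    ρ δ * ρ δ = 1 ∧ (∀ i, ρ δ * ρ (g (lx i)) = ρ (g (lx i)) * ρ δ) ∧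
    (∀ j, ρ (δ * g (ly j)) * ρ (δ * g (ly j)) = 1) ∧
    (∀ᶠ w in (U : Filter Wd), ev (fun i => ρ (g i)) w = 1) ∧
    ∀ x, ∃ (w : Wd) (e : ℤˣ), ρ x = e • ev (fun i => ρ (g i)) w ∨
      ρ x = e • (ρ δ * ev (fun i => ρ (g i)) w) := by
  obtain ⟨a1, a2, a3, a4, a5⟩ := h M _ hρ
  have e1 : ∀ i, tw b ρ (g i) = ρ (g i) := fun i => by
    show b (g i) • ρ (g i) = _
    rw [hg, one_smul]
  have e2 : tw b ρ δ = b δ • ρ δ := rfl
  simp only [e1, e2, smul_mul_assoc, mul_smul_comm, smul_smul, Int.units_mul_self, one_smul]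
    at a1 a2 a3 a4 a5
  refine ⟨a1, fun i => MulAction.injective (b δ) (a2 i), fun j => ?_, a4, fun x => ?_⟩
  · rw [map_mul, ← mul_assoc]
    exact a3 j
  · obtain ⟨w, hw | hw⟩ := a5 x
    · refine ⟨w, b x, Or.inl ?_⟩
      rw [← hw]
      show _ = b x • b x • ρ x
      rw [smul_smul, Int.units_mul_self, one_smul]
    · refine ⟨w, b x * b δ, Or.inr ?_⟩
      rw [mul_smul, ← hw]
      show _ = b x • b x • ρ x
      rw [smul_smul, Int.units_mul_self, one_smul]

theorem ev_mem {O A : Type} [CommRing O] [CommRing A] [Algebra O A] (S : Subalgebra O A)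
    (X : Fin 4 → M2 A) (hX : ∀ i p q, X i p q ∈ S) (w : Wd) : ∀ p q, ev X w p q ∈ S := by
  induction w with
  | nil =>
    intro p q
    change (1 : M2 A) p q ∈ S
    rw [Matrix.one_apply]
    split_ifs
    · exact one_mem _
    · exact zero_mem _
  | cons i w ih =>
    intro p q
    rw [ev_cons, Matrix.mul_apply]
    exact sum_mem fun a _ => mul_mem (hX _ _ _) (ih _ _)

section cube

variable {A : Type} [CommRing A] (m : Ideal A) (h3 : (3 : A) ∈ m)

include h3

theorem cb_step (j : ℕ) (N : M2 A) (h : ∀ p q, (N - 1) p q ∈ m ^ (j + 1)) :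
    ∀ p q, (N ^ 3 - 1 : M2 A) p q ∈ m ^ (j + 2) := by
  intro p q
  have e : N ^ 3 - 1 = (N - 1) * ((N - 1) * (N - 1)) + (3 : A) • (N * (N - 1)) := by
    rw [show (3 : A) = 1 + 1 + 1 by norm_num, add_smul, add_smul, one_smul]
    noncomm_ring
  have h1 : ∀ p q, (N - 1) p q ∈ m := fun p q => Ideal.pow_le_self (Nat.succ_ne_zero j) (h p q)
  have h2 : ∀ (N' : M2 A) p q, (N' * (N - 1)) p q ∈ m ^ (j + 1) := fun N' p q => by
    rw [Matrix.mul_apply]
    exact Ideal.sum_mem _ fun i _ => Ideal.mul_mem_left _ _ (h _ _)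
  rw [e, Matrix.add_apply, Matrix.mul_apply, Matrix.smul_apply, smul_eq_mul, pow_succ' m (j + 1)]
  exact Ideal.add_mem _ (Ideal.sum_mem _ fun i _ => Ideal.mul_mem_mul (h1 _ _) (h2 _ _ _))
    (Ideal.mul_mem_mul h3 (h2 _ _ _))

theorem cb_first (N : M2 A) (a : N 0 0 - 1 ∈ m) (b : N 1 0 ∈ m) (c : N 1 1 - 1 ∈ m) :
    ∀ p q, (N ^ 3 - 1 : M2 A) p q ∈ m := by
  intro p q
  rw [← Ideal.Quotient.eq_zero_iff_mem] at a b c h3 ⊢
  rw [map_sub, map_one, sub_eq_zero] at a c
  rw [map_ofNat] at h3
  have hp : ∀ p : Fin 2, p = 0 ∨ p = 1 := by decide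
  rcases hp p with rfl | rfl <;> rcases hp q with rfl | rfl <;>
    simp only [pow_three, Matrix.sub_apply, mul2, map_sub, map_add, map_mul, a, b, c,
      Matrix.one_apply_eq, Matrix.one_apply_ne (show (0 : Fin 2) ≠ 1 by decide),
      Matrix.one_apply_ne (show (1 : Fin 2) ≠ 0 by decide), map_one, map_zero]
  · ring
  · linear_combination Ideal.Quotient.mk m (N 0 1) * h3
  · ring
  · ring

theorem cb_pw (N : M2 A) (a : N 0 0 - 1 ∈ m) (b : N 1 0 ∈ m) (c : N 1 1 - 1 ∈ m) (j : ℕ) :
    ∀ p q, (N ^ 3 ^ (j + 1) - 1 : M2 A) p q ∈ m ^ (j + 1) := by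
  induction j with
  | zero => simpa using cb_first m h3 N a b c
  | succ j ih =>
    rw [pow_succ 3 (j + 1), pow_mul]
    exact cb_step m h3 j _ ih

end cube

theorem tr_of {A : Type} [CommRing A] {S : M2 A} (h : S * S = 1) (hs : IsUnit (S 0 0 - S 1 1)) :
    S.trace = 0 := by
  have a := ent h 0 0
  have b := ent h 1 1
  rw [mul2, Matrix.one_apply_eq] at a b
  rw [Matrix.trace_fin_two]
  exact hs.mul_left_cancel (by linear_combination a - b)

variable {F : Type} [Field F] [CharP F 3]

/-- the coordinates: the involution and the letters -/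
def gn (δ : G) (g : Fin 4 → G) (o : Lt) : G := o.elim δ g

theorem tn3 {b : G →* ℤˣ} (hb : IsLocallyConstant b) {δ : G} {g : Fin 4 → G}
    {U : Ultrafilter Wd} (hg : ∀ i, b (g i) = 1) (hH : Holds H δ g U) (r : G →* M2 F)
    (hr : IsLocallyConstant r) (h2 : ∀ x ∈ H, (b x • r x) ^ 3 = 1) :
    TnG r (fun t : T5 => gn δ g t.1) (fun t => t.2.1) (fun t => t.2.2) := by
  intro c hc h0 x
  have h1 : c 1 = 0 := by
    have h3 := hc.mul 1 1
    rw [mul_one, map_one, mul_one, one_mul] at h3
    exact left_eq_add.1 h3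
  let ρ : G →* TrivSqZeroExt (M2 F) (M2 F) :=
    { toFun := fun x => (r x, c x)
      map_one' := by rw [map_one, h1]; rfl
      map_mul' := fun x y => by
        refine TrivSqZeroExt.ext (map_mul r x y) ?_
        change c (x * y) = r x * c y + c x * r y
        rw [hc.mul, add_comm] }
  have hT : Thr H (tw b ρ) := by
    refine ⟨tw_open hb (hr.prodMk hc.lc), fun x hx => ⟨2, ?_⟩⟩
    have h3 : (tw b ρ x ^ 3).fst = 1 := by
      rw [TrivSqZeroExt.fst_pow]
      exact h2 x hx
    rw [pow_two, pow_mul]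
    generalize tw b ρ x ^ 3 = y at h3
    refine TrivSqZeroExt.ext ?_ ?_
    · rw [TrivSqZeroExt.fst_pow, h3, one_pow]
      rfl
    · simp only [pow_three, TrivSqZeroExt.snd_mul, TrivSqZeroExt.fst_mul, h3, mul_one,
        MulOpposite.op_one, one_smul, TrivSqZeroExt.snd_one]
      ext i j
      simp only [Matrix.add_apply, Matrix.zero_apply]
      linear_combination y.snd i j * three (B := F)
  obtain ⟨w, e, hw⟩ := (holds_tw hg hH hT).2.2.2.2 x
  have h5 : ∀ o, (ρ (gn δ g o)).snd = 0 := fun o => by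
    ext p q
    exact h0 (o, p, q)
  have h4 : ∀ w : Wd, (ev (fun i => ρ (g i)) w).snd = 0 := by
    intro w
    induction w with
    | nil => rfl
    | cons i w ih =>
      rw [ev_cons, TrivSqZeroExt.snd_mul, ih, show (ρ (g i)).snd = 0 from h5 (some i), smul_zero,
        smul_zero, add_zero]
  have h6 : ∀ (e : ℤˣ) (y : TrivSqZeroExt (M2 F) (M2 F)), y.snd = 0 →
      (@HSMul.hSMul ℤˣ _ _ (@instHSMul _ _ Units.instSMul) e y).snd = 0 := by
    intro e y hy
    rcases Int.units_eq_one_or e with rfl | rfl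
    · rwa [one_smul]
    · rw [Units.neg_smul, one_smul, TrivSqZeroExt.snd_neg, hy, neg_zero]
  rcases hw with hw | hw
  · exact (congrArg TrivSqZeroExt.snd hw).trans (h6 _ _ (h4 w))
  · refine (congrArg TrivSqZeroExt.snd hw).trans (h6 _ _ ?_)
    rw [TrivSqZeroExt.snd_mul, h4, show (ρ δ).snd = 0 from h5 none,
      smul_zero, smul_zero, add_zero]

variable {O : Type} [CommRing O] [IsLocalRing O] [Algebra O F]

theorem outPQ [Finite F] [IsNoetherianRing O] [IsAdicComplete (maximalIdeal O) O]
    {b : G →* ℤˣ} (hb : IsLocallyConstant b) (hP : Pre H b) (r : G →* M2 F)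
    (s : F → O) (d : G → O) (hr : IsLocallyConstant r) (hs : ∀ x, algebraMap O F (s x) = x)
    (hd : ∀ x, algebraMap O F (d x) = (r x).det) (P Q : M2 O) (hPQ : P * Q = 1)
    (hu : ∀ x ∈ H, ∃ n, b x • (Q.map (algebraMap O F) * r x * P.map (algebraMap O F)) =
      !![1, n; 0, 1])
    (hv : ∀ x ∉ H, (r x).det = -1 ∧ (Q.map (algebraMap O F) * r x * P.map (algebraMap O F)) 0 0 ≠
      (Q.map (algebraMap O F) * r x * P.map (algebraMap O F)) 1 1) :
    OutG r s d 6 := by
  obtain ⟨δ, g, U, hδ, hg, hbg, hU, hH⟩ := hP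
  have hfin : Finite (ResidueField O) := by
    refine Finite.of_surjective (fun a : F => residue O (s a)) fun y => ?_
    obtain ⟨b, rfl⟩ := residue_surjective y
    refine ⟨algebraMap O F b, Ideal.Quotient.eq.2 (mem_max_of_red (algebraMap O F) ?_)⟩
    rw [map_sub, hs, sub_self]
  have hPQ' : P.map (algebraMap O F) * Q.map (algebraMap O F) = 1 := by
    rw [← Matrix.map_mul, hPQ, Matrix.map_one _ (map_zero _) (map_one _)]
  let B : Lt → M2 O := fun o => (r (gn δ g o)).map s
  have hB : (fun o => (B o).map (algebraMap O F)) = fun o => r (gn δ g o) := by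
    funext i
    ext p q
    exact hs _
  obtain ⟨Z, hZ⟩ := exists_isZ U P Q B
  have hZ' := hZ.map (algebraMap O F) (fun x hx => by rw [red_zero hs hx]; exact zero_mem _)
  rw [hB] at hZ'
  have he : (fun i => MvPowerSeries.map (algebraMap O F)
      (eqs (cu P Q B) (fun o => C (d (gn δ g o))) Z i)) =
      eqs (cu (P.map (algebraMap O F)) (Q.map (algebraMap O F)) fun o => r (gn δ g o))
        (fun o => C (r (gn δ g o)).det) (Z.map (MvPowerSeries.map (algebraMap O F))) := by
    funext i
    rw [map_eqs]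
    simp only [map_cu, hB, map_C, hd]
  have hu' : ∀ i, ∃ n, Q.map (algebraMap O F) * r (g i) * P.map (algebraMap O F) =
      !![1, n; 0, 1] := fun i => (hu _ (hg i)).imp fun n hn => by rwa [hbg, one_smul] at hn
  have key : ∀ (A : Type) [CommRing A] [Algebra O A] [Finite A] (ρ : G →* M2 A), Lift r s d ρ →
      (∀ x i j, ρ x i j ∈ Algebra.adjoin O (Set.range
        (coG r s (fun t : T5 => gn δ g t.1) (fun t => t.2.1) (fun t => t.2.2) ρ))) ∧
      ∀ φ : MvPowerSeries T5 O →ₐ[O] A, (∀ t, φ (X t) =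
        coG r s (fun t : T5 => gn δ g t.1) (fun t => t.2.1) (fun t => t.2.2) ρ t) →
        ∀ i, φ (eqs (cu P Q B) (fun o => C (d (gn δ g o))) Z i) = 0 := by
    intro A _ _ _ ρ hρ
    have hPQA : P.map (algebraMap O A) * Q.map (algebraMap O A) = 1 := by
      rw [← Matrix.map_mul, hPQ, Matrix.map_one _ (map_zero _) (map_one _)]
    obtain ⟨N, hN⟩ : IsNilpotent (nilradical A) := IsNoetherianRing.isNilpotent_nilradical A
    have hm : ∀ a : O, algebraMap O F a = 0 → algebraMap O A a ∈ nilradical A := fun a ha =>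
      hρ.nil a (mem_max_of_red (algebraMap O F) ha)
    have h3 : (3 : A) ∈ nilradical A := by
      have h3 := hm 3 (by rw [map_ofNat]; exact three)
      rwa [map_ofNat] at h3
    have hc : ∀ x p q (a : O), algebraMap O F a =
        (Q.map (algebraMap O F) * r x * P.map (algebraMap O F)) p q →
        cj _ _ hPQA (ρ x) p q - algebraMap O A a ∈ nilradical A := by
      intro x p q a ha
      have h4 : ((r x).map s).map (algebraMap O F) = r x := by
        ext a b
        exact hs _
      rw [← h4, ← Matrix.map_mul, ← Matrix.map_mul, Matrix.map_apply] at ha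
      have h6 : cj _ _ hPQA (ρ x) p q - algebraMap O A a =
          ∑ a, ∑ b, algebraMap O A (Q p a * P b q) * (ρ x a b - algebraMap O A (s (r x a b))) +
          algebraMap O A ((Q * (r x).map s * P) p q - a) := by
        change (_ * ρ x * _ : M2 A) p q - _ = _
        simp only [Matrix.mul_apply, Fin.sum_univ_two, Matrix.map_apply, map_add, map_mul,
          map_sub]
        ring
      rw [h6]
      exact add_mem (sum_mem fun a _ => sum_mem fun b _ =>
        Ideal.mul_mem_left _ _ (hρ.red x a b)) (hm _ (by rw [map_sub, ha, sub_self]))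
    have hT : Thr H (tw b ρ) := by
      refine ⟨tw_open hb hρ.lc, fun x hx => ⟨N + 1, cj_one hPQA ?_⟩⟩
      rw [map_pow]
      obtain ⟨n, hn⟩ := hu x hx
      have h5 : ∀ p q (a : O), algebraMap O F a = (!![1, n; 0, 1] : M2 F) p q →
          cj _ _ hPQA (tw b ρ x) p q - algebraMap O A a ∈ nilradical A := by
        intro p q a ha
        rw [← hn] at ha
        change (_ * (b x • ρ x) * _ : M2 A) p q - _ ∈ _
        rcases Int.units_eq_one_or (b x) with e | e <;> rw [e] at ha ⊢
        · rw [one_smul] at ha ⊢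
          exact hc x p q a ha
        · rw [Units.neg_smul, one_smul] at ha ⊢
          have := neg_mem (hc x p q (-a) (by rw [map_neg, ha, Matrix.neg_apply, neg_neg]))
          rw [mul_neg, neg_mul, Matrix.neg_apply]
          convert this using 1
          rw [map_neg]
          change _ = -((_ * ρ x * _ : M2 A) p q - _)
          ring
      have h4 := cb_pw (nilradical A) h3 (cj _ _ hPQA (tw b ρ x))
        (by simpa using h5 0 0 1 (by simp)) (by simpa using h5 1 0 0 (by simp))
        (by simpa using h5 1 1 1 (by simp)) N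
      rw [pow_succ (nilradical A), hN, zero_mul] at h4
      rw [← sub_eq_zero]
      ext p q
      exact h4 p q
    obtain ⟨a1, a2, a3, hev, hgen⟩ := holds_tw hbg hH hT
    constructor
    · have h5 : ∀ o p q, ρ (gn δ g o) p q ∈ Algebra.adjoin O (Set.range
          (coG r s (fun t : T5 => gn δ g t.1) (fun t => t.2.1) (fun t => t.2.2) ρ)) := by
        intro o p q
        have h3 := add_mem (Algebra.subset_adjoin (R := O) (Set.mem_range_self
          (f := coG r s (fun t : T5 => gn δ g t.1) (fun t => t.2.1) (fun t => t.2.2) ρ) (o, p, q)))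
          (Subalgebra.algebraMap_mem _ (s (r (gn δ g o) p q)))
        rwa [coG, sub_add_cancel] at h3
      intro x p q
      obtain ⟨w, e, hw⟩ := hgen x
      have h6 := ev_mem _ _ (fun i => h5 (some i)) w
      rcases hw with hw | hw <;> rw [hw, Matrix.smul_apply, Units.smul_def]
      · exact zsmul_mem (h6 p q) _
      · rw [mul2]
        exact zsmul_mem (add_mem (mul_mem (h5 none _ _) (h6 _ _))
          (mul_mem (h5 none _ _) (h6 _ _))) _
    · intro φ hφ
      have hC : ∀ a : O, φ (C a) = algebraMap O A a := fun a => φ.commutes a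
      have hφm : ∀ x ∈ maximalIdeal (MvPowerSeries T5 O), φ.toRingHom x ∈ nilradical A := by
        intro x hx
        obtain ⟨y, hy⟩ := decomp x
        change φ x ∈ _
        rw [hy, map_add, map_sum, hC]
        refine add_mem (hρ.nil _ ((CA.Cpl.mem_max_iff x).1 hx)) (sum_mem fun t _ => ?_)
        rw [map_mul, hφ]
        exact Ideal.mul_mem_right _ _ (hρ.red _ _ _)
      have hun : ∀ i, (uni B i).map φ.toRingHom = ρ (gn δ g i) := by
        intro i
        ext p q
        change φ (C _ + X (i, p, q)) = _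
        rw [map_add, hC, hφ]
        exact add_sub_cancel _ _
      have hcu : ∀ i, (cu P Q B i).map φ.toRingHom = cj _ _ hPQA (ρ (gn δ g i)) := by
        intro i
        have h3 : ∀ M : M2 O, (M.map (C (σ := T5))).map φ.toRingHom = M.map (algebraMap O A) :=
          fun M => by
            ext p q
            exact hC _
        rw [cu, Matrix.map_mul, Matrix.map_mul, hun, h3, h3]
        rfl
      have hZ1 : Z.map φ.toRingHom = 1 := by
        ext p q
        obtain ⟨w, hw1, hw2⟩ := ((lmap hφm (hZ p q) N).and hev).exists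
        rw [hN] at hw1
        have h3 := ent (ev_map φ.toRingHom (fun i => cu P Q B (some i)) w) p q
        simp only [hcu] at h3
        rw [← ev_hom, show ev (fun i => ρ (gn δ g (some i))) w = 1 from hw2, map_one,
          Matrix.map_apply] at h3
        rw [← h3]
        exact (sub_eq_zero.1 hw1).symm
      have hun : ∀ x ∉ H, IsUnit (cj _ _ hPQA (ρ x) 0 0 - cj _ _ hPQA (ρ x) 1 1) := by
        intro x hx
        have h4 := sub_mem (hc x 0 0 _ (hs _)) (hc x 1 1 _ (hs _))
        have h5 : IsUnit (s ((Q.map (algebraMap O F) * r x * P.map (algebraMap O F)) 0 0) -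
            s ((Q.map (algebraMap O F) * r x * P.map (algebraMap O F)) 1 1)) := by
          by_contra c
          have := red_zero hs ((mem_maximalIdeal _).2 c)
          rw [map_sub, hs, hs, sub_eq_zero] at this
          exact (hv x hx).2 this
        convert (mem_nilradical.1 h4).isUnit_add_right_of_commute (h5.map (algebraMap O A))
          (Commute.all _ _) using 1
        rw [map_sub]
        ring
      have hy : ∀ j, (cj _ _ hPQA (ρ δ) * cj _ _ hPQA (ρ (g (ly j)))).trace = 0 := fun j => by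
        rw [← map_mul, ← map_mul]
        refine tr_of (by rw [← map_mul, a3, map_one]) (hun _ fun h => hδ ?_)
        simpa using H.mul_mem h (H.inv_mem (hg (ly j)))
      have hx : ∀ i a, od (cj _ _ hPQA (ρ (g (lx i))) * cj _ _ hPQA (ρ δ) -
          cj _ _ hPQA (ρ δ) * cj _ _ hPQA (ρ (g (lx i)))) a = 0 := fun i a => by
        rw [← map_mul (cj _ _ hPQA), ← map_mul (cj _ _ hPQA), a2, sub_self]
        fin_cases a <;> rfl
      intro i
      change φ.toRingHom _ = 0
      rw [map_eqs, hZ1]
      simp only [hcu]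
      rcases i with o | k | ⟨k, a⟩
      · change (_ * ρ _ * _ : M2 A).det - φ _ = 0
        rw [Matrix.det_mul, Matrix.det_mul, mul_right_comm, ← Matrix.det_mul,
          mul_eq_one_comm.1 hPQA, Matrix.det_one, one_mul, hρ.det, hC, sub_self]
      · fin_cases k
        · change (cj _ _ hPQA (ρ δ) * 1).trace = 0
          rw [mul_one]
          exact tr_of (by rw [← map_mul, a1, map_one]) (hun _ hδ)
        · exact hy 0
        · exact hy 1
      · fin_cases k
        · exact hx 0 a
        · exact hx 1 a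
        · change od (1 * _ - _ * 1) a = 0
          rw [one_mul, mul_one, sub_self]
          fin_cases a <;> rfl
  refine ⟨T5, Eq3, inferInstance, inferInstance, fun t => gn δ g t.1, fun t => t.2.1,
    fun t => t.2.2, eqs (cu P Q B) (fun o => C (d (gn δ g o))) Z, by simp, fun i => ?_,
    he ▸ blk hU hPQ' (hv δ hδ).1 (fun i => ?_) (hv δ hδ).2 hu' hZ',
    tn3 hb hbg hH r hr fun x hx => ?_, key⟩
  · rw [CA.Cpl.mem_max_iff]
    refine mem_max_of_red (algebraMap O F) ?_
    let φ : MvPowerSeries T5 O →ₐ[O] F :=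
      { (algebraMap O F).comp (constantCoeff (σ := T5) (R := O)) with
        commutes' := fun a => congrArg (algebraMap O F) (constantCoeff_C a) }
    exact (key F r ⟨hr, fun a ha => by rw [red_zero hs ha]; exact IsNilpotent.zero,
      fun x i j => by rw [hs, sub_self]; exact IsNilpotent.zero, fun x => (hd x).symm⟩).2 φ
      (fun t => by
        change algebraMap O F (constantCoeff (X t)) = _
        rw [constantCoeff_X, map_zero, coG, hs, sub_self]) i
  · obtain ⟨n, hn⟩ := hu' i
    have := congrArg Matrix.det hn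
    rw [Matrix.det_mul, Matrix.det_mul, mul_right_comm, ← Matrix.det_mul,
      mul_eq_one_comm.1 hPQ', Matrix.det_one, one_mul] at this
    exact this.trans (by simp)
  · obtain ⟨n, hn⟩ := hu x hx
    refine cj_one hPQ' ?_
    rw [map_pow]
    change (_ * (b x • r x) * _) ^ 3 = 1
    rw [mul_smul_comm, smul_mul_assoc, hn]
    refine ext2 ?_ ?_ ?_ ?_ <;> simp [pow_three]
    linear_combination n * three (B := F)

/-- **the obstructed cases** -/
theorem out3 [Finite F] [IsNoetherianRing O] [IsAdicComplete (maximalIdeal O) O] (hP : Pres H)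
    {b : G →* ℤˣ} (hb : IsLocallyConstant b) (r : G →* M2 F)
    (s : F → O) (d : G → O) (hr : IsLocallyConstant r) (hs : ∀ x, algebraMap O F (s x) = x)
    (hd : ∀ x, algebraMap O F (d x) = (r x).det) (P Q : M2 F) (hPQ : P * Q = 1)
    (hu : ∀ x ∈ H, ∃ n, b x • (Q * r x * P) = !![1, n; 0, 1])
    (hv : ∀ x ∉ H, (r x).det = -1 ∧ (Q * r x * P) 0 0 ≠ (Q * r x * P) 1 1) : OutG r s d 6 := by
  have e1 : (P.map s).map (algebraMap O F) = P := by
    ext p q
    exact hs _
  have h1 : IsUnit (P.map s).det := by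
    by_contra c
    have := red_zero hs ((mem_maximalIdeal _).2 c)
    rw [RingHom.map_det, RingHom.mapMatrix_apply, e1] at this
    have h2 := congrArg Matrix.det hPQ
    rw [Matrix.det_mul, this, zero_mul, Matrix.det_one] at h2
    exact zero_ne_one h2
  have h2 := Matrix.mul_nonsing_inv _ h1
  have e2 : ((P.map s)⁻¹).map (algebraMap O F) = Q := by
    have h3 : P * ((P.map s)⁻¹).map (algebraMap O F) = 1 := by
      conv_lhs => rw [← e1]
      rw [← Matrix.map_mul, e1, h2, Matrix.map_one _ (map_zero _) (map_one _)]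
    rw [← one_mul (Matrix.map _ _), ← mul_eq_one_comm.1 hPQ, mul_assoc, h3, mul_one]
  exact outPQ hb (pre_of hP b) r s d hr hs hd _ _ h2 (by rwa [e1, e2]) (by rwa [e1, e2])

end Vale.Agent.P022K.L3.Al
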