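import Vale.Agent.P022K.L3.Wd

/-!
# P022K, block L3: the singular points depend on four parameters
-/

set_option linter.all false

noncomputable section

namespace Vale.Agent.P022K.L3.Al

open Filter IsLocalRing Matrix
open Vale.Agent.P022D.L2 (Lim Uni)
open Vale.Agent.P022D.L2.Pt (lconst ladd lmul lsub lcongr luniq)

namespace Sg

section ring

variable {B : Type} [CommRing B]

theorem ent {A A' : M2 B} (h : A = A') (p q : Fin 2) : A p q = A' p q := by rw [h]

theorem ext2 {A A' : M2 B} (h0 : A 0 0 = A' 0 0) (h1 : A 0 1 = A' 0 1) (h2 : A 1 0 = A' 1 0)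
    (h3 : A 1 1 = A' 1 1) : A = A' := by
  ext p q
  fin_cases p <;> fin_cases q <;> assumption

theorem mul2 (A A' : M2 B) (p q : Fin 2) : (A * A') p q = A p 0 * A' 0 q + A p 1 * A' 1 q := by
  rw [mul_apply, Fin.sum_univ_two]

theorem three [CharP B 3] : (3 : B) = 0 := by exact_mod_cast CharP.cast_eq_zero B 3

theorem tr_zero [CharP B 3] {S N : M2 B} (hS : S * S = 1) (hSN : S * N = -(N * S)) :
    N.trace = 0 := by
  have h1 : N.trace = (S * (S * N)).trace := by rw [← mul_assoc, hS, one_mul]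
  rw [hSN, mul_neg, trace_neg, trace_mul_comm, mul_assoc, hS, mul_one] at h1
  linear_combination -h1 + N.trace * three (B := B)

theorem anti {A S : M2 B} (hA : A.trace = 0) (hS : S.trace = 0) :
    A * S + S * A = (A * S).trace • (1 : M2 B) := by
  rw [trace_fin_two] at hA hS
  have t1 : S 1 1 = -S 0 0 := by linear_combination hS
  have t2 : A 1 1 = -A 0 0 := by linear_combination hA
  refine ext2 ?_ ?_ ?_ ?_ <;> simp [trace_fin_two, mul2, t1, t2] <;> ring

/-- a matrix which commutes with `S` and `N` is scalar -/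
theorem scal [IsDomain B] [CharP B 3] {S N A : M2 B} (hS : S * S = 1) (ht : S.trace = 0)
    (hN : N ≠ 0) (hSN : S * N = -(N * S)) (h1 : S * A = A * S) (h2 : A * N = N * A) :
    A = A 0 0 • (1 : M2 B) := by
  have h3 := three (B := B)
  obtain ⟨c, hc⟩ : ∃ c : B, A + A.trace • (1 : M2 B) = c • S := by
    have a0 : (A + A.trace • (1 : M2 B)).trace = 0 := by
      rw [trace_add, trace_smul, trace_one]
      simp
      linear_combination A.trace * h3
    have a1 := anti a0 ht
    have a2 : S * (A + A.trace • (1 : M2 B)) = (A + A.trace • (1 : M2 B)) * S := by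
      rw [mul_add, add_mul, h1, mul_smul_comm, smul_mul_assoc, one_mul, mul_one]
    generalize A + A.trace • (1 : M2 B) = A0 at *
    have a3 := congrArg (· * S) a1
    simp only [a2, add_mul, mul_assoc, hS, mul_one, smul_mul_assoc, one_mul] at a3
    refine ⟨-(A0 * S).trace, ?_⟩
    rw [neg_smul, ← a3]
    ext p q
    simp only [Matrix.neg_apply, Matrix.add_apply]
    linear_combination A0 p q * h3
  have h4 : c • (S * N) = c • (N * S) := by
    rw [← smul_mul_assoc, ← mul_smul_comm, ← hc, add_mul, mul_add, h2, smul_mul_assoc,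
      mul_smul_comm, one_mul, mul_one]
  have h5 : c • N = 0 := by
    have h6 := congrArg (· * S) h4
    simp only [hSN, smul_mul_assoc, neg_mul, mul_assoc, hS, mul_one] at h6
    ext p q
    have h7 := ent h6 p q
    simp only [Matrix.smul_apply, Matrix.neg_apply, smul_eq_mul, Matrix.zero_apply] at h7 ⊢
    linear_combination h7 + c * N p q * h3
  rw [(smul_eq_zero.1 h5).resolve_right hN, zero_smul] at hc
  have h6 : A = (-A.trace) • (1 : M2 B) := by rw [neg_smul]; exact eq_neg_of_add_eq_zero_left hc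
  have h7 := ent h6 0 0
  rw [Matrix.smul_apply, one_apply_eq, smul_eq_mul, mul_one] at h7
  rwa [h7]

theorem eq_one [IsDomain B] [IsLocalRing B] [CharP B 3] {A : M2 B} (h : A = A 0 0 • (1 : M2 B))
    (hd : A.det = 1) (h0 : A 0 0 - 1 ∈ maximalIdeal B) : A = 1 := by
  generalize A 0 0 = a at h h0
  have h1 : (a - 1) * (a + 1) = 0 := by
    rw [h, det_smul, det_one, Fintype.card_fin] at hd
    linear_combination hd
  rcases mul_eq_zero.1 h1 with e | e
  · rw [h, sub_eq_zero.1 e, one_smul]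
  · have : a - 1 = 1 := by linear_combination e - three (B := B)
    rw [this] at h0
    exact absurd ((Ideal.eq_top_iff_one _).2 h0) (maximalIdeal.isMaximal B).ne_top

/-- the class of a matrix modulo the scalars -/
def vc (A : M2 B) : Fin 3 → B := ![A 0 0 - A 1 1, A 0 1, A 1 0]

theorem comm_iff {A N : M2 B} : A * N = N * A ↔ ∀ i j, vc A i * vc N j = vc A j * vc N i := by
  constructor
  · intro h i j
    have a1 := ent h 0 0
    have a2 := ent h 0 1
    have a3 := ent h 1 0
    simp only [mul2] at a1 a2 a3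
    fin_cases i <;> fin_cases j <;> simp [vc]
    · linear_combination a2
    · linear_combination -a3
    · linear_combination -a2
    · linear_combination a1
    · linear_combination a3
    · linear_combination -a1
  · intro h
    have f1 := h 1 2
    have f2 := h 0 1
    have f3 := h 0 2
    simp [vc] at f1 f2 f3
    refine ext2 ?_ ?_ ?_ ?_ <;> simp only [mul2]
    · linear_combination f1
    · linear_combination f2
    · linear_combination -f3
    · linear_combination -f1

theorem comm [IsDomain B] [CharP B 3] {N A A' : M2 B} (hN : N ≠ 0) (ht : N.trace = 0)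
    (h : A * N = N * A) (h' : A' * N = N * A') : A * A' = A' * A := by
  obtain ⟨k, hk⟩ : ∃ k, vc N k ≠ 0 := by
    by_contra c
    push Not at c
    have c0 : N 0 0 - N 1 1 = 0 := c 0
    rw [trace_fin_two] at ht
    refine hN (ext2 ?_ (c 1) (c 2) ?_)
    · show N 0 0 = 0
      linear_combination -c0 - ht + N 0 0 * three (B := B)
    · show N 1 1 = 0
      linear_combination c0 - ht + N 1 1 * three (B := B)
  rw [comm_iff] at h h' ⊢
  refine fun i j => mul_left_cancel₀ hk ?_
  linear_combination vc A i * h' j k - vc A j * h' i k + vc A' k * h i j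

/-- limits of matrices -/
def LM [IsLocalRing B] (U : Ultrafilter Wd) (x : Wd → M2 B) (y : M2 B) : Prop :=
  ∀ p q, Lim (maximalIdeal B) U (fun w => x w p q) (y p q)

variable [IsLocalRing B] {U : Ultrafilter Wd} {x x' : Wd → M2 B} {y y' : M2 B}

theorem LM.const (y : M2 B) : LM U (fun _ => y) y := fun _ _ => lconst _

theorem LM.mul (h : LM U x y) (h' : LM U x' y') : LM U (fun w => x w * x' w) (y * y') :=
  fun p q => lcongr (ladd (lmul (h p 0) (h' 0 q)) (lmul (h p 1) (h' 1 q))) (fun _ => mul2 _ _ _ _)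
    (mul2 _ _ _ _)

theorem LM.cube (h : LM U x y) : LM U (fun w => x w ^ 3) (y ^ 3) := by
  simp only [pow_three]
  exact h.mul (h.mul h)

theorem LM.uniq [IsNoetherianRing B] (h : LM U x y) (h' : LM U x' y')
    (e : ∀ᶠ w in (U : Filter Wd), x w = x' w) : y = y' := by
  ext p q
  refine sub_eq_zero.1 (luniq (U := (U : Filter Wd)) (x := fun _ => 0) (fun k => ?_) fun _ => rfl)
  refine ((lsub (h p q) (h' p q) k).and e).mono fun w hw => ?_
  have := hw.1
  simp only [hw.2, sub_self] at this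
  exact this

theorem LM.det [IsNoetherianRing B] (h : LM U x y) (e : ∀ w, (x w).det = 1) : y.det = 1 := by
  rw [det_fin_two]
  exact luniq (lsub (lmul (h 0 0) (h 1 1)) (lmul (h 0 1) (h 1 0))) fun w => by
    rw [← e w, det_fin_two]

theorem uni_mul {A A' : M2 B} (h : Uni A) (h' : Uni A') : Uni (A * A') := by
  obtain ⟨a, b, c, d⟩ := h
  obtain ⟨a', b', c', d'⟩ := h'
  refine ⟨by rw [det_mul, a, a', mul_one], ?_, ?_, ?_⟩ <;> rw [mul2]
  · convert add_mem (add_mem (Ideal.mul_mem_left _ (A' 0 0) b) b')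
      (Ideal.mul_mem_left _ (A 0 1) c') using 1
    ring
  · exact add_mem (Ideal.mul_mem_right _ _ c) (Ideal.mul_mem_left _ _ c')
  · convert add_mem (add_mem (Ideal.mul_mem_left _ (A' 1 1) d) d')
      (Ideal.mul_mem_left _ (A' 0 1) c) using 1
    ring

theorem uni_ev {X : Fin 4 → M2 B} (h : ∀ i, Uni (X i)) (w : Wd) : Uni (ev X w) := by
  induction w with
  | nil => exact ⟨det_one, by simp [ev_nil], by simp [ev_nil], by simp [ev_nil]⟩
  | cons i w ih => rw [ev_cons]; exact uni_mul (h i) ih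

end ring

theorem ev_ab {M : Type} [Monoid M] {X : Fin 4 → M} (hx : ∀ a, X (lx a) = 1)
    (hc : Commute (X (ly 0)) (X (ly 1))) (w : Wd) :
    ev X w = X (ly 0) ^ w.count (ly 0) * X (ly 1) ^ w.count (ly 1) := by
  induction w with
  | nil => simp [ev_nil]
  | cons i w ih =>
    rw [ev_cons, ih]
    rcases lxy i with ⟨a, rfl⟩ | ⟨a, rfl⟩
    · rw [hx, one_mul, List.count_cons_of_ne (lx_ne _ _), List.count_cons_of_ne (lx_ne _ _)]
    · have ha : a = 0 ∨ a = 1 := by revert a; decide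
      rcases ha with rfl | rfl
      · rw [List.count_cons_self, List.count_cons_of_ne (by decide), pow_succ', mul_assoc]
      · rw [List.count_cons_self, List.count_cons_of_ne (by decide), pow_succ', ← mul_assoc,
          ← mul_assoc, (hc.symm.pow_right _).eq]

/-- the part of the argument which needs limits -/
theorem partA {U : Ultrafilter Wd} (hU : Rel U) {B : Type} [CommRing B] [IsDomain B]
    [IsLocalRing B] [IsNoetherianRing B] [CharP B 3] (hB : Cpt B) {S N Z : M2 B}
    {X : Fin 4 → M2 B} (hX : ∀ i, Uni (X i)) (hI : Inv S X) (hN : N ≠ 0)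
    (hSN : S * N = -(N * S)) (hc : ∀ i, X i * N = N * X i) (hZ : LM U (ev X) Z)
    (hZS : S * Z = Z * S) :
    (∀ a, X (lx a) = 1) ∧ ∃ (e : Fin 2 → ℕ) (V : M2 B), (∃ j, (e j : ZMod 3) ≠ 0) ∧
      V * N = N * V ∧ (X (ly 0) ^ e 0 * X (ly 1) ^ e 1 * V ^ 3) ^ 3 = 1 := by
  have hx : ∀ a, X (lx a) = 1 := fun a =>
    eq_one (scal hI.sq hI.tr hN hSN (hI.x a) (hc _)) (hX _).1 (hX _).2.1
  have hy : Commute (X (ly 0)) (X (ly 1)) := comm hN (tr_zero hI.sq hSN) (hc _) (hc _)
  have hw : ∀ a b : ℕ, X (ly 0) ^ a * X (ly 1) ^ b * N = N * (X (ly 0) ^ a * X (ly 1) ^ b) :=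
    fun a b => (Commute.mul_left (Commute.pow_left (hc _) a) (Commute.pow_left (hc _) b)).eq
  have hZ1 : Z = 1 := by
    refine eq_one (scal hI.sq hI.tr hN hSN hZS ((hZ.mul (LM.const N)).uniq
      ((LM.const N).mul hZ) (Eventually.of_forall fun w => ?_)))
      (hZ.det (ev_det fun i => (hX i).1)) ?_
    · rw [ev_ab hx hy, hw]
    · obtain ⟨w, h⟩ := (hZ 0 0 1).exists
      rw [pow_one] at h
      convert sub_mem (uni_ev hX w).2.1 h using 1
      ring
  obtain ⟨e, he, hw9⟩ := hU.ori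
  choose V hV using fun p q => hB U fun w =>
    (X (ly 0) ^ (w.count (ly 0) / 9) * X (ly 1) ^ (w.count (ly 1) / 9)) p q
  have hV' : LM U (fun w => X (ly 0) ^ (w.count (ly 0) / 9) * X (ly 1) ^ (w.count (ly 1) / 9))
      (Matrix.of V) := hV
  refine ⟨hx, fun j => (e j).val, Matrix.of V, ?_, (hV'.mul (LM.const N)).uniq
    ((LM.const N).mul hV') (Eventually.of_forall fun w => hw _ _), ?_⟩
  · by_contra c
    push Not at c
    exact he (funext fun j => by simpa using c j)
  · rw [← hZ1]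
    refine ((LM.const _).mul hV'.cube).cube.uniq hZ (hw9.mono fun w h => ?_)
    have h9 : ∀ j, w.count (ly j) = ((e j).val + w.count (ly j) / 9 * 3) * 3 := fun j => by
      have h1 := (ZMod.natCast_eq_natCast_iff' (w.count (ly j)) (3 * (e j).val) 9).1
        (by rw [h j]; push_cast; rfl)
      have h2 := ZMod.val_lt (e j)
      omega
    rw [ev_ab hx hy]
    conv_rhs => rw [h9 0, h9 1]
    rw [pow_mul, pow_mul, ← (hy.pow_pow _ _).mul_pow, pow_add, pow_add, pow_mul, pow_mul,
      (hy.pow_pow _ _).mul_pow, ← pow_mul (X (ly 0)), ← pow_mul (X (ly 1)),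
      (hy.pow_pow _ _).symm.mul_mul_mul_comm]

section field

variable {K : Type} [Field K]

/-- the constants of a derivation -/
def kf (D : Derivation ℤ K K) : Subfield K where
  carrier := {x | D x = 0}
  mul_mem' {a b} ha hb := by
    rw [Set.mem_setOf_eq] at *
    rw [D.leibniz, ha, hb, smul_zero, smul_zero, add_zero]
  one_mem' := D.map_one_eq_zero
  add_mem' {a b} ha hb := by
    rw [Set.mem_setOf_eq] at *
    rw [map_add, ha, hb, add_zero]
  zero_mem' := map_zero D
  neg_mem' {a} ha := by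
    rw [Set.mem_setOf_eq] at *
    rw [map_neg, ha, neg_zero]
  inv_mem' a ha := by
    rw [Set.mem_setOf_eq] at *
    rw [D.leibniz_inv, ha, smul_zero]

theorem sq_kill [CharP K 3] {D : Derivation ℤ K K} {a : K} (h : D (a * a) = 0) : D a = 0 := by
  by_cases h0 : a = 0
  · rw [h0, map_zero]
  rw [D.leibniz, smul_eq_mul] at h
  refine mul_left_cancel₀ h0 ?_
  linear_combination -h + a * D a * three (B := K)

/-- the logarithmic derivative -/
def lg (D : Derivation ℤ K K) (A : M2 K) : K := A 0 0 * D (A 1 0) - A 1 0 * D (A 0 0)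

/-- the torus -/
def Tt (t : K) (A : M2 K) : Prop := A 1 1 = A 0 0 ∧ A 0 1 = t * A 1 0

theorem Tt.mul {t : K} {A A' : M2 K} (h : Tt t A) (h' : Tt t A') : Tt t (A * A') := by
  constructor <;> simp only [mul2, h.1, h.2, h'.1, h'.2] <;> ring

theorem Tt.pow {t : K} {A : M2 K} (h : Tt t A) (n : ℕ) : Tt t (A ^ n) := by
  induction n with
  | zero => exact ⟨by simp, by simp⟩
  | succ n ih => rw [pow_succ]; exact ih.mul h

theorem lg_mul {D : Derivation ℤ K K} {t : K} (ht : D t = 0) {A A' : M2 K} (h : Tt t A)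
    (h' : Tt t A') : lg D (A * A') = A'.det * lg D A + A.det * lg D A' := by
  simp only [lg, mul2, det_fin_two, h.1, h.2, h'.1, h'.2, map_add, D.leibniz, ht, smul_eq_mul]
  ring

theorem lg_pow {D : Derivation ℤ K K} {t : K} (ht : D t = 0) {A : M2 K} (h : Tt t A)
    (hd : A.det = 1) (n : ℕ) : lg D (A ^ n) = n * lg D A := by
  induction n with
  | zero => simp [lg]
  | succ n ih =>
    rw [pow_succ, lg_mul ht (h.pow n) h, ih, det_pow, hd]
    push_cast
    ring

theorem lg_kill [CharP K 3] {D : Derivation ℤ K K} {t : K} (ht : D t = 0) {A : M2 K} (h : Tt t A)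
    (hd : A.det = 1) (hl : D (A 1 0) = 0 ∨ lg D A = 0) : lg D A = 0 ∧ ∀ p q, D (A p q) = 0 := by
  rw [det_fin_two, h.1, h.2] at hd
  have h1 := congrArg D hd
  simp only [map_sub, D.leibniz, ht, smul_eq_mul, D.map_one_eq_zero] at h1
  have h3 := three (B := K)
  have h2 : D (A 1 0) = 0 := hl.elim id fun e => by
    rw [lg] at e
    linear_combination A 0 0 * e - A 1 0 * h1 - D (A 1 0) * hd +
      (A 0 0 * A 1 0 * D (A 0 0) - t * A 1 0 ^ 2 * D (A 1 0)) * h3
  have h4 : D (A 0 0) = 0 := sq_kill (by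
    rw [D.leibniz, smul_eq_mul]
    rw [h2] at h1
    linear_combination h1)
  refine ⟨by rw [lg, h2, h4]; ring, ?_⟩
  rw [Fin.forall_fin_two, Fin.forall_fin_two, Fin.forall_fin_two, h.1, h.2, D.leibniz, ht, h2]
  exact ⟨⟨h4, by simp⟩, rfl, h4⟩

/-- the diagonal frame -/
theorem core [CharP K 3] {N V : M2 K} {Y : Fin 2 → M2 K} (h0 : N 0 0 = 0) (h1 : N 1 1 = 0)
    (hN : N ≠ 0) (hd : ∀ j, (Y j).det = 1) (hY : ∀ j, Y j * N = N * Y j) (hV : V * N = N * V)
    {e : Fin 2 → ℕ} (he : ∃ j, (e j : ZMod 3) ≠ 0) (hW : (Y 0 ^ e 0 * Y 1 ^ e 1 * V ^ 3) ^ 3 = 1) :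
    ∃ u : Fin 2 → K, ∀ D : Derivation ℤ K K, (∀ i, D (u i) = 0) → ∀ j p q, D (Y j p q) = 0 := by
  have h3 := three (B := K)
  have cm : ∀ {A : M2 K}, A * N = N * A → A 1 1 = A 0 0 ∧ A 0 1 * N 1 0 = N 0 1 * A 1 0 := by
    intro A h
    have a1 := ent h 0 0
    have a2 := ent h 0 1
    have a3 := ent h 1 0
    simp only [mul2, h0, h1] at a1 a2 a3
    refine ⟨?_, by linear_combination a1⟩
    by_cases c : N 0 1 = 0
    · have c' : N 1 0 ≠ 0 := fun c' => hN (ext2 h0 c c' h1)
      exact mul_right_cancel₀ c' (by linear_combination a3)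
    · exact mul_right_cancel₀ c (by linear_combination -a2)
  by_cases c : N 1 0 = 0
  · have c' : N 0 1 ≠ 0 := fun c' => hN (ext2 h0 c' c h1)
    refine ⟨fun j => Y j 0 1, fun D hD j => ?_⟩
    obtain ⟨a1, a2⟩ := cm (hY j)
    rw [c, mul_zero] at a2
    have a3 := (mul_eq_zero.1 a2.symm).resolve_left c'
    have a4 := hd j
    rw [det_fin_two, a1, a3, mul_zero, sub_zero] at a4
    have a5 : D (Y j 0 0) = 0 := sq_kill (by rw [a4, D.map_one_eq_zero])
    rw [Fin.forall_fin_two, Fin.forall_fin_two, Fin.forall_fin_two, a1, a3]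
    exact ⟨⟨a5, hD j⟩, map_zero D, a5⟩
  have tt : ∀ {A : M2 K}, A * N = N * A → Tt (N 0 1 / N 1 0) A := fun h =>
    ⟨(cm h).1, by rw [div_mul_eq_mul_div, eq_div_iff c]; exact (cm h).2⟩
  generalize N 0 1 / N 1 0 = t at tt
  by_cases ct : t = 0
  · refine ⟨fun j => Y j 1 0, fun D hD j => ?_⟩
    exact (lg_kill (by rw [ct, map_zero]) (tt (hY j)) (hd j) (Or.inl (hD j))).2
  have key : ∀ D : Derivation ℤ K K, D t = 0 → e 0 * lg D (Y 0) + e 1 * lg D (Y 1) = 0 := by
    intro D ht
    have t1 := ((tt (hY 0)).pow (e 0)).mul ((tt (hY 1)).pow (e 1))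
    have t2 := (tt hV).pow 3
    have t3 := t1.mul t2
    have l1 := lg_mul ht t1 t2
    have l2 : lg D (V ^ 3) = 0 := by
      rw [pow_three, lg_mul ht (tt hV) ((tt hV).mul (tt hV)), lg_mul ht (tt hV) (tt hV), det_mul]
      linear_combination V.det * V.det * lg D V * h3
    have d1 : (V ^ 3).det ≠ 0 := fun d => by
      have := congrArg det hW
      rw [det_pow, det_mul, d, mul_zero, det_one] at this
      norm_num at this
    generalize Y 0 ^ e 0 * Y 1 ^ e 1 * V ^ 3 = W at hW t3 l1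
    have w1 := ent hW 1 0
    simp only [pow_three, mul2, t3.1, t3.2, one_apply_ne (show (1 : Fin 2) ≠ 0 by decide)] at w1
    have w2 : t * W 1 0 ^ 3 = 0 := by linear_combination w1 - W 0 0 ^ 2 * W 1 0 * h3
    have w3 : W 1 0 = 0 := pow_eq_zero_iff (by norm_num) |>.1 ((mul_eq_zero.1 w2).resolve_left ct)
    rw [lg, w3, map_zero, l2, lg_mul ht ((tt (hY 0)).pow _) ((tt (hY 1)).pow _),
      lg_pow ht (tt (hY 0)) (hd 0), lg_pow ht (tt (hY 1)) (hd 1), det_pow (Y 0), det_pow (Y 1),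
      hd, hd] at l1
    refine mul_left_cancel₀ d1 ?_
    linear_combination -l1
  have nz : ∀ n : ℕ, (n : ZMod 3) ≠ 0 → (n : K) ≠ 0 := fun n hn h =>
    hn ((ZMod.natCast_eq_zero_iff n 3).2 ((CharP.cast_eq_zero_iff K 3 n).1 h))
  obtain ⟨j, hj⟩ := he
  have hj' : j = 0 ∨ j = 1 := by clear hj; revert j; decide
  rcases hj' with rfl | rfl
  · refine ⟨![t, Y 1 1 0], fun D hD => ?_⟩
    obtain ⟨a1, a2⟩ := lg_kill (hD 0) (tt (hY 1)) (hd 1) (Or.inl (hD 1))
    have a3 := key D (hD 0)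
    rw [a1, mul_zero, add_zero] at a3
    rw [Fin.forall_fin_two]
    exact ⟨(lg_kill (hD 0) (tt (hY 0)) (hd 0)
      (Or.inr ((mul_eq_zero.1 a3).resolve_left (nz _ hj)))).2, a2⟩
  · refine ⟨![t, Y 0 1 0], fun D hD => ?_⟩
    obtain ⟨a1, a2⟩ := lg_kill (hD 0) (tt (hY 0)) (hd 0) (Or.inl (hD 1))
    have a3 := key D (hD 0)
    rw [a1, mul_zero, zero_add] at a3
    rw [Fin.forall_fin_two]
    exact ⟨a2, (lg_kill (hD 0) (tt (hY 1)) (hd 1)
      (Or.inr ((mul_eq_zero.1 a3).resolve_left (nz _ hj)))).2⟩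

theorem kf_mul {D : Derivation ℤ K K} {A A' : M2 K} (h : ∀ p q, D (A p q) = 0)
    (h' : ∀ p q, D (A' p q) = 0) (p q : Fin 2) : D ((A * A') p q) = 0 := by
  rw [mul2]
  exact (kf D).add_mem ((kf D).mul_mem (h _ _) (h' _ _)) ((kf D).mul_mem (h _ _) (h' _ _))

theorem partB0 [CharP K 3] {S N V : M2 K} {Y : Fin 2 → M2 K} (hS : S * S = 1) (ht : S.trace = 0)
    (hs : 1 + S 0 0 ≠ 0) (hN : N ≠ 0) (hSN : S * N = -(N * S)) (hd : ∀ j, (Y j).det = 1)
    (hY : ∀ j, Y j * N = N * Y j) (hV : V * N = N * V) {e : Fin 2 → ℕ}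
    (he : ∃ j, (e j : ZMod 3) ≠ 0) (hW : (Y 0 ^ e 0 * Y 1 ^ e 1 * V ^ 3) ^ 3 = 1) :
    ∃ u : Fin 4 → K, ∀ D : Derivation ℤ K K, (∀ i, D (u i) = 0) →
      (∀ p q, D (S p q) = 0) ∧ ∀ j p q, D (Y j p q) = 0 := by
  have h3 := three (B := K)
  rw [trace_fin_two] at ht
  have t1 : S 1 1 = -S 0 0 := by linear_combination ht
  have s1 := ent hS 0 0
  rw [mul2, one_apply_eq] at s1
  obtain ⟨c, hc⟩ : ∃ c, c * (1 + S 0 0) = 1 := ⟨_, inv_mul_cancel₀ hs⟩
  let P : M2 K := !![1 + S 0 0, -S 0 1; S 1 0, 1 + S 0 0]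
  let Q : M2 K := !![-c * (1 + S 0 0), -c * S 0 1; c * S 1 0, -c * (1 + S 0 0)]
  have hPQ : P * Q = 1 := by
    refine ext2 ?_ ?_ ?_ ?_ <;> simp [P, Q]
    · linear_combination -c * s1 + hc - c * (1 + S 0 0) * h3
    · ring
    · ring
    · linear_combination -c * s1 + hc - c * (1 + S 0 0) * h3
  have hQP := mul_eq_one_comm.1 hPQ
  have hSP : S * P = P * !![1, 0; 0, -1] := by
    refine ext2 ?_ ?_ ?_ ?_ <;> simp [P, mul2, t1]
    · linear_combination s1
    · ring
    · ring
    · linear_combination -s1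
  let f : M2 K →+* M2 K :=
    { toFun := fun A => Q * A * P
      map_one' := by rw [mul_one, hQP]
      map_mul' := fun A A' => by
        calc Q * (A * A') * P = Q * A * (P * Q) * A' * P := by
              rw [hPQ]; simp only [mul_assoc, mul_one]
          _ = _ := by simp only [mul_assoc]
      map_zero' := by simp
      map_add' := fun A A' => by rw [mul_add, add_mul] }
  have fi : ∀ A, A = P * f A * Q := fun A => by
    calc A = (P * Q) * A * (P * Q) := by rw [hPQ, one_mul, mul_one]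
      _ = P * (Q * A * P) * Q := by simp only [mul_assoc]
  have fS : f S = !![1, 0; 0, -1] := by
    show Q * S * P = _
    rw [mul_assoc, hSP, ← mul_assoc, hQP, one_mul]
  have fN := congrArg f hSN
  rw [map_neg, map_mul, map_mul, fS] at fN
  have n0 := ent fN 0 0
  have n1 := ent fN 1 1
  simp [mul2] at n0 n1
  obtain ⟨u, hu⟩ := core (N := f N) (V := f V) (Y := fun j => f (Y j))
    (by linear_combination -n0 + f N 0 0 * h3) (by linear_combination n1 + f N 1 1 * h3)
    (fun h => hN (by rw [fi N, h, mul_zero, zero_mul]))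
    (fun j => by
      show (Q * Y j * P).det = 1
      rw [det_mul, det_mul, hd, mul_one, ← det_mul, hQP, det_one])
    (fun j => by rw [← map_mul, hY, map_mul]) (by rw [← map_mul, hV, map_mul]) he
    (by rw [← map_pow, ← map_pow, ← map_pow, ← map_mul, ← map_mul, ← map_pow, hW, map_one])
  refine ⟨![S 0 1, S 1 0, u 0, u 1], fun D hD => ?_⟩
  have d1 : S 0 1 ∈ kf D := hD 0
  have d2 : S 1 0 ∈ kf D := hD 1
  have d0 : S 0 0 ∈ kf D := sq_kill (by
    rw [eq_sub_of_add_eq s1]
    exact (kf D).sub_mem (kf D).one_mem ((kf D).mul_mem d1 d2))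
  have d3 : 1 + S 0 0 ∈ kf D := (kf D).add_mem (kf D).one_mem d0
  have d4 : c ∈ kf D := by
    rw [eq_inv_of_mul_eq_one_left hc]
    exact (kf D).inv_mem d3
  have dP : ∀ p q, D (P p q) = 0 := by
    rw [Fin.forall_fin_two, Fin.forall_fin_two, Fin.forall_fin_two]
    exact ⟨⟨d3, (kf D).neg_mem d1⟩, d2, d3⟩
  have dQ : ∀ p q, D (Q p q) = 0 := by
    rw [Fin.forall_fin_two, Fin.forall_fin_two, Fin.forall_fin_two]
    exact ⟨⟨(kf D).mul_mem ((kf D).neg_mem d4) d3, (kf D).mul_mem ((kf D).neg_mem d4) d1⟩,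
      (kf D).mul_mem d4 d2, (kf D).mul_mem ((kf D).neg_mem d4) d3⟩
  refine ⟨?_, fun j => ?_⟩
  · rw [Fin.forall_fin_two, Fin.forall_fin_two, Fin.forall_fin_two, t1]
    exact ⟨⟨d0, d1⟩, d2, (kf D).neg_mem d0⟩
  · rw [fi (Y j)]
    refine kf_mul (kf_mul dP (hu D ?_ j)) dQ
    rw [Fin.forall_fin_two]
    exact ⟨hD 2, hD 3⟩

theorem partB [CharP K 3] {S N V : M2 K} {Y : Fin 2 → M2 K} (hS : S * S = 1) (ht : S.trace = 0)
    (hN : N ≠ 0) (hSN : S * N = -(N * S)) (hd : ∀ j, (Y j).det = 1)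
    (hY : ∀ j, Y j * N = N * Y j) (hV : V * N = N * V) {e : Fin 2 → ℕ}
    (he : ∃ j, (e j : ZMod 3) ≠ 0) (hW : (Y 0 ^ e 0 * Y 1 ^ e 1 * V ^ 3) ^ 3 = 1) :
    ∃ u : Fin 4 → K, ∀ D : Derivation ℤ K K, (∀ i, D (u i) = 0) →
      (∀ p q, D (S p q) = 0) ∧ ∀ j p q, D (Y j p q) = 0 := by
  by_cases hs : 1 + S 0 0 = 0
  · obtain ⟨u, hu⟩ := partB0 (S := -S) (by rw [neg_mul_neg, hS]) (by rw [trace_neg, ht, neg_zero])
      (fun h => by
        rw [Matrix.neg_apply] at h
        exact one_ne_zero (α := K) (by linear_combination -h - hs + three (B := K)))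
      hN (by rw [neg_mul, mul_neg, hSN]) hd hY hV he hW
    refine ⟨u, fun D hD => ⟨fun p q => ?_, (hu D hD).2⟩⟩
    have := (hu D hD).1 p q
    rwa [Matrix.neg_apply, map_neg, neg_eq_zero] at this
  · exact partB0 hS ht hs hN hSN hd hY hV he hW

end field

end Sg

open Sg in
/-- **the singular points depend on four parameters** -/
theorem sng {U : Ultrafilter Wd} (hU : Rel U) {B : Type} [CommRing B] [IsDomain B]
    [IsLocalRing B] [IsNoetherianRing B] [CharP B 3] (hB : Cpt B) {S N Z : M2 B}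
    {X : Fin 4 → M2 B} (hX : ∀ i, Uni (X i)) (hI : Inv S X) (hN : N ≠ 0)
    (hSN : S * N = -(N * S)) (hc : ∀ i, X i * N = N * X i) (hZ : LM U (ev X) Z)
    (hZS : S * Z = Z * S) (K : Type) [Field K] (ι : B →+* K) (hι : Function.Injective ι) :
    ∃ u : Fin 4 → K, ∀ D : Derivation ℤ K K, (∀ i, D (u i) = 0) →
      (∀ p q, D (ι (S p q)) = 0) ∧ ∀ i p q, D (ι (X i p q)) = 0 := by
  have _ : CharP K 3 := charP_of_injective_ringHom hι 3
  obtain ⟨hx, e, V, he, hV, hW⟩ := partA hU hB hX hI hN hSN hc hZ hZS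
  let f : M2 B →+* M2 K := ι.mapMatrix
  obtain ⟨u, hu⟩ := partB (S := f S) (N := f N) (V := f V) (Y := fun j => f (X (ly j)))
    (by rw [← map_mul, hI.sq, map_one])
    (by
      have := congrArg ι hI.tr
      rw [trace_fin_two, map_add, map_zero] at this
      rw [trace_fin_two]
      exact this)
    (fun h => hN (by
      ext p q
      exact hι ((ent h p q).trans (map_zero ι).symm)))
    (by rw [← map_mul, hSN, map_neg, map_mul])
    (fun j => by rw [← RingHom.map_det, (hX _).1, map_one])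
    (fun j => by rw [← map_mul, hc, map_mul]) (by rw [← map_mul, hV, map_mul]) he
    (by rw [← map_pow, ← map_pow, ← map_pow, ← map_mul, ← map_mul, ← map_pow, hW, map_one])
  refine ⟨u, fun D hD => ⟨(hu D hD).1, fun i p q => ?_⟩⟩
  rcases lxy i with ⟨a, rfl⟩ | ⟨a, rfl⟩
  · rw [hx, one_apply]
    split_ifs
    · rw [map_one, D.map_one_eq_zero]
    · rw [map_zero, map_zero]
  · exact (hu D hD).2 a p q

end Vale.Agent.P022K.L3.Al
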