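import Vale.Agent.P022K.L3.Fox
import Vale.Agent.P022K.L3.Sng

/-!
# P022K, block L3: the Jacobian at a point of characteristic three
-/

set_option linter.all false

noncomputable section

namespace Vale.Agent.P022K.L3.Al

open Filter IsLocalRing Matrix
open Vale.Agent.P022D.L2 (Lim Uni)
open Vale.Agent.P022D.L2.Pt (lconst ladd lmul lsub lcongr luniq Dr der_mul der_det der_one lmap
  lder)
open Sg

/-- the five matrices; `none` is the involution -/
abbrev Lt : Type := Option (Fin 4)

/-- the fourteen equations -/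
abbrev Eq3 : Type := Lt ⊕ Fin 3 ⊕ Fin 3 × Fin 2

section eqs

variable {R B : Type} [CommRing R] [CommRing B]

/-- the entries outside the diagonal -/
def od (T : M2 R) : Fin 2 → R := ![T 0 1, T 1 0]

/-- the equations; `Z` is the value of the relation -/
def eqs (M : Lt → M2 R) (δ : Lt → R) (Z : M2 R) : Eq3 → R
  | .inl o => (M o).det - δ o
  | .inr (.inl k) => (M none * ![1, M (some 2), M (some 3)] k).trace
  | .inr (.inr (k, a)) => od (![M (some 0), M (some 1), Z] k * M none -
      M none * ![M (some 0), M (some 1), Z] k) a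

theorem map_eqs (φ : R →+* B) (M : Lt → M2 R) (δ : Lt → R) (Z : M2 R) (i : Eq3) :
    φ (eqs M δ Z i) = eqs (fun o => (M o).map φ) (fun o => φ (δ o)) (Z.map φ) i := by
  rcases i with o | k | ⟨k, a⟩
  · simp only [eqs]
    rw [map_sub, RingHom.map_det, RingHom.mapMatrix_apply]
  · fin_cases k <;> simp [eqs, trace_fin_two, mul2]
  · fin_cases k <;> fin_cases a <;> simp [eqs, od, mul2]

theorem comm_of {W S : M2 R} (hs : IsUnit (S 0 0 - S 1 1)) (h : ∀ a, od (W * S - S * W) a = 0) :
    S * W = W * S := by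
  have h0 := h 0
  have h1 := h 1
  simp [od, mul2] at h0 h1
  have h2 : W 0 1 * S 1 0 - S 0 1 * W 1 0 = 0 :=
    hs.mul_left_cancel (by linear_combination -S 1 0 * h0 - S 0 1 * h1)
  refine ext2 ?_ ?_ ?_ ?_ <;> simp only [mul2]
  · linear_combination -h2
  · linear_combination -h0
  · linear_combination -h1
  · linear_combination h2

theorem sq_one {S : M2 R} (ht : S.trace = 0) (hd : S.det = -1) : S * S = 1 := by
  rw [trace_fin_two] at ht
  rw [det_fin_two] at hd
  refine ext2 ?_ ?_ ?_ ?_ <;> simp [mul2]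
  · linear_combination S 0 0 * ht - hd
  · linear_combination S 0 1 * ht
  · linear_combination S 1 0 * ht
  · linear_combination S 1 1 * ht - hd

/-- what the equations say -/
theorem inv_of {M : Lt → M2 R} {δ : Lt → R} {Z : M2 R} (h : ∀ i, eqs M δ Z i = 0)
    (h0 : δ none = -1) (h1 : ∀ i, δ (some i) = 1) (hs : IsUnit (M none 0 0 - M none 1 1)) :
    (M none).det = -1 ∧ (∀ i, (M (some i)).det = 1) ∧ Inv (M none) (fun i => M (some i)) ∧
      (∀ j, (M none * M (some (ly j))).trace = 0) ∧ M none * Z = Z * M none := by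
  have d0 : (M none).det = -1 := h0 ▸ sub_eq_zero.1 (h (.inl none))
  have d1 : ∀ i, (M (some i)).det = 1 := fun i => h1 i ▸ sub_eq_zero.1 (h (.inl (some i)))
  have t0 : (M none).trace = 0 := by simpa [eqs] using h (.inr (.inl 0))
  have t1 : ∀ j, (M none * M (some (ly j))).trace = 0 := by
    rw [Fin.forall_fin_two]
    exact ⟨h (.inr (.inl 1)), h (.inr (.inl 2))⟩
  refine ⟨d0, d1, ⟨sq_one t0 d0, t0, ?_, fun j => ?_⟩, t1,
    comm_of hs fun a => h (.inr (.inr (2, a)))⟩
  · rw [Fin.forall_fin_two]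
    exact ⟨comm_of hs fun a => h (.inr (.inr (0, a))), comm_of hs fun a => h (.inr (.inr (1, a)))⟩
  · have e := sq_one (t1 j) (by rw [det_mul, d0, d1, mul_one])
    rw [← mul_assoc] at e
    exact (Fx.adj_eq (d1 _) (mul_eq_one_comm.1 e)).symm

variable {φ : R →+* B} {δ : R →+ B}

theorem ev_der (h : Dr φ δ) {X : Fin 4 → M2 R} (h1 : ∀ i, ((X i).map φ).det = 1)
    {Y : Fin 4 → M2 B} (hY : ∀ i, (X i).map δ = Y i * (X i).map φ) (w : Wd) :
    (ev X w).map δ = dw (fun i => (X i).map φ) Y w * (ev X w).map φ := by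
  induction w with
  | nil =>
    ext p q
    by_cases e : p = q <;> simp [ev, dw, one_apply, e, der_one h]
  | cons i w ih =>
    have a : ((X i).map φ).adjugate * (X i).map φ = 1 := by rw [adjugate_mul, h1, one_smul]
    rw [ev_cons, der_mul h, ih, hY, Matrix.map_mul, dw, add_mul]
    simp only [Matrix.mul_assoc]
    rw [← Matrix.mul_assoc ((X i).map φ).adjugate, a, Matrix.one_mul]

theorem dw_eq (h : Dr φ δ) {X : Fin 4 → M2 R} (h1 : ∀ i, ((X i).map φ).det = 1)
    {Y : Fin 4 → M2 B} (hY : ∀ i, (X i).map δ = Y i * (X i).map φ) (w : Wd) :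
    dw (fun i => (X i).map φ) Y w = (ev X w).map δ * ((ev X w).map φ).adjugate := by
  rw [ev_der h h1 hY, Matrix.mul_assoc, mul_adjugate, ev_map, ev_det h1, one_smul, Matrix.mul_one]

/-- a combination of the coordinate derivations -/
def cmb (φ : R →+* B) (D : Lt → Fin 2 → Fin 2 → R →+ R) (c : Lt → M2 B) : R →+ B where
  toFun x := ∑ i, ∑ p, ∑ q, c i p q * φ (D i p q x)
  map_zero' := by simp
  map_add' x y := by simp only [map_add, mul_add, Finset.sum_add_distrib]

theorem cmb_app (D : Lt → Fin 2 → Fin 2 → R →+ R) (c : Lt → M2 B) (x : R) :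
    cmb φ D c x = ∑ i, ∑ p, ∑ q, c i p q * φ (D i p q x) := rfl

theorem cmb_dr {D : Lt → Fin 2 → Fin 2 → R →+ R}
    (hD : ∀ i p q x y, D i p q (x * y) = x * D i p q y + y * D i p q x) (c : Lt → M2 B) :
    Dr φ (cmb φ D c) := fun x y => by
  simp only [cmb_app, hD, map_add, map_mul, Finset.mul_sum, ← Finset.sum_add_distrib]
  refine Finset.sum_congr rfl fun i _ => Finset.sum_congr rfl fun p _ =>
    Finset.sum_congr rfl fun q _ => by ring

theorem cmb_X {D : Lt → Fin 2 → Fin 2 → R →+ R} {X : Lt → M2 R}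
    (hX : ∀ i p q i' p' q', D i p q (X i' p' q') = if i = i' ∧ p = p' ∧ q = q' then 1 else 0)
    (c : Lt → M2 B) (i : Lt) : (X i).map (cmb φ D c) = c i := by
  ext p q
  rw [map_apply, cmb_app, Finset.sum_eq_single i, Finset.sum_eq_single p, Finset.sum_eq_single q]
  · simp [hX]
  · intro b _ hb; simp [hX, hb]
  · simp
  · intro b _ hb; simp [hX, hb]
  · simp
  · intro b _ hb; simp [hX, hb]
  · simp

theorem cmb_rel {D : Lt → Fin 2 → Fin 2 → R →+ R} (c : Lt → M2 B) {ν : Eq3 → B} {f : Eq3 → R}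
    (h : ∀ i p q, ∑ k, ν k * φ (D i p q (f k)) = 0) : ∑ k, ν k * cmb φ D c (f k) = 0 := by
  have e : ∑ i, ∑ p, ∑ q, c i p q * ∑ k, ν k * φ (D i p q (f k)) = 0 := by
    simp only [h, mul_zero, Finset.sum_const_zero]
  rw [← e]
  simp only [cmb_app, Finset.mul_sum]
  rw [Finset.sum_comm]
  refine Finset.sum_congr rfl fun i _ => ?_
  rw [Finset.sum_comm]
  refine Finset.sum_congr rfl fun p _ => ?_
  rw [Finset.sum_comm]
  exact Finset.sum_congr rfl fun q _ => Finset.sum_congr rfl fun k _ => by ring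

/-- the linearised equations -/
def lin (M c : Lt → M2 B) (Z dZ : M2 B) : Eq3 → B
  | .inl o => (c o * (M o).adjugate).trace
  | .inr (.inl k) => (c none * ![1, M (some 2), M (some 3)] k +
      M none * ![0, c (some 2), c (some 3)] k).trace
  | .inr (.inr (k, a)) => od (![c (some 0), c (some 1), dZ] k * M none +
      ![M (some 0), M (some 1), Z] k * c none - (c none * ![M (some 0), M (some 1), Z] k +
      M none * ![c (some 0), c (some 1), dZ] k)) a

theorem der_eqs (h : Dr φ δ) (M : Lt → M2 R) {d : Lt → R} (hd : ∀ o, δ (d o) = 0) (Z : M2 R)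
    (i : Eq3) : δ (eqs M d Z i) =
      lin (fun o => (M o).map φ) (fun o => (M o).map δ) (Z.map φ) (Z.map δ) i := by
  have tr : ∀ A : M2 R, δ A.trace = (A.map δ).trace := fun A => by simp [trace_fin_two]
  have o1 : ∀ (A A' : M2 R) a, δ (od (A - A') a) = od (A.map δ - A'.map δ) a := fun A A' a => by
    fin_cases a <;> simp [od]
  have o2 : (1 : M2 R).map δ = 0 := by
    ext p q
    by_cases e : p = q <;> simp [one_apply, e, der_one h]
  rcases i with o | k | ⟨k, a⟩
  · simp only [eqs, lin]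
    rw [map_sub, hd, sub_zero, der_det h]
  · simp only [eqs, lin]
    rw [tr, der_mul h]
    fin_cases k <;> simp [o2]
  · simp only [eqs, lin]
    rw [o1, der_mul h, der_mul h]
    fin_cases k <;> rfl

theorem lin_sum (M c : Lt → M2 B) (Z dZ : M2 B) (ν : Eq3 → B) :
    ∑ k, ν k * lin M c Z dZ k = ∑ o, ν (.inl o) * (c o * (M o).adjugate).trace +
      (ν (.inr (.inl 0)) * (c none).trace +
        ν (.inr (.inl 1)) * (c none * M (some 2) + M none * c (some 2)).trace +
        ν (.inr (.inl 2)) * (c none * M (some 3) + M none * c (some 3)).trace) +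
      (∑ a, ν (.inr (.inr (0, a))) * od (c (some 0) * M none + M (some 0) * c none -
          (c none * M (some 0) + M none * c (some 0))) a +
        ∑ a, ν (.inr (.inr (1, a))) * od (c (some 1) * M none + M (some 1) * c none -
          (c none * M (some 1) + M none * c (some 1))) a +
        ∑ a, ν (.inr (.inr (2, a))) * od (dZ * M none + Z * c none -
          (c none * Z + M none * dZ)) a) := by
  rw [Fintype.sum_sum_type, Fintype.sum_sum_type, Fintype.sum_prod_type, Fin.sum_univ_three,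
    Fin.sum_univ_three, add_assoc]
  simp [lin]
  ring

theorem od_cm (x y : B) (S : M2 B) : od (!![0, x; y, 0] * S - S * !![0, x; y, 0]) 0 =
    x * (S 1 1 - S 0 0) ∧ od (!![0, x; y, 0] * S - S * !![0, x; y, 0]) 1 = y * (S 0 0 - S 1 1) := by
  constructor
  · show (_ - _ : M2 B) 0 1 = _
    rw [Matrix.sub_apply, mul2, mul2]
    simp
    ring
  · show (_ - _ : M2 B) 1 0 = _
    rw [Matrix.sub_apply, mul2, mul2]
    simp
    ring

theorem tr_cm (x y : B) (S T : M2 B) : ((S * !![0, x; y, 0] - !![0, x; y, 0] * S) * T).trace =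
    y * od (T * S - S * T) 0 + x * od (T * S - S * T) 1 := by
  show _ = y * (_ - _ : M2 B) 0 1 + x * (_ - _ : M2 B) 1 0
  simp only [trace_fin_two, Matrix.sub_apply, mul2]
  simp
  ring

/-- the first twelve equations are independent -/
theorem indep [IsDomain B] [CharP B 3] {M : Lt → M2 B} {Z : M2 B} {ν : Eq3 → B}
    (d0 : (M none).det = -1) (d1 : ∀ i, (M (some i)).det = 1)
    (hI : Inv (M none) fun i => M (some i)) (t1 : ∀ j, (M none * M (some (ly j))).trace = 0)
    (hs : IsUnit (M none 0 0 - M none 1 1)) (hz : ∀ a, ν (.inr (.inr (2, a))) = 0)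
    (h : ∀ c, ∃ dZ, ∑ k, ν k * lin M c Z dZ k = 0) : ν = 0 := by
  have h3 := three (B := B)
  have two : ∀ x : B, x * 2 = 0 → x = 0 := fun x e => by linear_combination -e + x * h3
  have ta : ∀ o, (M o * (M o).adjugate).trace = (M o).det * 2 := fun o => by
    rw [mul_adjugate, trace_smul, trace_one]
    simp
  have k : ∀ c0 c1 c2 c3 c4 : M2 B, ν (.inl none) * (c0 * (M none).adjugate).trace +
      (ν (.inl (some 0)) * (c1 * (M (some 0)).adjugate).trace +
      ν (.inl (some 1)) * (c2 * (M (some 1)).adjugate).trace +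
      ν (.inl (some 2)) * (c3 * (M (some 2)).adjugate).trace +
      ν (.inl (some 3)) * (c4 * (M (some 3)).adjugate).trace) +
      (ν (.inr (.inl 0)) * c0.trace +
        ν (.inr (.inl 1)) * (c0 * M (some 2) + M none * c3).trace +
        ν (.inr (.inl 2)) * (c0 * M (some 3) + M none * c4).trace) +
      (∑ a, ν (.inr (.inr (0, a))) * od (c1 * M none + M (some 0) * c0 -
          (c0 * M (some 0) + M none * c1)) a +
        ∑ a, ν (.inr (.inr (1, a))) * od (c2 * M none + M (some 1) * c0 -
          (c0 * M (some 1) + M none * c2)) a) = 0 := by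
    intro c0 c1 c2 c3 c4
    obtain ⟨dZ, e⟩ := h fun o => o.elim c0 ![c1, c2, c3, c4]
    rw [lin_sum, Fintype.sum_option, Fin.sum_univ_four] at e
    simp only [hz, zero_mul, Finset.sum_const_zero, add_zero] at e
    exact e
  have oz : ∀ a, od (0 : M2 B) a = 0 := fun a => by fin_cases a <;> rfl
  have x0 : M none * M (some 0) = M (some 0) * M none := hI.x 0
  have x1 : M none * M (some 1) = M (some 1) * M none := hI.x 1
  have y0 : (M none * M (some 2)).trace = 0 := t1 0
  have y1 : (M none * M (some 3)).trace = 0 := t1 1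
  have ss : (M none * M none).trace = 2 := by rw [hI.sq, trace_one]; simp
  have a0 : ν (.inl (some 0)) = 0 := two _ (by
    simpa [x0, oz, ta, d1] using k 0 (M (some 0)) 0 0 0)
  have a1 : ν (.inl (some 1)) = 0 := two _ (by
    simpa [x1, oz, ta, d1] using k 0 0 (M (some 1)) 0 0)
  have a2 : ν (.inl (some 2)) = 0 := two _ (by
    simpa [y0, oz, ta, d1] using k 0 0 0 (M (some 2)) 0)
  have a3 : ν (.inl (some 3)) = 0 := two _ (by
    simpa [y1, oz, ta, d1] using k 0 0 0 0 (M (some 3)))
  have b1 : ν (.inr (.inl 1)) = 0 := two _ (by simpa [a2, oz, ss] using k 0 0 0 (M none) 0)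
  have b2 : ν (.inr (.inl 2)) = 0 := two _ (by simpa [a3, oz, ss] using k 0 0 0 0 (M none))
  have hs' : ∀ x : B, x * (M none 1 1 - M none 0 0) = 0 → x = 0 := fun x e =>
    hs.mul_left_cancel (by linear_combination -e)
  have hs'' : ∀ x : B, x * (M none 0 0 - M none 1 1) = 0 → x = 0 := fun x e =>
    hs.mul_left_cancel (by linear_combination e)
  have c00 : ν (.inr (.inr (0, 0))) = 0 := hs' _ (by
    have := k 0 !![0, 1; 0, 0] 0 0 0
    simp only [a0, zero_mul, mul_zero, add_zero, zero_add, trace_zero, sub_self, oz,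
      Fin.sum_univ_two, od_cm] at this
    linear_combination this)
  have c01 : ν (.inr (.inr (0, 1))) = 0 := hs'' _ (by
    have := k 0 !![0, 0; 1, 0] 0 0 0
    simp only [a0, zero_mul, mul_zero, add_zero, zero_add, trace_zero, sub_self, oz,
      Fin.sum_univ_two, od_cm] at this
    linear_combination this)
  have c10 : ν (.inr (.inr (1, 0))) = 0 := hs' _ (by
    have := k 0 0 !![0, 1; 0, 0] 0 0
    simp only [a1, zero_mul, mul_zero, add_zero, zero_add, trace_zero, sub_self, oz,
      Fin.sum_univ_two, od_cm] at this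
    linear_combination this)
  have c11 : ν (.inr (.inr (1, 1))) = 0 := hs'' _ (by
    have := k 0 0 !![0, 0; 1, 0] 0 0
    simp only [a1, zero_mul, mul_zero, add_zero, zero_add, trace_zero, sub_self, oz,
      Fin.sum_univ_two, od_cm] at this
    linear_combination this)
  have e0 : ν (.inl none) = 0 := two _ (by
    have := k (M none) 0 0 0 0
    simp [b1, b2, c00, c01, c10, c11, ta, d0, hI.tr, -mul_eq_zero] at this
    linear_combination this)
  have e1 : ν (.inr (.inl 0)) = 0 := two _ (by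
    have := k 1 0 0 0 0
    simp [b1, b2, c00, c01, c10, c11, e0, -mul_eq_zero] at this
    linear_combination this)
  funext i
  rcases i with (_ | o) | k | ⟨k, a⟩
  · exact e0
  · fin_cases o
    exacts [a0, a1, a2, a3]
  · fin_cases k
    exacts [e1, b1, b2]
  · fin_cases k
    · fin_cases a
      exacts [c00, c01]
    · fin_cases a
      exacts [c10, c11]
    · exact hz a

end eqs

/-- **the dichotomy at a point** -/
theorem pt {U : Ultrafilter Wd} (hU : Rel U) {R : Type} [CommRing R] [IsLocalRing R]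
    {M : Lt → M2 R} {d : Lt → R} {Z : M2 R} (hZ : LM U (ev fun i => M (some i)) Z)
    (D : Lt → Fin 2 → Fin 2 → R →+ R)
    (hD : ∀ i p q x y, D i p q (x * y) = x * D i p q y + y * D i p q x)
    (hX : ∀ i p q i' p' q', D i p q (M i' p' q') = if i = i' ∧ p = p' ∧ q = q' then 1 else 0)
    (hd : ∀ i p q o, D i p q (d o) = 0)
    {B : Type} [CommRing B] [IsDomain B] [IsLocalRing B] [IsNoetherianRing B] [CharP B 3]
    (hB : Cpt B) (φ : R →+* B) (hφ : ∀ x ∈ maximalIdeal R, φ x ∈ maximalIdeal B)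
    (h : ∀ i, φ (eqs M d Z i) = 0) (h0 : φ (d none) = -1) (h1 : ∀ i, φ (d (some i)) = 1)
    (hs : IsUnit (φ (M none 0 0) - φ (M none 1 1)))
    (hu : ∀ i, φ (M (some i) 0 0) - 1 ∈ maximalIdeal B ∧ φ (M (some i) 1 0) ∈ maximalIdeal B ∧
      φ (M (some i) 1 1) - 1 ∈ maximalIdeal B)
    (K : Type) [Field K] [Algebra B K] [IsFractionRing B K] :
    (∀ l : Eq3 → K, (∀ i p q, ∑ k, l k * algebraMap B K (φ (D i p q (eqs M d Z k))) = 0) →
      l = 0) ∨ ∃ u : Fin 4 → K, ∀ D : Derivation ℤ K K, (∀ i, D (u i) = 0) →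
        ∀ o p q, D (algebraMap B K (φ (M o p q))) = 0 := by
  refine or_iff_not_imp_left.2 fun hn => ?_
  push Not at hn
  obtain ⟨l, hr, hne⟩ := hn
  have inj := IsFractionRing.injective B K
  obtain ⟨s, hs'⟩ := IsLocalization.exist_integer_multiples_of_finite (nonZeroDivisors B) l
  choose ν hν using hs'
  have s0 : algebraMap B K s ≠ 0 := IsFractionRing.to_map_ne_zero_of_mem_nonZeroDivisors s.2
  have hl : ∀ i, algebraMap B K (ν i) = algebraMap B K s * l i := fun i => by
    rw [hν, Algebra.smul_def]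
  have hr' : ∀ i p q, ∑ k, ν k * φ (D i p q (eqs M d Z k)) = 0 := fun i p q => by
    apply inj
    have := congrArg (algebraMap B K s * ·) (hr i p q)
    simp only [Finset.mul_sum, mul_zero] at this
    simp only [map_sum, map_mul, hl, map_zero, mul_assoc]
    exact this
  have hν0 : ν ≠ 0 := fun e => hne (funext fun i => by
    have := hl i
    rw [e, Pi.zero_apply, map_zero] at this
    exact (mul_eq_zero.1 this.symm).resolve_left s0)
  simp only [map_eqs] at h
  obtain ⟨d0, d1, hI, t1, hZS⟩ := inv_of h h0 h1 hs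
  have hun : ∀ i, Uni ((M (some i)).map φ) := fun i => ⟨d1 i, hu i⟩
  have lE : LM U (fun w => (ev (fun i => M (some i)) w).map φ) (Z.map φ) :=
    fun p q => lmap hφ (hZ p q)
  have rel : ∀ c, ∑ k, ν k * lin (fun o => (M o).map φ) c (Z.map φ) (Z.map (cmb φ D c)) k = 0 := by
    intro c
    have e := cmb_rel (φ := φ) c hr'
    have e1 := der_eqs (cmb_dr (φ := φ) hD c) M (d := d) (fun o => by simp [cmb_app, hd]) Z
    rw [funext (cmb_X (φ := φ) hX c)] at e1
    rw [← e]
    exact Finset.sum_congr rfl fun k _ => by rw [e1]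
  set S := (M none).map φ with hS
  set N0 : M2 B := !![0, ν (.inr (.inr (2, 1))); ν (.inr (.inr (2, 0))), 0] with hN0
  have dZ : (Z.map φ).det = 1 := lE.det fun w => by rw [ev_map, ev_det d1]
  have hSN : S * (Z.map φ * (S * N0 - N0 * S)) = -(Z.map φ * (S * N0 - N0 * S) * S) := by
    rw [← mul_assoc, hZS, mul_assoc, mul_assoc, ← mul_neg, mul_sub, sub_mul, ← mul_assoc S S,
      mul_assoc N0 S, hI.sq, one_mul, mul_one, neg_sub, mul_assoc]
  have hN : Z.map φ * (S * N0 - N0 * S) ≠ 0 := fun e => by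
    have e1 : S * N0 - N0 * S = 0 := by
      rw [← one_mul (S * N0 - N0 * S), ← one_smul B (1 : M2 B), ← dZ, ← adjugate_mul, mul_assoc, e,
        mul_zero]
    obtain ⟨e2, e3⟩ := od_cm (ν (.inr (.inr (2, 1)))) (ν (.inr (.inr (2, 0)))) S
    rw [← hN0, ← neg_sub, e1, neg_zero] at e2 e3
    change (0 : B) = _ at e2 e3
    refine hν0 (indep d0 d1 hI t1 hs ?_ fun c => ⟨_, rel c⟩)
    rw [Fin.forall_fin_two]
    exact ⟨hs.mul_left_cancel (by
        show (S 0 0 - S 1 1) * _ = (S 0 0 - S 1 1) * 0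
        linear_combination -e3),
      hs.mul_left_cancel (by
        show (S 0 0 - S 1 1) * _ = (S 0 0 - S 1 1) * 0
        linear_combination e2)⟩
  have hc := fox hU hun hI (tr_zero hI.sq hSN) hSN fun Y hY => by
    obtain ⟨c, c0, c1⟩ : ∃ c : Lt → M2 B, c none = 0 ∧
        ∀ i, c (some i) = Y i * (M (some i)).map φ :=
      ⟨fun o => o.elim 0 fun i => Y i * (M (some i)).map φ, rfl, fun _ => rfl⟩
    have hδ : Dr φ (cmb φ D c) := cmb_dr hD c
    have hY' : ∀ i, (M (some i)).map (cmb φ D c) = Y i * (M (some i)).map φ :=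
      fun i => (cmb_X hX c (some i)).trans (c1 i)
    have e := rel c
    have oz : ∀ a, od (0 : M2 B) a = 0 := fun a => by fin_cases a <;> rfl
    have q1 : ∀ i, (Y i * (M (some i)).map φ * ((M (some i)).map φ).adjugate).trace = 0 :=
      fun i => by rw [mul_assoc, mul_adjugate, d1, one_smul, mul_one, hY.tr]
    have q2 : ∀ j, (S * (Y (ly j) * (M (some (ly j))).map φ)).trace = 0 := fun j => by
      rw [trace_mul_comm, mul_assoc]
      exact hY.y j
    have q3 : ∀ j, Y (lx j) * (M (some (lx j))).map φ * S -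
        S * (Y (lx j) * (M (some (lx j))).map φ) = 0 := fun j => by
      rw [← mul_assoc, hY.x, mul_assoc, mul_assoc, hI.x, sub_self]
    have q20 : (S * (Y 2 * (M (some 2)).map φ)).trace = 0 := q2 0
    have q21 : (S * (Y 3 * (M (some 3)).map φ)).trace = 0 := q2 1
    have q30 : Y 0 * (M (some 0)).map φ * S - S * (Y 0 * (M (some 0)).map φ) = 0 := q3 0
    have q31 : Y 1 * (M (some 1)).map φ * S - S * (Y 1 * (M (some 1)).map φ) = 0 := q3 1
    rw [lin_sum, Fintype.sum_option] at e
    simp only [c0, c1, zero_mul, mul_zero, trace_zero, add_zero, zero_add, q1, ← hS, q20,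
      q21, q30, q31, oz, Finset.sum_const_zero] at e
    have lA : LM U (fun w => (ev (fun i => M (some i)) w).map (cmb φ D c)) (Z.map (cmb φ D c)) :=
      fun p q => lder hδ hφ (hZ p q)
    have lJ : LM U (fun w => ((ev (fun i => M (some i)) w).map φ).adjugate)
        (Z.map φ).adjugate := by
      have ng : ∀ p q, Lim (maximalIdeal B) U
          (fun w => -((ev (fun i => M (some i)) w).map φ) p q) (-(Z.map φ) p q) := fun p q =>
        lcongr (lsub (lconst 0) (lE p q)) (fun _ => (zero_sub _).symm) (zero_sub _).symm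
      simp only [adjugate_fin_two]
      intro p q
      fin_cases p <;> fin_cases q
      exacts [lE 1 1, ng 0 1, ng 1 0, lE 0 0]
    have lT := (LM.const (Z.map φ * (S * N0 - N0 * S))).mul (lA.mul lJ)
    refine lcongr (ladd (lT 0 0) (lT 1 1)) (fun w => by rw [dw_eq hδ d1 hY', trace_fin_two]) ?_
    rw [← trace_fin_two, ← mul_assoc, trace_mul_comm, ← mul_assoc, ← mul_assoc, adjugate_mul, dZ,
      one_smul, one_mul, ← e, hN0, tr_cm, Fin.sum_univ_two]
  obtain ⟨u, hu'⟩ := sng hU hB hun hI hN hSN hc (fun p q => lcongr (lE p q)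
    (fun w => (ent (ev_map φ _ w) p q).symm) rfl) hZS K (algebraMap B K) inj
  refine ⟨u, fun D' hD' o => ?_⟩
  rcases o with _ | i
  · exact (hu' D' hD').1
  · exact (hu' D' hD').2 i

end Vale.Agent.P022K.L3.Al
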