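import Vale.Agent.P022K.L3.Defs

/-!
# P022K, block L3: a relation of Demushkin type, for given letters
-/

set_option linter.all false

noncomputable section

namespace Vale.Agent.P022K.L3

open Filter

namespace RelP

theorem ev_nil {M : Type*} [Monoid M] (X : Fin 4 → M) : ev X [] = 1 := rfl

theorem ev_cons {M : Type*} [Monoid M] (X : Fin 4 → M) (i : Fin 4) (w : Wd) :
    ev X (i :: w) = X i * ev X w := by simp [ev]

theorem ev_app {M : Type*} [Monoid M] (X : Fin 4 → M) (w w' : Wd) :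
    ev X (w ++ w') = ev X w * ev X w' := by simp [ev]

theorem ev_map {M M' : Type*} [Monoid M] [Monoid M'] (ρ : M →* M') (X : Fin 4 → M) (w : Wd) :
    ev (fun i => ρ (X i)) w = ρ (ev X w) := by
  induction w with
  | nil => simp [ev_nil]
  | cons i w ih => rw [ev_cons, ev_cons, map_mul, ih]

theorem mA_cons (j i : Fin 4) (w : Wd) : mA j (i :: w) = (if i = j then 1 else 0) + mA j w := by
  simp [mA, fx]

theorem mA_eq (j : Fin 4) (w : Wd) : mA j w = (w.count j : ℕ) := by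
  induction w with
  | nil => simp [mA, fx]
  | cons i w ih =>
    rw [mA_cons, ih, List.count_cons]
    by_cases h : i = j <;> simp [h, add_comm]

variable {G : Type} [Group G] [TopologicalSpace G]

/-- characters -/
def Hm (f : G → ZMod 3) : Prop := IsLocallyConstant f ∧ ∀ x y, f (x * y) = f x + f y

/-- coboundaries -/
def Cb (a b : G → ZMod 3) : Prop :=
  ∃ z : G → ZMod 3, IsLocallyConstant z ∧ ∀ x y, z (x * y) = z x + z y + a x * b y

theorem Hm.one {f : G → ZMod 3} (h : Hm f) : f 1 = 0 := by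
  have := h.2 1 1
  rw [one_mul] at this
  exact left_eq_add.1 this

theorem hom_ev {b : G → ZMod 3} (h : Hm b) (g : Fin 4 → G) (w : Wd) :
    b (ev g w) = ∑ j, b (g j) * mA j w := by
  induction w with
  | nil => simp [ev_nil, mA, fx, h.one]
  | cons k w ih =>
    rw [ev_cons, h.2, ih]
    simp only [mA_cons, mul_add, Finset.sum_add_distrib, mul_ite, mul_one, mul_zero,
      Finset.sum_ite_eq, Finset.mem_univ, if_true]

/-- the second order term of a word -/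
def cw (g : Fin 4 → G) (a b : G → ZMod 3) : Wd → ZMod 3
  | [] => 0
  | k :: w => cw g a b w + a (g k) * b (ev g w)

theorem cw_app {a b : G → ZMod 3} (ha : Hm a) (hb : Hm b) (g : Fin 4 → G) (w w' : Wd) :
    cw g a b (w ++ w') = cw g a b w + cw g a b w' + a (ev g w) * b (ev g w') := by
  induction w with
  | nil => simp [cw, ev_nil, ha.one]
  | cons k w ih =>
    rw [List.cons_append, cw, cw, ih, ev_app, ev_cons, ha.2, hb.2]
    ring

theorem cw_eq {a b : G → ZMod 3} (hb : Hm b) (g : Fin 4 → G) (w : Wd) :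
    cw g a b w = ∑ i, ∑ j, a (g i) * b (g j) * mC i j w := by
  induction w with
  | nil => simp [cw, mC]
  | cons k w ih =>
    rw [cw, ih, hom_ev hb]
    simp only [mC, mul_add, Finset.sum_add_distrib]
    congr 1
    rw [Finset.mul_sum, eq_comm, Finset.sum_eq_single k]
    · simp [mul_assoc]
    · intro i _ hi
      simp [Ne.symm hi]
    · simp

theorem cup_ev {a b z : G → ZMod 3} (ha : Hm a)
    (hz : ∀ x y, z (x * y) = z x + z y + a x * b y) (g : Fin 4 → G) (w : Wd) :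
    z (ev g w) = cw g a b w + ∑ j, z (g j) * mA j w := by
  induction w with
  | nil =>
    have := hz 1 1
    rw [one_mul, ha.one, zero_mul, add_zero] at this
    simp [ev_nil, cw, mA, fx, left_eq_add.1 this]
  | cons k w ih =>
    rw [ev_cons, hz, ih, cw]
    simp only [mA_cons, mul_add, Finset.sum_add_distrib, mul_ite, mul_one, mul_zero,
      Finset.sum_ite_eq, Finset.mem_univ, if_true]
    ring

/-- reduction -/
abbrev rd : ZMod 9 →+* ZMod 3 := ZMod.castHom (show 3 ∣ 9 by norm_num) (ZMod 3)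

theorem kum_ev {a b : G → ZMod 3} {u : G → ZMod 9} (u1 : u 1 = 0)
    (hu : ∀ x y, u (x * y) = u x + (1 + 3 * ((a x).val : ZMod 9)) * u y) (hb : ∀ x, rd (u x) = b x)
    (g : Fin 4 → G) (w : Wd) :
    u (ev g w) = ∑ j, u (g j) * (w.count j : ℕ) + 3 * ((cw g a b w).val : ZMod 9) := by
  induction w with
  | nil => simp [ev_nil, cw, u1]
  | cons k w ih =>
    have e : ∀ (s t : ZMod 3) (v : ZMod 9), 3 * ((s + t * rd v).val : ZMod 9) =
        3 * (s.val : ZMod 9) + 3 * (t.val : ZMod 9) * v := by decide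
    have e' : ∑ j, u (g j) * ((k :: w).count j : ℕ) = u (g k) + ∑ j, u (g j) * (w.count j : ℕ) := by
      simp only [List.count_cons, Nat.cast_add, mul_add, Finset.sum_add_distrib, beq_iff_eq,
        Nat.cast_ite, Nat.cast_one, Nat.cast_zero, mul_ite, mul_one, mul_zero, Finset.sum_ite_eq,
        Finset.mem_univ, if_true]
      ring
    rw [ev_cons, hu, cw, ← hb, e, e']
    linear_combination ih

/-- open normal subgroups with a 3-group as quotient -/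
structure Ok (N : Subgroup G) : Prop where
  nm : N.Normal
  op : IsOpen (N : Set G)
  pw : ∀ x, ∃ k : ℕ, x ^ 3 ^ k ∈ N

theorem Ok.inf {N N' : Subgroup G} (h : Ok N) (h' : Ok N') : Ok (N ⊓ N') := by
  haveI := h.nm
  haveI := h'.nm
  refine ⟨inferInstance, h.op.inter h'.op, fun x => ?_⟩
  obtain ⟨k, hk⟩ := h.pw x
  obtain ⟨l, hl⟩ := h'.pw x
  refine ⟨k + l, ?_, ?_⟩
  · rw [pow_add, pow_mul]
    exact N.pow_mem hk _
  · rw [pow_add, mul_comm, pow_mul]
    exact N'.pow_mem hl _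

theorem ok_ker {M : Type} [Monoid M] {ρ : G →* M} (h : IsOpen {x | ρ x = 1})
    (h' : ∀ x, ∃ k : ℕ, ρ x ^ 3 ^ k = 1) : Ok ρ.ker :=
  ⟨inferInstance, h, fun x => (h' x).imp fun k hk => by rw [MonoidHom.mem_ker, map_pow, hk]⟩

theorem ok_cup {a b z : G → ZMod 3} (ha : Hm a) (hb : Hm b) (z1 : IsLocallyConstant z)
    (hz : ∀ x y, z (x * y) = z x + z y + a x * b y) :
    ∃ N, Ok N ∧ ∀ x ∈ N, a x = 0 ∧ b x = 0 ∧ z x = 0 := by
  have z0 : z 1 = 0 := by
    have := hz 1 1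
    rw [one_mul, ha.one, zero_mul, add_zero] at this
    exact left_eq_add.1 this
  let ρ : G →* Matrix (Fin 3) (Fin 3) (ZMod 3) :=
    { toFun := fun x => !![1, a x, z x; 0, 1, b x; 0, 0, 1]
      map_one' := by rw [ha.one, hb.one, z0, Matrix.one_fin_three]
      map_mul' := fun x y => by
        rw [ha.2, hb.2, hz, Matrix.mul_fin_three]
        ext i j
        fin_cases i <;> fin_cases j <;> simp <;> ring }
  refine ⟨ρ.ker, ok_ker (((ha.1.prodMk (hb.1.prodMk z1)).comp fun t =>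
    (!![1, t.1, t.2.2; 0, 1, t.2.1; 0, 0, 1] : Matrix (Fin 3) (Fin 3) (ZMod 3))).isOpen_fiber 1)
    fun x => ⟨1, ?_⟩, fun x hx => ?_⟩
  · have e : ∀ s : ZMod 3, s + s + s = 0 := by decide
    have e' : ∀ s p q : ZMod 3, s + s + p * q + s + (p + p) * q = 0 := by decide
    rw [pow_one, ← map_pow, pow_three']
    change !![1, a _, z _; 0, 1, b _; 0, 0, 1] = 1
    rw [ha.2, ha.2, hb.2, hb.2, hz, hz, ha.2, e, e, e', Matrix.one_fin_three]
  · have h : ρ x = 1 := hx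
    exact ⟨congrFun (congrFun h 0) 1, congrFun (congrFun h 1) 2, congrFun (congrFun h 0) 2⟩

theorem ok_hm {a b : G → ZMod 3} (ha : Hm a) (hb : Hm b) :
    ∃ N, Ok N ∧ ∀ x ∈ N, a x = 0 ∧ b x = 0 := by
  obtain ⟨N, h, e⟩ := ok_cup ha (b := 0) (z := b) ⟨IsLocallyConstant.const 0, by simp⟩ hb.1
    fun x y => by simp [hb.2]
  exact ⟨N, h, fun x hx => ⟨(e x hx).1, (e x hx).2.2⟩⟩

theorem ok_kum {a : G → ZMod 3} {u : G → ZMod 9} (ha : Hm a) (h1 : IsLocallyConstant u)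
    (hu : ∀ x y, u (x * y) = u x + (1 + 3 * ((a x).val : ZMod 9)) * u y) :
    u 1 = 0 ∧ ∃ N, Ok N ∧ ∀ x ∈ N, u x = 0 := by
  have u1 : u 1 = 0 := by
    have := hu 1 1
    rw [one_mul, ha.one] at this
    simpa using this
  have e : ∀ s t : ZMod 3, (1 + 3 * ((s + t).val : ZMod 9)) =
      (1 + 3 * (s.val : ZMod 9)) * (1 + 3 * (t.val : ZMod 9)) := by decide
  let ρ : G →* Matrix (Fin 2) (Fin 2) (ZMod 9) :=
    { toFun := fun x => !![1 + 3 * ((a x).val : ZMod 9), u x; 0, 1]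
      map_one' := by rw [ha.one, u1, Matrix.one_fin_two]; rfl
      map_mul' := fun x y => by
        rw [ha.2, hu, e, Matrix.mul_fin_two]
        ext i j
        fin_cases i <;> fin_cases j <;> simp <;> ring }
  refine ⟨u1, ρ.ker, ok_ker (((ha.1.prodMk h1).comp fun t =>
    (!![1 + 3 * (t.1.val : ZMod 9), t.2; 0, 1] : Matrix (Fin 2) (Fin 2) (ZMod 9))).isOpen_fiber 1)
    fun x => ⟨2, ?_⟩, fun x hx => ?_⟩
  · have e' : ∀ (s : ZMod 3) (v : ZMod 9),
        (!![1 + 3 * (s.val : ZMod 9), v; 0, 1] : Matrix (Fin 2) (Fin 2) (ZMod 9)) ^ 3 ^ 2 = 1 := by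
      decide
    exact e' _ _
  · have h : ρ x = 1 := hx
    exact congrFun (congrFun h 0) 1

variable [IsTopologicalGroup G]

theorem lc_of {N : Subgroup G} (h : IsOpen (N : Set G)) {A : Type*} {b : G → A}
    (hb : ∀ x y, x⁻¹ * y ∈ N → b y = b x) : IsLocallyConstant b :=
  (IsLocallyConstant.iff_exists_open b).2 fun x =>
    ⟨{y | x⁻¹ * y ∈ N}, h.preimage (continuous_const.mul continuous_id),
      by simp [N.one_mem], fun y hy => hb x y hy⟩

theorem ex_hom {Q : Type*} [Group Q] [Finite Q] (hQ : IsPGroup 3 Q) {K : Subgroup Q}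
    (hK : IsCoatom K) : ∃ f : Q →* Multiplicative (ZMod 3), f.ker = K := by
  haveI : Fact (Nat.Prime 3) := ⟨Nat.prime_three⟩
  haveI := hQ.isNilpotent
  haveI hn : K.Normal := Subgroup.NormalizerCondition.normal_of_coatom K
    normalizerCondition_of_isNilpotent hK
  haveI : Nontrivial (Q ⧸ K) := QuotientGroup.nontrivial_iff.2 hK.1
  obtain ⟨n, n0, hn'⟩ := (hQ.to_quotient K).nontrivial_iff_card.1 inferInstance
  obtain ⟨t, ht⟩ := exists_prime_orderOf_dvd_card' (G := Q ⧸ K) 3 (hn' ▸ dvd_pow_self 3 n0.ne')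
  have top : Subgroup.zpowers t = ⊤ := by
    have h1 : K < (Subgroup.zpowers t).comap (QuotientGroup.mk' K) := by
      obtain ⟨s, rfl⟩ := QuotientGroup.mk_surjective t
      refine lt_of_le_of_ne (fun x hx => ?_) fun e => ?_
      · rw [Subgroup.mem_comap, QuotientGroup.mk'_apply, (QuotientGroup.eq_one_iff x).2 hx]
        exact one_mem _
      · have : s ∈ K := e ▸ Subgroup.mem_zpowers _
        rw [(QuotientGroup.eq_one_iff s).2 this, orderOf_one] at ht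
        omega
    refine eq_top_iff.2 fun y _ => ?_
    obtain ⟨s, rfl⟩ := QuotientGroup.mk_surjective y
    have := Subgroup.mem_top s
    rwa [← hK.2 _ h1] at this
  have hc : Nat.card (Q ⧸ K) = 3 := by
    rw [← Subgroup.card_top, ← top, Nat.card_zpowers, ht]
  let e : Q ⧸ K ≃* Multiplicative (ZMod 3) := mulEquivOfPrimeCardEq hc (by simp)
  refine ⟨e.toMonoidHom.comp (QuotientGroup.mk' K), ?_⟩
  ext x
  simp [MonoidHom.mem_ker]

variable [CompactSpace G] {g : Fin 4 → G}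

theorem gen (L : ∀ f, Hm f → (∀ j, f (g j) = 0) → ∀ x, f x = 0) {N : Subgroup G} (h : Ok N)
    (x : G) : ∃ w : Wd, (ev g w)⁻¹ * x ∈ N := by
  classical
  haveI := h.nm
  haveI := Subgroup.quotient_finite_of_isOpen N h.op
  have hQ : IsPGroup 3 (G ⧸ N) := fun y => by
    obtain ⟨x, rfl⟩ := QuotientGroup.mk_surjective y
    obtain ⟨k, hk⟩ := h.pw x
    exact ⟨k, by rw [← QuotientGroup.mk_pow, QuotientGroup.eq_one_iff]; exact hk⟩
  obtain ⟨H, hH⟩ : ∃ H : Subgroup (G ⧸ N), ∀ y, y ∈ H ↔ ∃ w, ((ev g w : G) : G ⧸ N) = y := by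
    have pw : ∀ (w : Wd) (n : ℕ), ∃ w', ev g w' = ev g w ^ n := fun w n => by
      induction n with
      | zero => exact ⟨[], by rw [pow_zero, ev_nil]⟩
      | succ n ih =>
        obtain ⟨w', e⟩ := ih
        exact ⟨w' ++ w, by rw [ev_app, e, pow_succ]⟩
    refine ⟨⟨⟨⟨{y | ∃ w, ((ev g w : G) : G ⧸ N) = y}, ?_⟩, [], rfl⟩, ?_⟩, fun _ => Iff.rfl⟩
    · rintro _ _ ⟨w, rfl⟩ ⟨w', rfl⟩
      exact ⟨w ++ w', by rw [ev_app, QuotientGroup.mk_mul]⟩
    · rintro _ ⟨w, rfl⟩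
      obtain ⟨k, hk⟩ := hQ (ev g w : G)
      obtain ⟨w', e⟩ := pw w (3 ^ k - 1)
      refine ⟨w', eq_inv_of_mul_eq_one_left ?_⟩
      rw [e, QuotientGroup.mk_pow, ← pow_succ, Nat.sub_add_cancel (Nat.one_le_pow _ _ three_pos),
        hk]
  rcases eq_top_or_exists_le_coatom H with e | ⟨K, k1, k2⟩
  · obtain ⟨w, hw⟩ := (hH x).1 (e ▸ Subgroup.mem_top _)
    exact ⟨w, QuotientGroup.eq.1 hw⟩
  · obtain ⟨f, rfl⟩ := ex_hom hQ k1
    have := L (fun x => (f (x : G ⧸ N)).toAdd)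
      ⟨lc_of h.op fun x y e => by rw [QuotientGroup.eq.2 e], fun x y => by
        simp only [QuotientGroup.mk_mul, map_mul, toAdd_mul]⟩
      fun j => congrArg Multiplicative.toAdd
        (k2 ((hH _).2 ⟨[j], by rw [ev_cons, ev_nil, mul_one]⟩) : f _ = 1)
    refine (k1.1 (eq_top_iff.2 fun y _ => ?_)).elim
    obtain ⟨x, rfl⟩ := QuotientGroup.mk_surjective y
    exact congrArg Multiplicative.ofAdd (this x)

theorem ex_cw (L : ∀ f, Hm f → (∀ j, f (g j) = 0) → ∀ x, f x = 0) {a b : G → ZMod 3} (ha : Hm a)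
    (hb : Hm b) (hc : ¬ Cb a b) {N : Subgroup G} (h : Ok N) (h0 : ∀ x ∈ N, a x = 0 ∧ b x = 0) :
    ∃ w, ev g w ∈ N ∧ cw g a b w ≠ 0 := by
  by_contra c
  push Not at c
  have m : ∀ x y, x⁻¹ * y ∈ N → a y = a x ∧ b y = b x := fun x y e => by
    have h1 := ha.2 x (x⁻¹ * y)
    have h2 := hb.2 x (x⁻¹ * y)
    rw [mul_inv_cancel_left] at h1 h2
    rw [(h0 _ e).1, add_zero] at h1
    rw [(h0 _ e).2, add_zero] at h2
    exact ⟨h1, h2⟩
  have wd : ∀ w w', (ev g w)⁻¹ * ev g w' ∈ N → cw g a b w' = cw g a b w := fun w w' e => by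
    obtain ⟨v, hv⟩ := gen L h (ev g w)⁻¹
    have a1 : ev g (w ++ v) ∈ N := by
      have := N.inv_mem hv
      rwa [mul_inv_rev, inv_inv, inv_inv, ← ev_app] at this
    have a2 : ev g (w' ++ v) ∈ N := by
      have := N.mul_mem (h.nm.conj_mem _ e (ev g w)) a1
      rw [ev_app] at this ⊢
      rwa [show ev g w * ((ev g w)⁻¹ * ev g w') * (ev g w)⁻¹ * (ev g w * ev g v) =
        ev g w' * ev g v by group] at this
    have b1 := c _ a1
    have b2 := c _ a2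
    rw [cw_app ha hb] at b1 b2
    rw [(m _ _ e).1] at b2
    linear_combination b2 - b1
  choose W hW using gen L h
  refine hc ⟨fun x => cw g a b (W x), lc_of h.op fun x y e => wd _ _ ?_, fun x y => ?_⟩
  · have := N.mul_mem (N.mul_mem (hW x) e) (N.inv_mem (hW y))
    rwa [show (ev g (W x))⁻¹ * x * (x⁻¹ * y) * ((ev g (W y))⁻¹ * y)⁻¹ =
      (ev g (W x))⁻¹ * ev g (W y) by group] at this
  · rw [(m _ _ (hW x)).1, (m _ _ (hW y)).2, ← cw_app ha hb]
    refine wd _ _ ?_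
    have := N.mul_mem (N.mul_mem (h.nm.conj_mem _ (hW x) (ev g (W y))⁻¹) (hW y))
      (N.inv_mem (hW (x * y)))
    rw [ev_app]
    rwa [show (ev g (W y))⁻¹ * ((ev g (W x))⁻¹ * x) * (ev g (W y))⁻¹⁻¹ * ((ev g (W y))⁻¹ * y) *
      ((ev g (W (x * y)))⁻¹ * (x * y))⁻¹ = (ev g (W x) * ev g (W y))⁻¹ * ev g (W (x * y)) by
        group] at this

theorem cramer {p q r s x y : ZMod 3} (h : p * s - q * r ≠ 0) (h1 : p * x + q * y = 0)
    (h2 : r * x + s * y = 0) : x = 0 ∧ y = 0 := by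
  haveI : Fact (Nat.Prime 3) := ⟨Nat.prime_three⟩
  exact ⟨(mul_eq_zero.1 (by linear_combination s * h1 - q * h2 : (p * s - q * r) * x = 0)).resolve_left
    h, (mul_eq_zero.1 (by linear_combination p * h2 - r * h1 :
      (p * s - q * r) * y = 0)).resolve_left h⟩

theorem dv : ∀ n : ZMod 9, rd n = 0 →
    n = 3 * ((((n.val / 3 : ℕ) : ZMod 3).val : ℕ) : ZMod 9) := by decide

theorem k3 : ∀ (v : ZMod 9) (t : ZMod 9), rd v = 0 → v * (3 * t) = 0 := by decide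

theorem k3' : ∀ s : ZMod 3, 3 * (s.val : ZMod 9) = 0 → s = 0 := by decide

/-- **the relation** -/
theorem rel (L : ∀ f, Hm f → (∀ j, f (g j) = 0) → ∀ x, f x = 0) {a b : Fin 2 → G → ZMod 3}
    (ha : ∀ i, Hm (a i)) (hb : ∀ i, Hm (b i)) (ay : ∀ i, a i (g 2) = 0 ∧ a i (g 3) = 0)
    (bx : ∀ i, b i (g 0) = 0 ∧ b i (g 1) = 0)
    (da : a 0 (g 0) * a 1 (g 1) - a 0 (g 1) * a 1 (g 0) ≠ 0)
    (db : b 0 (g 2) * b 1 (g 3) - b 0 (g 3) * b 1 (g 2) ≠ 0)
    (c00 : ¬ Cb (a 0) (b 0)) (c10 : Cb (a 1) (b 0)) (c11 : ¬ Cb (a 1) (b 1)) {u : G → ZMod 9}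
    (u0 : IsLocallyConstant u)
    (hu : ∀ x y, u (x * y) = u x + (1 + 3 * ((a 1 x).val : ZMod 9)) * u y)
    (ub : ∀ x, rd (u x) = b 1 x) :
    ∃ U : Ultrafilter Wd, Rel U ∧ ∀ N, Ok N → ∀ᶠ w in (U : Filter Wd), ev g w ∈ N := by
  haveI : Fact (Nat.Prime 3) := ⟨Nat.prime_three⟩
  obtain ⟨z, z1, z2⟩ := c10
  obtain ⟨N1, o1, r1⟩ := ok_cup (ha 1) (hb 0) z1 z2
  obtain ⟨N2, o2, r2⟩ := ok_hm (ha 0) (hb 1)
  obtain ⟨u1, N3, o3, r3⟩ := ok_kum (ha 1) u0 hu
  let cm : Wd → Matrix (Fin 2) (Fin 2) (ZMod 3) := fun w => Matrix.of fun i j => mC (lx i) (ly j) w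
  let ex : Wd → Fin 2 → ZMod 3 := fun w j => ((w.count (ly j) : ZMod 9).val / 3 : ℕ)
  obtain ⟨S, hS⟩ : ∃ S : {N : Subgroup G // Ok N} → Set Wd, ∀ N w, w ∈ S N ↔ ev g w ∈ N.1 ∧
      (∀ j, mA j w = 0) ∧ (cm w).det ≠ 0 ∧ ex w ≠ 0 := ⟨fun N => {w | _}, fun _ _ => Iff.rfl⟩
  have ne : ∀ N, (S N).Nonempty := fun N => by
    have o := ((N.2.inf o1).inf o2).inf o3
    obtain ⟨w, ⟨⟨⟨h0, h1⟩, h2⟩, h3⟩, m0, m1⟩ : ∃ w, ev g w ∈ N.1 ⊓ N1 ⊓ N2 ⊓ N3 ∧
        cw g (a 0) (b 0) w ≠ 0 ∧ cw g (a 1) (b 1) w ≠ 0 := by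
      obtain ⟨w, h, m⟩ := ex_cw L (ha 0) (hb 0) c00 o fun x hx =>
        ⟨(r2 x hx.1.2).1, (r1 x hx.1.1.2).2.1⟩
      obtain ⟨w', h', m'⟩ := ex_cw L (ha 1) (hb 1) c11 o fun x hx =>
        ⟨(r1 x hx.1.1.2).1, (r2 x hx.1.2).2⟩
      by_cases k : cw g (a 1) (b 1) w = 0
      · by_cases k' : cw g (a 0) (b 0) w' = 0
        · refine ⟨w ++ w', by rw [ev_app]; exact mul_mem h h', ?_, ?_⟩
          · rwa [cw_app (ha 0) (hb 0), k', (r2 _ h.1.2).1, zero_mul, add_zero, add_zero]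
          · rwa [cw_app (ha 1) (hb 1), k, (r1 _ h.1.1.2).1, zero_mul, add_zero, zero_add]
        · exact ⟨w', h', k', m'⟩
      · exact ⟨w, h, m, k⟩
    have hA : ∀ j, mA j w = 0 := by
      have e0 := hom_ev (ha 0) g w
      have e1 := hom_ev (ha 1) g w
      have e2 := hom_ev (hb 0) g w
      have e3 := hom_ev (hb 1) g w
      rw [(r2 _ h2).1] at e0
      rw [(r1 _ h1).1] at e1
      rw [(r1 _ h1).2.1] at e2
      rw [(r2 _ h2).2] at e3
      simp only [Fin.sum_univ_four, ay, bx, zero_mul, add_zero, zero_add] at e0 e1 e2 e3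
      have k := cramer da e0.symm e1.symm
      have k' := cramer db e2.symm e3.symm
      intro j
      fin_cases j
      exacts [k.1, k.2, k'.1, k'.2]
    have m2 := cup_ev (ha 1) z2 g w
    simp only [(r1 _ h1).2.2, hA, mul_zero, Finset.sum_const_zero, add_zero] at m2
    refine ⟨w, (hS N w).2 ⟨h0, hA, fun d => ?_, fun d => m1 ?_⟩⟩
    · rw [cw_eq (hb 0)] at m0 m2
      rw [cw_eq (hb 1)] at m1
      rw [Matrix.det_fin_two] at d
      simp only [cm, Matrix.of_apply, lx, ly, Matrix.cons_val_zero, Matrix.cons_val_one] at d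
      simp only [Fin.sum_univ_four, ay, bx, zero_mul, mul_zero, add_zero, zero_add] at m0 m1 m2
      refine mul_ne_zero m0 m1 ?_
      linear_combination ((a 0 (g 0) * a 1 (g 1) - a 0 (g 1) * a 1 (g 0)) *
        (b 0 (g 2) * b 1 (g 3) - b 0 (g 3) * b 1 (g 2))) * d -
        (a 0 (g 0) * b 1 (g 2) * mC 0 2 w + a 0 (g 0) * b 1 (g 3) * mC 0 3 w +
          (a 0 (g 1) * b 1 (g 2) * mC 1 2 w + a 0 (g 1) * b 1 (g 3) * mC 1 3 w)) * m2
    · have k := kum_ev u1 hu ub g w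
      have c : ∀ j, ((w.count j : ℕ) : ZMod 9) =
          3 * (((((w.count j : ℕ) : ZMod 9).val / 3 : ℕ) : ZMod 3).val : ZMod 9) := fun j =>
        dv _ (by rw [map_natCast, ← mA_eq, hA])
      have d2 : ((((w.count 2 : ℕ) : ZMod 9).val / 3 : ℕ) : ZMod 3) = 0 := congrFun d 0
      have d3 : ((((w.count 3 : ℕ) : ZMod 9).val / 3 : ℕ) : ZMod 3) = 0 := congrFun d 1
      rw [r3 _ h3, Fin.sum_univ_four, c 0, c 1, c 2, c 3, d2, d3, k3 _ _ ((ub _).trans (bx 1).1),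
        k3 _ _ ((ub _).trans (bx 1).2)] at k
      exact k3' _ (by simpa using k.symm)
  haveI : Nonempty {N : Subgroup G // Ok N} := ⟨⟨N1, o1⟩⟩
  haveI : (⨅ N, 𝓟 (S N)).NeBot := iInf_neBot_of_directed'
    (fun N N' => ⟨⟨N.1 ⊓ N'.1, N.2.inf N'.2⟩,
      principal_mono.2 fun w hw => (hS _ _).2 ⟨((hS _ _).1 hw).1.1, ((hS _ _).1 hw).2⟩,
      principal_mono.2 fun w hw => (hS _ _).2 ⟨((hS _ _).1 hw).1.2, ((hS _ _).1 hw).2⟩⟩)
    fun N => principal_neBot_iff.2 (ne N)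
  obtain ⟨U, mem⟩ : ∃ U : Ultrafilter Wd, ∀ N, ∀ᶠ w in (U : Filter Wd), w ∈ S N :=
    ⟨Ultrafilter.of (⨅ N, 𝓟 (S N)), fun N =>
      Ultrafilter.of_le _ (mem_iInf_of_mem N (mem_principal_self _))⟩
  have m := (mem ⟨N1, o1⟩).mono fun w hw => ((hS _ _).1 hw).2
  obtain ⟨⟨c, e⟩, hc⟩ := Ultrafilter.eq_pure_of_finite (U.map fun w => (cm w, ex w))
  have hc' : ∀ᶠ w in (U : Filter Wd), (cm w, ex w) = (c, e) := by
    have : {(c, e)} ∈ U.map fun w => (cm w, ex w) := by rw [hc]; exact Ultrafilter.mem_pure.2 rfl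
    exact Ultrafilter.mem_map.1 this
  obtain ⟨w0, k1, k2⟩ := (m.and hc').exists
  obtain ⟨rfl, rfl⟩ := Prod.mk.inj k2
  refine ⟨U, ⟨m.mono fun w hw => hw.1, ⟨_, k1.2.1, hc'.mono fun w hw i j => ?_⟩, _, k1.2.2,
    (m.and hc').mono fun w hw j => ?_⟩, fun N h => (mem ⟨N, h⟩).mono fun w hw => ((hS _ _).1 hw).1⟩
  · exact congrFun (congrFun (Prod.mk.inj hw).1 i) j
  · rw [← (Prod.mk.inj hw.2).2]
    exact dv _ (by rw [map_natCast, ← mA_eq, hw.1.1])

end RelP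

end Vale.Agent.P022K.L3
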