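import Vale.Agent.P022D.L2.Pt
import Vale.Agent.P022D.L2.Fox

/-!
# P022K, block L3 (local ring at three): words in four letters, statements of the algebraic rows
-/

set_option linter.all false

noncomputable section

namespace Vale.Agent.P022K.L3.Al

open Filter IsLocalRing
open Vale.Agent.P022D.L2 (Lim Uni)

/-- positive words in four letters; `0, 1` are fixed, `2, 3` are inverted by the involution -/
abbrev Wd : Type := List (Fin 4)

/-- two by two matrices -/
abbrev M2 (A : Type) : Type := Matrix (Fin 2) (Fin 2) A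

/-- value of a word -/
def ev {M : Type*} [Monoid M] (X : Fin 4 → M) (w : Wd) : M := (w.map X).prod

/-- Magnus coefficient of degree one -/
def mA (j : Fin 4) (w : Wd) : ZMod 3 := (w.count j : ZMod 3)

/-- Magnus coefficient of degree two -/
def mC (i j : Fin 4) : Wd → ZMod 3
  | [] => 0
  | k :: w => mC i j w + (if k = i then mA j w else 0)

/-- the fixed letters -/
def lx : Fin 2 → Fin 4 := ![0, 1]

/-- the inverted letters -/
def ly : Fin 2 → Fin 4 := ![2, 3]

/-- the relation -/
structure Rel (U : Ultrafilter Wd) : Prop where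
  one : ∀ᶠ w in (U : Filter Wd), ∀ j, mA j w = 0
  two : ∃ c : M2 (ZMod 3), c.det ≠ 0 ∧ ∀ᶠ w in (U : Filter Wd), ∀ i j, mC (lx i) (ly j) w = c i j
  ori : ∃ e : Fin 2 → ZMod 3, e ≠ 0 ∧
    ∀ᶠ w in (U : Filter Wd), ∀ j, (w.count (ly j) : ZMod 9) = 3 * ((e j).val : ZMod 9)

/-- a homomorphism with open kernel which maps `H` onto a 3-group -/
def Thr {G M : Type*} [Group G] [TopologicalSpace G] [Monoid M] (H : Subgroup G) (ρ : G →* M) :
    Prop :=
  IsOpen {x | ρ x = 1} ∧ ∀ x ∈ H, ∃ k : ℕ, ρ x ^ 3 ^ k = 1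

/-- `δ` is an involution, the letters are fixed or inverted, the relation holds and `δ, g`
generate, in every finite quotient in which the image of `H` is a 3-group -/
def Holds {G : Type} [Group G] [TopologicalSpace G] (H : Subgroup G) (δ : G) (g : Fin 4 → G)
    (U : Ultrafilter Wd) : Prop :=
  ∀ (M : Type) [Monoid M] (ρ : G →* M), Thr H ρ →
    ρ δ * ρ δ = 1 ∧ (∀ i, ρ δ * ρ (g (lx i)) = ρ (g (lx i)) * ρ δ) ∧
    (∀ j, ρ δ * ρ (g (ly j)) * ρ δ * ρ (g (ly j)) = 1) ∧
    (∀ᶠ w in (U : Filter Wd), ev (fun i => ρ (g i)) w = 1) ∧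
    ∀ x, ∃ w : Wd, ρ x = ev (fun i => ρ (g i)) w ∨ ρ x = ρ δ * ev (fun i => ρ (g i)) w

/-- **the input from the group**: `b` is a character with values `± 1` -/
def Pre {G : Type} [Group G] [TopologicalSpace G] (H : Subgroup G) (b : G →* ℤˣ) : Prop :=
  ∃ (δ : G) (g : Fin 4 → G) (U : Ultrafilter Wd), δ ∉ H ∧ (∀ i, g i ∈ H) ∧ (∀ i, b (g i) = 1) ∧
    Rel U ∧ Holds H δ g U

/-- ultrafilter limits exist -/
def Cpt (B : Type) [CommRing B] [IsLocalRing B] : Prop :=
  ∀ (U : Ultrafilter Wd) (x : Wd → B), ∃ y, Lim (maximalIdeal B) U x y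

/-- derivative of a word in the direction `X i ↦ (1 + ε Y i) X i`, times the inverse -/
def dw {B : Type} [CommRing B] (X Y : Fin 4 → M2 B) : Wd → M2 B
  | [] => 0
  | i :: w => Y i + X i * dw X Y w * (X i).adjugate

/-- the relations with the involution -/
structure Inv {B : Type} [CommRing B] (S : M2 B) (X : Fin 4 → M2 B) : Prop where
  sq : S * S = 1
  tr : S.trace = 0
  x : ∀ i, S * X (lx i) = X (lx i) * S
  y : ∀ j, S * X (ly j) * S = (X (ly j)).adjugate

/-- the directions which respect the relations -/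
structure Dir {B : Type} [CommRing B] (S : M2 B) (X Y : Fin 4 → M2 B) : Prop where
  tr : ∀ i, (Y i).trace = 0
  x : ∀ i, S * Y (lx i) = Y (lx i) * S
  y : ∀ j, (Y (ly j) * (X (ly j) * S)).trace = 0

theorem lxy (i : Fin 4) : (∃ a, i = lx a) ∨ ∃ a, i = ly a := by
  revert i
  decide

theorem lx_ne (a b : Fin 2) : lx a ≠ ly b := by
  revert a b
  decide

theorem lx_inj : Function.Injective lx := by decide

theorem ly_inj : Function.Injective ly := by decide

theorem sum4 {A : Type*} [AddCommMonoid A] (f : Fin 4 → A) :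
    ∑ i, f i = ∑ a, f (lx a) + ∑ a, f (ly a) := by
  simp only [Fin.sum_univ_four, Fin.sum_univ_two, add_assoc]
  rfl

theorem ev_nil {M : Type*} [Monoid M] (X : Fin 4 → M) : ev X [] = 1 := rfl

theorem ev_cons {M : Type*} [Monoid M] (X : Fin 4 → M) (i : Fin 4) (w : Wd) :
    ev X (i :: w) = X i * ev X w := by simp [ev]

theorem ev_hom {M N : Type*} [Monoid M] [Monoid N] (f : M →* N) (X : Fin 4 → M) (w : Wd) :
    f (ev X w) = ev (fun i => f (X i)) w := by
  induction w with
  | nil => exact map_one f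
  | cons i w ih => rw [ev_cons, ev_cons, map_mul, ih]

theorem mA_nil (j : Fin 4) : mA j [] = 0 := by simp [mA]

theorem mA_cons (j i : Fin 4) (w : Wd) : mA j (i :: w) = (if i = j then 1 else 0) + mA j w := by
  by_cases h : i = j
  · simp [mA, h, add_comm]
  · simp [mA, h, List.count_cons_of_ne h]

theorem mC_sym {i j : Fin 4} (h : i ≠ j) (w : Wd) : mC i j w + mC j i w = mA i w * mA j w := by
  induction w with
  | nil => simp [mA, mC]
  | cons k w ih =>
    rw [mC, mC, mA_cons, mA_cons]
    by_cases h1 : k = i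
    · have h2 : k ≠ j := h1 ▸ h
      rw [if_pos h1, if_neg h2, if_pos h1, if_neg h2]
      linear_combination ih
    · by_cases h2 : k = j
      · rw [if_neg h1, if_pos h2, if_neg h1, if_pos h2]
        linear_combination ih
      · rw [if_neg h1, if_neg h2, if_neg h1, if_neg h2]
        linear_combination ih

theorem ev_map {R B : Type} [CommRing R] [CommRing B] (φ : R →+* B) (X : Fin 4 → M2 R) (w : Wd) :
    (ev X w).map φ = ev (fun i => (X i).map φ) w := by
  induction w with
  | nil => simp [ev]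
  | cons i w ih => rw [ev_cons, ev_cons, Matrix.map_mul, ih]

theorem ev_det {B : Type} [CommRing B] {X : Fin 4 → M2 B} (h : ∀ i, (X i).det = 1) (w : Wd) :
    (ev X w).det = 1 := by
  induction w with
  | nil => simp [ev]
  | cons i w ih => rw [ev_cons, Matrix.det_mul, h, ih, mul_one]

theorem cpt (B : Type) [CommRing B] [IsLocalRing B] [IsNoetherianRing B]
    [IsPrecomplete (maximalIdeal B) B] [Finite (ResidueField B)] : Cpt B := by
  intro U x
  have hf : ∀ k : ℕ, Finite (B ⧸ maximalIdeal B ^ k) := fun k =>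
    haveI : Finite (B ⧸ maximalIdeal B) := inferInstanceAs (Finite (ResidueField B))
    Ideal.finite_quotient_pow (IsNoetherian.noetherian _) k
  have h1 : ∀ k : ℕ, ∃ y : B, ∀ᶠ w in (U : Filter Wd), x w - y ∈ maximalIdeal B ^ k := by
    intro k
    haveI := hf k
    obtain ⟨c, hc⟩ := Ultrafilter.eq_pure_of_finite
      (U.map fun w => Ideal.Quotient.mk (maximalIdeal B ^ k) (x w))
    obtain ⟨y, rfl⟩ := Ideal.Quotient.mk_surjective c
    refine ⟨y, ?_⟩
    have : {Ideal.Quotient.mk (maximalIdeal B ^ k) y} ∈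
        U.map fun w => Ideal.Quotient.mk (maximalIdeal B ^ k) (x w) := by
      rw [hc]; exact Ultrafilter.mem_pure.2 rfl
    filter_upwards [Ultrafilter.mem_map.1 this] with w hw
    exact Ideal.Quotient.eq.1 hw
  choose y hy using h1
  obtain ⟨L, hL⟩ := IsPrecomplete.prec (inferInstance : IsPrecomplete (maximalIdeal B) B) (f := y)
    (fun {m n} hmn => by
      obtain ⟨w, h1, h2⟩ := ((hy m).and (hy n)).exists
      rw [SModEq.sub_mem, smul_eq_mul, Ideal.mul_top]
      have := Ideal.sub_mem _ (Ideal.pow_le_pow_right hmn h2) h1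
      rwa [show x w - y n - (x w - y m) = y m - y n by ring] at this)
  refine ⟨L, fun k => ?_⟩
  filter_upwards [hy k] with w hw
  have h2 := hL k
  rw [SModEq.sub_mem, smul_eq_mul, Ideal.mul_top] at h2
  have := Ideal.add_mem _ hw h2
  rwa [show x w - y k + (y k - L) = x w - L by ring] at this

end Vale.Agent.P022K.L3.Al
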